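import Vale.Agent.P253.MathlibUsed
import Vale.Agent.P253.Mfd.Defs

set_option linter.all false

section

section

open scoped ContDiff Topology
open Set Metric Complex

set_option maxSynthPendingDepth 3
set_option linter.unusedSectionVars false

noncomputable section

namespace Vale.Agent.P253.Mfd

variable {E : Type*} [NormedAddCommGroup E] [NormedSpace ℂ E]

/-- Koszul expression of a metric `G` on a vector space. -/
def koszul (G : E → E →L[ℝ] E →L[ℝ] ℝ) (z u v w : E) : ℝ :=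
  fderiv ℝ G z u v w + fderiv ℝ G z v u w - fderiv ℝ G z w u v

/-- Koszul expression as a continuous multilinear map. -/
def koszulL (G : E → E →L[ℝ] E →L[ℝ] ℝ) (z : E) : E →L[ℝ] E →L[ℝ] E →L[ℝ] ℝ :=
  fderiv ℝ G z + (fderiv ℝ G z).flip -
    ((ContinuousLinearMap.flipₗᵢ ℝ E E ℝ).toContinuousLinearEquiv.toContinuousLinearMap).comp
      (fderiv ℝ G z).flip

theorem koszulL_apply (G : E → E →L[ℝ] E →L[ℝ] ℝ) (z u v w : E) :
    koszulL G z u v w = koszul G z u v w := by
  simp [koszulL, koszul]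

/-- Christoffel symbol. -/
def chris (G : E → E →L[ℝ] E →L[ℝ] ℝ) (z : E) : E →L[ℝ] E →L[ℝ] E :=
  (1/2 : ℝ) • (ContinuousLinearMap.compL ℝ E (E →L[ℝ] ℝ) E (ContinuousLinearMap.inverse (G z))).comp
    (koszulL G z)

/-- A Riemannian metric on an open set which is Kähler for the flat complex structure. -/
structure LocalKahler (G : E → E →L[ℝ] E →L[ℝ] ℝ) (U : Set E) : Prop where
  isOpen : IsOpen U
  smooth : ContDiffOn ℝ ∞ G U
  symm : ∀ z ∈ U, ∀ v w, G z v w = G z w v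
  pos : ∀ z ∈ U, ∀ v, v ≠ 0 → 0 < G z v v
  herm : ∀ z ∈ U, ∀ v w, G z (I • v) (I • w) = G z v w
  par : ∀ z ∈ U, ∀ u v, chris G z u (I • v) = I • chris G z u v

/-- holomorphic bisectional curvature (normalised) -/
def Rc (G : E → E →L[ℝ] E →L[ℝ] ℝ) (z X a : E) : ℝ :=
  G z (chris G z X a) (chris G z X a)
    - (fderiv ℝ (fderiv ℝ G) z X X a a + fderiv ℝ (fderiv ℝ G) z (I • X) (I • X) a a) / 4

variable [FiniteDimensional ℂ E] {G : E → E →L[ℝ] E →L[ℝ] ℝ} {U : Set E} {z : E}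

theorem isInvertible_of_pos (hpos : ∀ v, v ≠ 0 → 0 < G z v v) : (G z).IsInvertible := by
  have hfd : FiniteDimensional ℝ E := FiniteDimensional.complexToReal E
  have hinj : Function.Injective (G z : E →ₗ[ℝ] (E →L[ℝ] ℝ)) := by
    rw [injective_iff_map_eq_zero]
    intro v hv
    by_contra hne
    have := hpos v hne
    have h0 : G z v v = 0 := by
      have : (G z : E →ₗ[ℝ] (E →L[ℝ] ℝ)) v = G z v := rfl
      rw [← this, hv]; rfl
    linarith only [this, h0]
  have hfin : Module.finrank ℝ E = Module.finrank ℝ (E →L[ℝ] ℝ) := by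
    rw [← (LinearMap.toContinuousLinearMap (𝕜 := ℝ) (E := E) (F' := ℝ)).finrank_eq]
    simp
  have : FiniteDimensional ℝ (E →L[ℝ] ℝ) := inferInstance
  refine ⟨(LinearEquiv.ofInjectiveOfFinrankEq _ hinj hfin).toContinuousLinearEquiv, ?_⟩
  ext v w
  rfl

theorem chris_spec_of_pos (hpos : ∀ v, v ≠ 0 → 0 < G z v v) (u v w : E) :
    2 * G z (chris G z u v) w = koszul G z u v w := by
  obtain ⟨T, hT⟩ := isInvertible_of_pos hpos
  have h1 : chris G z u v = (1/2 : ℝ) • T.symm (koszulL G z u v) := by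
    simp only [chris, ← hT, ContinuousLinearMap.inverse_equiv]
    rfl
  rw [h1, ← koszulL_apply]
  rw [map_smul, ← hT]
  simp

theorem eq_chris_of_pos (hpos : ∀ v, v ≠ 0 → 0 < G z v v) (u v c : E)
    (hc : ∀ w, 2 * G z c w = koszul G z u v w) : c = chris G z u v := by
  by_contra hne
  have h1 := hpos (c - chris G z u v) (sub_ne_zero.2 hne)
  have h2 := hc (c - chris G z u v)
  have h3 := chris_spec_of_pos hpos u v (c - chris G z u v)
  have : G z (c - chris G z u v) (c - chris G z u v) = 0 := by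
    rw [map_sub (G z), sub_apply]
    linarith only [h2, h3]
  linarith only [h1, this]

namespace LocalKahler

theorem chris_spec (h : LocalKahler G U) (hz : z ∈ U) (u v w : E) :
    2 * G z (chris G z u v) w = koszul G z u v w :=
  chris_spec_of_pos (h.pos z hz) u v w

omit [FiniteDimensional ℂ E] in
theorem fderiv_symm (h : LocalKahler G U) (hz : z ∈ U) (u v w : E) :
    fderiv ℝ G z u v w = fderiv ℝ G z u w v := by
  have hd : DifferentiableAt ℝ G z :=
    (h.smooth.contDiffAt (h.isOpen.mem_nhds hz)).differentiableAt (by simp)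
  have h1 : HasFDerivAt (fun y => G y v w) (((fderiv ℝ G z).flip v).flip w) z := by
    have := (hd.hasFDerivAt.clm_apply (hasFDerivAt_const v z)).clm_apply (hasFDerivAt_const w z)
    convert! this using 1
    ext u
    simp
  have h2 : HasFDerivAt (fun y => G y w v) (((fderiv ℝ G z).flip w).flip v) z := by
    have := (hd.hasFDerivAt.clm_apply (hasFDerivAt_const w z)).clm_apply (hasFDerivAt_const v z)
    convert! this using 1
    ext u
    simp
  have h3 : (fun y => G y v w) =ᶠ[𝓝 z] (fun y => G y w v) := by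
    filter_upwards [h.isOpen.mem_nhds hz] with y hy using h.symm y hy v w
  have h4 := (h1.congr_of_eventuallyEq h3.symm).unique h2
  have := congrArg (fun T => T u) h4
  simpa using this

theorem chris_symm (h : LocalKahler G U) (hz : z ∈ U) (u v : E) :
    chris G z u v = chris G z v u := by
  refine eq_chris_of_pos (h.pos z hz) v u _ (fun w => ?_)
  rw [h.chris_spec hz, koszul, koszul, h.fderiv_symm hz w u v]
  ring

theorem par_left (h : LocalKahler G U) (hz : z ∈ U) (u v : E) :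
    chris G z (I • u) v = I • chris G z u v := by
  rw [h.chris_symm hz, h.par z hz, h.chris_symm hz]

/-- metric compatibility -/
theorem fderiv_eq (h : LocalKahler G U) (hz : z ∈ U) (u v w : E) :
    fderiv ℝ G z u v w = G z (chris G z u v) w + G z v (chris G z u w) := by
  have h1 := h.chris_spec hz u v w
  have h2 := h.chris_spec hz u w v
  rw [h.symm z hz v]
  simp only [koszul] at h1 h2
  rw [h.fderiv_symm hz u w v, h.fderiv_symm hz v u w, h.fderiv_symm hz w u v] at *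
  linarith only [h1, h2]

/-- The key consequence of the Kähler condition. -/
theorem fderiv_add_I (h : LocalKahler G U) (hz : z ∈ U) (X B a : E) :
    fderiv ℝ G z X B a + fderiv ℝ G z (I • X) (I • B) a = 2 * G z B (chris G z X a) := by
  rw [h.fderiv_eq hz, h.fderiv_eq hz, h.par_left hz, h.par z hz, h.par_left hz, h.herm z hz,
    smul_smul, I_mul_I, neg_one_smul, map_neg, neg_apply]
  ring

/-- Master identity for second variations. -/
theorem star (h : LocalKahler G U) (hz : z ∈ U) (X a B : E) :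
    (fderiv ℝ (fderiv ℝ G) z X X a a + fderiv ℝ (fderiv ℝ G) z (I • X) (I • X) a a)
      + 4 * (fderiv ℝ G z X B a + fderiv ℝ G z (I • X) (I • B) a) + 4 * G z B B
      = 4 * G z (B + chris G z X a) (B + chris G z X a) - 4 * Rc G z X a := by
  rw [h.fderiv_add_I hz, Rc]
  simp only [map_add, add_apply]
  rw [h.symm z hz (chris G z X a) B]
  ring

omit [FiniteDimensional ℂ E] in
theorem differentiableAt (h : LocalKahler G U) (hz : z ∈ U) : DifferentiableAt ℝ G z :=
  (h.smooth.contDiffAt (h.isOpen.mem_nhds hz)).differentiableAt (by simp)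

omit [FiniteDimensional ℂ E] in
theorem contDiffOn_fderiv (h : LocalKahler G U) : ContDiffOn ℝ ∞ (fderiv ℝ G) U :=
  h.smooth.fderiv_of_isOpen h.isOpen (by simp)

theorem differentiableAt_fderiv (h : LocalKahler G U) (hz : z ∈ U) :
    DifferentiableAt ℝ (fderiv ℝ G) z :=
  (h.contDiffOn_fderiv.contDiffAt (h.isOpen.mem_nhds hz)).differentiableAt (by simp)

theorem hasFDerivAt_apply (h : LocalKahler G U) (hz : z ∈ U) (v w : E) :
    HasFDerivAt (fun y => G y v w) (((fderiv ℝ G z).flip v).flip w) z := by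
  have := ((h.differentiableAt hz).hasFDerivAt.clm_apply (hasFDerivAt_const v z)).clm_apply
    (hasFDerivAt_const w z)
  convert! this using 1
  ext u
  simp

theorem hasFDerivAt_fderiv_apply (h : LocalKahler G U) (hz : z ∈ U) (u v w : E) :
    HasFDerivAt (fun y => fderiv ℝ G y u v w)
      ((((fderiv ℝ (fderiv ℝ G) z).flip u).flip v).flip w) z := by
  have := (((h.differentiableAt_fderiv hz).hasFDerivAt.clm_apply (hasFDerivAt_const u z)).clm_apply
    (hasFDerivAt_const v z)).clm_apply (hasFDerivAt_const w z)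
  convert! this using 1
  ext x
  simp

theorem fderiv2_comm (h : LocalKahler G U) (hz : z ∈ U) (u v : E) :
    fderiv ℝ (fderiv ℝ G) z u v = fderiv ℝ (fderiv ℝ G) z v u := by
  have hs : IsSymmSndFDerivAt ℝ G z :=
    (h.smooth.contDiffAt (h.isOpen.mem_nhds hz)).isSymmSndFDerivAt
      (by simpa using! (WithTop.coe_le_coe.2 le_top : ((2 : ℕ∞) : WithTop ℕ∞) ≤ ((⊤ : ℕ∞) : WithTop ℕ∞)))
  exact hs.eq u v

theorem fderiv2_symm (h : LocalKahler G U) (hz : z ∈ U) (u v a b : E) :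
    fderiv ℝ (fderiv ℝ G) z u v a b = fderiv ℝ (fderiv ℝ G) z u v b a := by
  have h3 : (fun y => fderiv ℝ G y v a b) =ᶠ[𝓝 z] (fun y => fderiv ℝ G y v b a) := by
    filter_upwards [h.isOpen.mem_nhds hz] with y hy using h.fderiv_symm hy v a b
  have h4 := ((h.hasFDerivAt_fderiv_apply hz v a b).congr_of_eventuallyEq h3.symm).unique
    (h.hasFDerivAt_fderiv_apply hz v b a)
  have := congrArg (fun T => T u) h4
  simpa using this

/-- derivative of the Kähler identity -/
theorem fderiv2_kahler (h : LocalKahler G U) (hz : z ∈ U) (V X Y W : E) :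
    fderiv ℝ (fderiv ℝ G) z V X W Y + fderiv ℝ (fderiv ℝ G) z V (I • X) (I • W) Y
      = fderiv ℝ (fderiv ℝ G) z V Y W X + fderiv ℝ (fderiv ℝ G) z V (I • Y) (I • W) X := by
  have h3 : (fun y => fderiv ℝ G y X W Y + fderiv ℝ G y (I • X) (I • W) Y) =ᶠ[𝓝 z]
      (fun y => fderiv ℝ G y Y W X + fderiv ℝ G y (I • Y) (I • W) X) := by
    filter_upwards [h.isOpen.mem_nhds hz] with y hy
    rw [h.fderiv_add_I hy, h.fderiv_add_I hy, h.chris_symm hy]
  have h1 := (h.hasFDerivAt_fderiv_apply hz X W Y).add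
    (h.hasFDerivAt_fderiv_apply hz (I • X) (I • W) Y)
  have h2 := (h.hasFDerivAt_fderiv_apply hz Y W X).add
    (h.hasFDerivAt_fderiv_apply hz (I • Y) (I • W) X)
  have h4 := (h1.congr_of_eventuallyEq h3.symm).unique h2
  have := congrArg (fun T => T V) h4
  simpa using this

theorem fderiv2_herm (h : LocalKahler G U) (hz : z ∈ U) (u v a b : E) :
    fderiv ℝ (fderiv ℝ G) z u v (I • a) (I • b) = fderiv ℝ (fderiv ℝ G) z u v a b := by
  have h0 : ∀ y ∈ U, fderiv ℝ G y v (I • a) (I • b) = fderiv ℝ G y v a b := by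
    intro y hy
    have h3 : (fun y => G y (I • a) (I • b)) =ᶠ[𝓝 y] (fun y => G y a b) := by
      filter_upwards [h.isOpen.mem_nhds hy] with y hy using h.herm y hy a b
    have h4 := ((h.hasFDerivAt_apply hy (I • a) (I • b)).congr_of_eventuallyEq h3.symm).unique
      (h.hasFDerivAt_apply hy a b)
    have := congrArg (fun T => T v) h4
    simpa using this
  have h3 : (fun y => fderiv ℝ G y v (I • a) (I • b)) =ᶠ[𝓝 z] (fun y => fderiv ℝ G y v a b) := by
    filter_upwards [h.isOpen.mem_nhds hz] with y hy using h0 y hy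
  have h4 := ((h.hasFDerivAt_fderiv_apply hz v (I • a) (I • b)).congr_of_eventuallyEq
    h3.symm).unique (h.hasFDerivAt_fderiv_apply hz v a b)
  have := congrArg (fun T => T u) h4
  simpa using this

theorem fderiv2_I_self (h : LocalKahler G U) (hz : z ∈ U) (u v a : E) :
    fderiv ℝ (fderiv ℝ G) z u v (I • a) a = 0 := by
  have h1 := h.fderiv2_herm hz u v (I • a) a
  rw [smul_smul, I_mul_I, neg_one_smul, map_neg, neg_apply] at h1
  have h2 := h.fderiv2_symm hz u v a (I • a)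
  linarith only [h1, h2]

/-- The Riemannian curvature numerator `Rm(a,b,b,a)` of `G`. -/
def secG (G : E → E →L[ℝ] E →L[ℝ] ℝ) (z a b : E) : ℝ :=
  -(fderiv ℝ (fderiv ℝ G) z a a b b + fderiv ℝ (fderiv ℝ G) z b b a a
      - 2 * fderiv ℝ (fderiv ℝ G) z b a a b) / 2
    + G z (chris G z a b) (chris G z a b) - G z (chris G z a a) (chris G z b b)

/-- `Rm(u,v,v,u) + Rm(u,Jv,Jv,u)` is twice the normalised bisectional curvature. -/
theorem secG_add (h : LocalKahler G U) (hz : z ∈ U) (u v : E) :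
    secG G z u v + secG G z u (I • v) = 2 * Rc G z v u := by
  have e1 := h.fderiv2_kahler hz u v u v
  rw [h.fderiv2_I_self hz] at e1
  have e2 : chris G z (I • v) (I • v) = -chris G z v v := by
    rw [h.par z hz, h.par_left hz, smul_smul, I_mul_I, neg_one_smul]
  have e3 : chris G z u (I • v) = I • chris G z u v := h.par z hz u v
  have e4 := h.fderiv2_comm hz v u
  have e5 := h.fderiv2_comm hz (I • v) u
  have e6 := h.fderiv2_symm hz u v v u
  have e7 := h.fderiv2_symm hz u (I • v) (I • v) u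
  have e8 := h.chris_symm hz v u
  simp only [secG, Rc]
  rw [e2, e3, e4, e5, e8, h.herm z hz, h.fderiv2_herm hz, map_neg]
  linarith only [e1, e6, e7]

end LocalKahler

end Vale.Agent.P253.Mfd
end
end
end

section

section

open scoped ContDiff Topology
open Set Metric Complex Filter

set_option maxSynthPendingDepth 3
set_option linter.unusedSectionVars false

noncomputable section

namespace Vale.Agent.P253.Mfd

variable {E : Type*} [NormedAddCommGroup E] [NormedSpace ℂ E] [FiniteDimensional ℂ E]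
  {G : E → E →L[ℝ] E →L[ℝ] ℝ} {U : Set E} {z : E}

namespace LocalKahler

theorem contDiffOn_koszulL (h : LocalKahler G U) : ContDiffOn ℝ ∞ (koszulL G) U := by
  have h1 := h.contDiffOn_fderiv
  have hflip : ContDiffOn ℝ ∞ (fun z => (fderiv ℝ G z).flip) U :=
    (ContinuousLinearMap.flipₗᵢ ℝ E E (E →L[ℝ] ℝ)).contDiff.comp_contDiffOn h1
  exact (h1.add hflip).sub (contDiffOn_const.clm_comp hflip)

theorem contDiffOn_chris (h : LocalKahler G U) : ContDiffOn ℝ ∞ (chris G) U := by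
  have : CompleteSpace E := FiniteDimensional.complete ℂ E
  have hinv : ContDiffOn ℝ ∞ (fun z => ContinuousLinearMap.inverse (G z)) U := by
    intro z hz
    obtain ⟨T, hT⟩ := isInvertible_of_pos (h.pos z hz)
    have h1 : ContDiffAt ℝ ∞ ContinuousLinearMap.inverse (G z) := by
      rw [← hT]; exact contDiffAt_map_inverse T
    exact (h1.comp z (h.smooth.contDiffAt (h.isOpen.mem_nhds hz))).contDiffWithinAt
  have h2 : ContDiffOn ℝ ∞ (fun z => ContinuousLinearMap.compL ℝ E (E →L[ℝ] ℝ) E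
      (ContinuousLinearMap.inverse (G z))) U :=
    (ContinuousLinearMap.contDiff _).comp_contDiffOn hinv
  exact (h2.clm_comp h.contDiffOn_koszulL).const_smul (1/2 : ℝ)

theorem continuousOn_Rc (h : LocalKahler G U) :
    ContinuousOn (fun p : E × E × E => Rc G p.1 p.2.1 p.2.2) (U ×ˢ univ) := by
  have c0 : ContinuousOn (fun p : E × E × E => G p.1) (U ×ˢ univ) :=
    h.smooth.continuousOn.comp continuousOn_fst (fun p hp => hp.1)
  have c1 : ContinuousOn (fun p : E × E × E => chris G p.1) (U ×ˢ univ) :=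
    h.contDiffOn_chris.continuousOn.comp continuousOn_fst (fun p hp => hp.1)
  have c2 : ContinuousOn (fun p : E × E × E => fderiv ℝ (fderiv ℝ G) p.1) (U ×ˢ univ) :=
    (h.contDiffOn_fderiv.fderiv_of_isOpen h.isOpen (m := ∞) (by simp)).continuousOn.comp
      continuousOn_fst (fun p hp => hp.1)
  have cX : ContinuousOn (fun p : E × E × E => p.2.1) (U ×ˢ univ) := by fun_prop
  have ca : ContinuousOn (fun p : E × E × E => p.2.2) (U ×ˢ univ) := by fun_prop
  have cC : ContinuousOn (fun p : E × E × E => chris G p.1 p.2.1 p.2.2) (U ×ˢ univ) :=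
    (c1.clm_apply cX).clm_apply ca
  exact ((c0.clm_apply cC).clm_apply cC).sub
    (((((c2.clm_apply cX).clm_apply cX).clm_apply ca).clm_apply ca).add
      ((((c2.clm_apply (cX.const_smul I)).clm_apply (cX.const_smul I)).clm_apply ca).clm_apply
        ca) |>.div_const 4)

theorem Rc_smul (s t : ℝ) (z X a : E) : Rc G z (s • X) (t • a) = s ^ 2 * t ^ 2 * Rc G z X a := by
  have : I • (s • X) = s • (I • X) := smul_comm _ _ _
  simp only [Rc, this, map_smul, smul_apply, smul_eq_mul]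
  ring

/-- A positive curvature bound near a point of positive curvature. -/
theorem exists_kappa (h : LocalKahler G U) {z₀ : E} (hz₀ : z₀ ∈ U)
    (hpos : ∀ X a, X ≠ 0 → a ≠ 0 → 0 < Rc G z₀ X a) :
    ∃ κ > 0, ∃ δ > 0, closedBall z₀ δ ⊆ U ∧ ∀ z ∈ closedBall z₀ δ, ∀ X a,
      κ * G z X X * G z a a ≤ Rc G z X a := by
  have : ProperSpace E := FiniteDimensional.proper ℂ E
  set S := sphere (0 : E) 1 with hS
  have hSc : IsCompact (S ×ˢ S) := (isCompact_sphere 0 1).prod (isCompact_sphere 0 1)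
  -- lower bound at `z₀`
  obtain ⟨m, hm, hmin⟩ : ∃ m > 0, ∀ k ∈ S ×ˢ S, m < Rc G z₀ k.1 k.2 := by
    rcases (S ×ˢ S).eq_empty_or_nonempty with hemp | hne
    · exact ⟨1, one_pos, fun k hk => by simp [hemp] at hk⟩
    · have hc : ContinuousOn (fun k : E × E => Rc G z₀ k.1 k.2) (S ×ˢ S) :=
        h.continuousOn_Rc.comp (f := fun k : E × E => (z₀, k)) (by fun_prop)
          (fun k _ => ⟨hz₀, mem_univ _⟩)
      obtain ⟨k₀, hk₀, hk₀min⟩ := hSc.exists_isMinOn hne hc
      have hpos0 : 0 < Rc G z₀ k₀.1 k₀.2 := by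
        apply hpos
        · intro h0; have := hk₀.1; simp [hS, h0] at this
        · intro h0; have := hk₀.2; simp [hS, h0] at this
      refine ⟨Rc G z₀ k₀.1 k₀.2 / 2, by linarith only [hpos0], fun k hk => ?_⟩
      have := hk₀min hk
      simp only [mem_setOf_eq] at this
      linarith only [hpos0, this]
  have hev1 : ∀ᶠ z in 𝓝 z₀, ∀ k ∈ S ×ˢ S, m < Rc G z k.1 k.2 := by
    apply hSc.eventually_forall_of_forall_eventually
    intro k hk
    have hc : ContinuousAt (fun p : E × E × E => Rc G p.1 p.2.1 p.2.2) (z₀, k) :=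
      h.continuousOn_Rc.continuousAt ((h.isOpen.prod isOpen_univ).mem_nhds ⟨hz₀, mem_univ _⟩)
    exact hc.eventually (lt_mem_nhds (hmin k hk))
  have hev2 : ∀ᶠ z in 𝓝 z₀, ‖G z‖ < ‖G z₀‖ + 1 := by
    have hc : ContinuousAt (fun z => ‖G z‖) z₀ :=
      (h.smooth.continuousOn.continuousAt (h.isOpen.mem_nhds hz₀)).norm
    exact hc.eventually (gt_mem_nhds (by linarith only []))
  have hev3 : ∀ᶠ z in 𝓝 z₀, z ∈ U := h.isOpen.mem_nhds hz₀
  obtain ⟨δ, hδ, hball⟩ := Metric.nhds_basis_closedBall.mem_iff.1 (hev1.and (hev2.and hev3))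
  set C := ‖G z₀‖ + 1 with hC
  have hCpos : 0 < C := by positivity
  refine ⟨m / C ^ 2, by positivity, δ, hδ, fun z hz => (hball hz).2.2, fun z hz X a => ?_⟩
  obtain ⟨hz1, hz2, hz3⟩ := hball hz
  by_cases hX : X = 0
  · simp [hX, Rc]
  by_cases ha : a = 0
  · simp [ha, Rc]
  have hXn : 0 < ‖X‖ := norm_pos_iff.2 hX
  have han : 0 < ‖a‖ := norm_pos_iff.2 ha
  have hk : ((‖X‖⁻¹ • X, ‖a‖⁻¹ • a) : E × E) ∈ S ×ˢ S := by
    constructor <;> simp [hS, norm_smul, hXn.ne', han.ne']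
  have h1 := hz1 _ hk
  simp only [Rc_smul] at h1
  have hGX : G z X X ≤ C * ‖X‖ ^ 2 := by
    calc G z X X ≤ ‖G z X X‖ := Real.le_norm_self _
      _ ≤ ‖G z‖ * ‖X‖ * ‖X‖ := (G z).le_opNorm₂ X X
      _ ≤ C * ‖X‖ ^ 2 := by rw [mul_assoc, ← sq]; gcongr
  have hGa : G z a a ≤ C * ‖a‖ ^ 2 := by
    calc G z a a ≤ ‖G z a a‖ := Real.le_norm_self _
      _ ≤ ‖G z‖ * ‖a‖ * ‖a‖ := (G z).le_opNorm₂ a a
      _ ≤ C * ‖a‖ ^ 2 := by rw [mul_assoc, ← sq]; gcongr
  have hGX0 : 0 < G z X X := h.pos z hz3 X hX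
  have hGa0 : 0 < G z a a := h.pos z hz3 a ha
  have h2 : m * (‖X‖ ^ 2 * ‖a‖ ^ 2) ≤ Rc G z X a := by
    have h3 : (‖X‖⁻¹) ^ 2 * (‖a‖⁻¹) ^ 2 * Rc G z X a = Rc G z X a / (‖X‖ ^ 2 * ‖a‖ ^ 2) := by
      field_simp
    rw [h3, lt_div_iff₀ (by positivity)] at h1
    exact h1.le
  calc m / C ^ 2 * G z X X * G z a a ≤ m / C ^ 2 * (C * ‖X‖ ^ 2) * (C * ‖a‖ ^ 2) := by gcongr
    _ = m * (‖X‖ ^ 2 * ‖a‖ ^ 2) := by field_simp
    _ ≤ Rc G z X a := h2

end LocalKahler

end Vale.Agent.P253.Mfd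
end
end
end

section

section

open scoped ContDiff Topology
open Set Metric Complex Filter

set_option maxSynthPendingDepth 3
set_option linter.unusedSectionVars false

noncomputable section

namespace Vale.Agent.P253.Mfd

/-- Uniform second order Taylor expansion on a compact set. -/
theorem uniform_taylor_vec {F F' : Type*} [NormedAddCommGroup F] [NormedSpace ℝ F]
    [NormedAddCommGroup F'] [NormedSpace ℝ F']
    {V P : Set F} (hV : IsOpen V) (hP : IsCompact P) (hPV : P ⊆ V) {q : F → F'}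
    (hq : ContDiffOn ℝ 2 q V) {η : ℝ} (hη : 0 < η) :
    ∃ δ > 0, ∀ p ∈ P, ∀ h : F, ‖h‖ ≤ δ → p + h ∈ V ∧
      ‖q (p + h) - q p - fderiv ℝ q p h - (2⁻¹ : ℝ) • fderiv ℝ (fderiv ℝ q) p h h‖
        ≤ η * ‖h‖ ^ 2 := by
  have hq1 : ContDiffOn ℝ 1 (fderiv ℝ q) V := hq.fderiv_of_isOpen hV (by norm_num)
  have hq2 : ContinuousOn (fderiv ℝ (fderiv ℝ q)) V := by
    have := hq1.fderiv_of_isOpen hV (m := 0) (by norm_num)
    exact this.continuousOn
  obtain ⟨δ₁, hδ₁, hthick⟩ := hP.exists_cthickening_subset_open hV hPV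
  -- uniform continuity of the second derivative near `P`
  obtain ⟨δ₂, hδ₂, huc⟩ : ∃ δ₂ > 0, ∀ p ∈ P, ∀ y, dist y p < δ₂ →
      dist (fderiv ℝ (fderiv ℝ q) y) (fderiv ℝ (fderiv ℝ q) p) < η := by
    have h1 : ∀ p ∈ P, ∃ δ > 0, ∀ y, dist y p < 2 * δ →
        dist (fderiv ℝ (fderiv ℝ q) y) (fderiv ℝ (fderiv ℝ q) p) < η / 2 := by
      intro p hp
      have hc : ContinuousAt (fderiv ℝ (fderiv ℝ q)) p :=
        hq2.continuousAt (hV.mem_nhds (hPV hp))
      obtain ⟨δ, hδ, h⟩ := Metric.continuousAt_iff.1 hc (η / 2) (by positivity)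
      exact ⟨δ / 2, by positivity, fun y hy => h (by linarith only [hy])⟩
    choose! δf hδf hδf2 using h1
    obtain ⟨T, hTP, hT⟩ := hP.elim_nhds_subcover (fun p => ball p (δf p))
      (fun p hp => ball_mem_nhds p (hδf p hp))
    rcases T.eq_empty_or_nonempty with rfl | hne
    · refine ⟨1, one_pos, fun p hp => ?_⟩
      have := hT hp
      simp at this
    refine ⟨T.inf' hne δf, (Finset.lt_inf'_iff hne).2 fun p hp => hδf p (hTP p hp), ?_⟩
    intro p hp y hy
    obtain ⟨p₀, hp₀, hpp₀⟩ := mem_iUnion₂.1 (hT hp)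
    have h2 : T.inf' hne δf ≤ δf p₀ := Finset.inf'_le _ hp₀
    have h3 := hδf2 p₀ (hTP p₀ hp₀) p (by
      have := mem_ball.1 hpp₀; have := hδf p₀ (hTP p₀ hp₀); linarith)
    have h4 := hδf2 p₀ (hTP p₀ hp₀) y (by
      have h5 := mem_ball.1 hpp₀
      calc dist y p₀ ≤ dist y p + dist p p₀ := dist_triangle _ _ _
        _ < 2 * δf p₀ := by linarith only [hne, hy, h2, h5])
    calc _ ≤ dist (fderiv ℝ (fderiv ℝ q) y) (fderiv ℝ (fderiv ℝ q) p₀)
          + dist (fderiv ℝ (fderiv ℝ q) p) (fderiv ℝ (fderiv ℝ q) p₀) := dist_triangle_right _ _ _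
      _ < η := by linarith only [h3, h4]
  refine ⟨min δ₁ (δ₂ / 2), by positivity, fun p hp h hh => ?_⟩
  have hhδ₁ : ‖h‖ ≤ δ₁ := hh.trans (min_le_left _ _)
  have hhδ₂ : ‖h‖ < δ₂ := by
    have := hh.trans (min_le_right _ _); linarith only [hδ₂, this]
  have hmem : ∀ k : F, ‖k‖ ≤ ‖h‖ → p + k ∈ V := by
    intro k hk
    apply hthick
    apply mem_cthickening_of_dist_le (p + k) p δ₁ P hp
    rw [dist_eq_norm]; simpa using hk.trans hhδ₁
  refine ⟨hmem h le_rfl, ?_⟩
  set B : Set F := closedBall 0 ‖h‖ with hB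
  have hconv : Convex ℝ B := convex_closedBall _ _
  have hsym : IsSymmSndFDerivAt ℝ q p :=
    (hq.contDiffAt (hV.mem_nhds (hPV hp))).isSymmSndFDerivAt (by simp)
  -- first derivative estimate
  have hd1 : ∀ k ∈ B, ‖fderiv ℝ q (p + k) - fderiv ℝ q p - fderiv ℝ (fderiv ℝ q) p k‖ ≤ η * ‖k‖ := by
    intro k hk
    have hkn : ‖k‖ ≤ ‖h‖ := by simpa [hB] using hk
    have hconv' : Convex ℝ (closedBall (0:F) ‖k‖) := convex_closedBall _ _
    have hder : ∀ l ∈ closedBall (0:F) ‖k‖, HasFDerivWithinAt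
        (fun l => fderiv ℝ q (p + l) - fderiv ℝ q p - fderiv ℝ (fderiv ℝ q) p l)
        (fderiv ℝ (fderiv ℝ q) (p + l) - fderiv ℝ (fderiv ℝ q) p) (closedBall (0:F) ‖k‖) l := by
      intro l hl
      have hln : ‖l‖ ≤ ‖h‖ := by
        have : ‖l‖ ≤ ‖k‖ := by simpa using hl
        linarith only [hkn, this]
      have h1 : HasFDerivAt (fderiv ℝ q) (fderiv ℝ (fderiv ℝ q) (p + l)) (p + l) :=
        ((hq1.contDiffAt (hV.mem_nhds (hmem l hln))).differentiableAt (by simp)).hasFDerivAt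
      have h2 : HasFDerivAt (fun l => fderiv ℝ q (p + l)) (fderiv ℝ (fderiv ℝ q) (p + l)) l := by
        have := h1.comp l ((hasFDerivAt_id l).const_add p)
        rwa [ContinuousLinearMap.comp_id] at this
      exact ((h2.sub_const _).sub (fderiv ℝ (fderiv ℝ q) p).hasFDerivAt).hasFDerivWithinAt
    have := hconv'.norm_image_sub_le_of_norm_hasFDerivWithin_le hder (C := η) (fun l hl => by
      have hln : ‖l‖ ≤ ‖h‖ := by
        have : ‖l‖ ≤ ‖k‖ := by simpa using hl
        linarith only [hkn, this]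
      have := huc p hp (p + l) (by rw [dist_eq_norm]; simpa using hln.trans_lt hhδ₂)
      rw [dist_eq_norm] at this
      exact this.le) (x := 0) (y := k) (by simp) (by simp)
    simpa using this
  have hder : ∀ k ∈ B, HasFDerivWithinAt
      (fun k => q (p + k) - q p - fderiv ℝ q p k - (2⁻¹ : ℝ) • fderiv ℝ (fderiv ℝ q) p k k)
      (fderiv ℝ q (p + k) - fderiv ℝ q p - fderiv ℝ (fderiv ℝ q) p k) B k := by
    intro k hk
    have hkn : ‖k‖ ≤ ‖h‖ := by simpa [hB] using hk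
    have h1 : HasFDerivAt q (fderiv ℝ q (p + k)) (p + k) :=
      ((hq.contDiffAt (hV.mem_nhds (hmem k hkn))).differentiableAt (by simp)).hasFDerivAt
    have h2 : HasFDerivAt (fun k => q (p + k)) (fderiv ℝ q (p + k)) k := by
      have := h1.comp k ((hasFDerivAt_id k).const_add p)
      rwa [ContinuousLinearMap.comp_id] at this
    have h3 : HasFDerivAt (fun k => (2⁻¹ : ℝ) • fderiv ℝ (fderiv ℝ q) p k k)
        (fderiv ℝ (fderiv ℝ q) p k) k := by
      have := ((fderiv ℝ (fderiv ℝ q) p).hasFDerivAt (x := k)).clm_apply (hasFDerivAt_id k)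
      have h4 := this.const_smul (2⁻¹ : ℝ)
      convert! h4 using 1
      ext l
      simp only [ContinuousLinearMap.comp_id, id, smul_apply, add_apply,
        ContinuousLinearMap.flip_apply]
      rw [hsym.eq l k, ← two_smul ℝ (fderiv ℝ (fderiv ℝ q) p k l), smul_smul]
      norm_num
    exact (((h2.sub_const _).sub (fderiv ℝ q p).hasFDerivAt).sub h3).hasFDerivWithinAt
  have := hconv.norm_image_sub_le_of_norm_hasFDerivWithin_le hder (C := η * ‖h‖) (fun k hk => by
      have hkn : ‖k‖ ≤ ‖h‖ := by simpa [hB] using hk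
      exact (hd1 k hk).trans (by gcongr)) (x := 0) (y := h) (by simp [hB]) (by simp [hB])
  simp only [add_zero, map_zero, smul_zero, sub_zero, sub_self] at this
  calc _ ≤ _ := this
    _ = η * ‖h‖ ^ 2 := by ring

/-- Uniform second order Taylor expansion on a compact set, scalar version. -/
theorem uniform_taylor {F : Type*} [NormedAddCommGroup F] [NormedSpace ℝ F]
    {V P : Set F} (hV : IsOpen V) (hP : IsCompact P) (hPV : P ⊆ V) {q : F → ℝ}
    (hq : ContDiffOn ℝ 2 q V) {η : ℝ} (hη : 0 < η) :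
    ∃ δ > 0, ∀ p ∈ P, ∀ h : F, ‖h‖ ≤ δ → p + h ∈ V ∧
      |q (p + h) - q p - fderiv ℝ q p h - fderiv ℝ (fderiv ℝ q) p h h / 2| ≤ η * ‖h‖ ^ 2 := by
  obtain ⟨δ, hδ, H⟩ := uniform_taylor_vec hV hP hPV hq hη
  refine ⟨δ, hδ, fun p hp h hh => ⟨(H p hp h hh).1, ?_⟩⟩
  have := (H p hp h hh).2
  rwa [smul_eq_mul, Real.norm_eq_abs, inv_mul_eq_div] at this

end Vale.Agent.P253.Mfd
end
end
end

section

section

open scoped ContDiff Topology
open Set Metric Complex Filter

set_option maxSynthPendingDepth 3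
set_option linter.unusedSectionVars false

noncomputable section

namespace Vale.Agent.P253.Mfd

variable {E : Type*} [NormedAddCommGroup E] [NormedSpace ℂ E] [FiniteDimensional ℂ E]
  {G : E → E →L[ℝ] E →L[ℝ] ℝ} {U : Set E} {z : E}

namespace LocalKahler

/-- the energy density as a function on the tangent bundle -/
def qf (G : E → E →L[ℝ] E →L[ℝ] ℝ) (p : E × E) : ℝ := G p.1 p.2 p.2

theorem contDiffOn_qf (h : LocalKahler G U) : ContDiffOn ℝ ∞ (qf G) (U ×ˢ univ) := by
  have c0 : ContDiffOn ℝ ∞ (fun p : E × E => G p.1) (U ×ˢ univ) :=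
    h.smooth.comp contDiff_fst.contDiffOn (fun p hp => hp.1)
  exact (c0.clm_apply contDiff_snd.contDiffOn).clm_apply contDiff_snd.contDiffOn

theorem fderiv_qf (h : LocalKahler G U) {p : E × E} (hp : p.1 ∈ U) (k : E × E) :
    fderiv ℝ (qf G) p k = fderiv ℝ G p.1 k.1 p.2 p.2 + 2 * G p.1 k.2 p.2 := by
  have h1 : HasFDerivAt (fun p : E × E => G p.1)
      ((fderiv ℝ G p.1).comp (ContinuousLinearMap.fst ℝ E E)) p :=
    (h.differentiableAt hp).hasFDerivAt.comp p hasFDerivAt_fst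
  have h2 : HasFDerivAt (fun p : E × E => p.2) (ContinuousLinearMap.snd ℝ E E) p := hasFDerivAt_snd
  have h3 := (h1.clm_apply h2).clm_apply h2
  have h4 : HasFDerivAt (qf G) _ p := h3
  rw [h4.fderiv]
  simp only [ContinuousLinearMap.comp_apply, add_apply, ContinuousLinearMap.flip_apply,
    ContinuousLinearMap.coe_fst', ContinuousLinearMap.coe_snd']
  rw [h.symm p.1 hp p.2 k.2]
  ring

theorem fderiv2_qf (h : LocalKahler G U) {p : E × E} (hp : p.1 ∈ U) (k : E × E) :
    fderiv ℝ (fderiv ℝ (qf G)) p k k = fderiv ℝ (fderiv ℝ G) p.1 k.1 k.1 p.2 p.2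
      + 4 * fderiv ℝ G p.1 k.1 k.2 p.2 + 2 * G p.1 k.2 k.2 := by
  have hV : IsOpen (U ×ˢ (univ : Set E)) := h.isOpen.prod isOpen_univ
  have hpV : p ∈ U ×ˢ (univ : Set E) := ⟨hp, mem_univ _⟩
  have hd : DifferentiableAt ℝ (fderiv ℝ (qf G)) p :=
    ((h.contDiffOn_qf.fderiv_of_isOpen hV (m := ∞) (by simp)).contDiffAt
      (hV.mem_nhds hpV)).differentiableAt (by simp)
  have h0 : HasFDerivAt (fun y => fderiv ℝ (qf G) y k) ((fderiv ℝ (fderiv ℝ (qf G)) p).flip k) p := by
    have := hd.hasFDerivAt.clm_apply (hasFDerivAt_const k p)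
    convert! this using 1
    ext u <;> simp
  have h1 : HasFDerivAt (fun p : E × E => G p.1)
      ((fderiv ℝ G p.1).comp (ContinuousLinearMap.fst ℝ E E)) p :=
    (h.differentiableAt hp).hasFDerivAt.comp p hasFDerivAt_fst
  have h1' : HasFDerivAt (fun p : E × E => fderiv ℝ G p.1)
      ((fderiv ℝ (fderiv ℝ G) p.1).comp (ContinuousLinearMap.fst ℝ E E)) p :=
    (h.differentiableAt_fderiv hp).hasFDerivAt.comp p hasFDerivAt_fst
  have h2 : HasFDerivAt (fun p : E × E => p.2) (ContinuousLinearMap.snd ℝ E E) p := hasFDerivAt_snd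
  have h3 := (((h1'.clm_apply (hasFDerivAt_const k.1 p)).clm_apply h2).clm_apply h2).add
    (((h1.clm_apply (hasFDerivAt_const k.2 p)).clm_apply h2).const_mul 2)
  have h4 : (fun y : E × E => fderiv ℝ (qf G) y k) =ᶠ[𝓝 p]
      (fun p : E × E => fderiv ℝ G p.1 k.1 p.2 p.2 + 2 * G p.1 k.2 p.2) := by
    filter_upwards [hV.mem_nhds hpV] with y hy using h.fderiv_qf hy.1 k
  have h5 := (h0.congr_of_eventuallyEq h4.symm).unique h3
  have h6 := congrArg (fun T => T k) h5
  simp only [ContinuousLinearMap.comp_apply, add_apply, ContinuousLinearMap.flip_apply,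
    ContinuousLinearMap.coe_fst', ContinuousLinearMap.coe_snd', smul_apply,
    smul_eq_mul, ContinuousLinearMap.zero_apply, map_zero, zero_add] at h6
  rw [h6, h.fderiv_symm hp k.1 p.2 k.2]
  ring

theorem herm_pow (h : LocalKahler G U) (hz : z ∈ U) (v w : E) (k : ℕ) :
    G z (I ^ k • v) (I ^ k • w) = G z v w := by
  induction k with
  | zero => simp
  | succ k ih => rw [pow_succ', mul_smul, mul_smul, h.herm z hz, ih]

end LocalKahler

theorem sum_I_pow_smul (v : E) : ∑ k : Fin 4, (I ^ (k : ℕ)) • v = 0 := by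
  rw [Fin.sum_univ_four]
  have h3 : (I : ℂ) ^ 3 = -I := by rw [pow_succ, I_sq]; ring
  simp only [Fin.val_zero, Fin.val_one, Fin.val_two, pow_zero, pow_one, I_sq,
    show ((3 : Fin 4) : ℕ) = 3 from rfl, h3, neg_smul, one_smul]
  abel

namespace LocalKahler

theorem norm_I_pow_smul (v : E) (k : ℕ) : ‖I ^ k • v‖ = ‖v‖ := by
  rw [norm_smul, norm_pow, norm_I, one_pow, one_mul]

/-- Sum of the second derivatives over the four rotated directions. -/
theorem sum_fderiv2_qf (h : LocalKahler G U) {p : E × E} (hp : p.1 ∈ U) (X B : E) :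
    ∑ k : Fin 4, fderiv ℝ (fderiv ℝ (qf G)) p (I ^ (k:ℕ) • X, I ^ (k:ℕ) • B)
      (I ^ (k:ℕ) • X, I ^ (k:ℕ) • B)
      = 8 * G p.1 (B + chris G p.1 X p.2) (B + chris G p.1 X p.2) - 8 * Rc G p.1 X p.2 := by
  have hs := h.star hp X p.2 B
  simp only [h.fderiv2_qf hp, h.herm_pow hp]
  rw [Fin.sum_univ_four]
  have h3 : (I : ℂ) ^ 3 = -I := by rw [pow_succ, I_sq]; ring
  simp only [Fin.val_zero, Fin.val_one, Fin.val_two, pow_zero, pow_one, I_sq,
    show ((3 : Fin 4) : ℕ) = 3 from rfl, h3, neg_smul, one_smul, map_neg, neg_apply, neg_neg]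
  linarith only [hs]

set_option maxHeartbeats 400000 in
/-- Pointwise second variation inequality, uniform on compact sets. -/
theorem pointwise (h : LocalKahler G U) {K : Set E} (hK : IsCompact K) (hKU : K ⊆ U)
    {C : ℝ} (hC : 1 ≤ C) {η : ℝ} (hη : 0 < η) :
    ∃ r₀ > 0, ∃ τ > 0, ∀ r, 0 < r → r ≤ r₀ → ∀ z ∈ K, ∀ b X B : E, ‖b‖ ≤ C → ‖X‖ ≤ C → ‖B‖ ≤ C →
      ∀ ξ ζ : Fin 4 → E, (∀ k, ‖ξ k‖ ≤ C * r ^ 2) → (∀ k, ‖ζ k‖ ≤ C * r ^ 2) →
      ‖∑ k, ξ k‖ ≤ τ * r ^ 2 → ‖∑ k, ζ k‖ ≤ τ * r ^ 2 →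
      (∀ k : Fin 4, z + (r • (I ^ (k:ℕ) • X) + ξ k) ∈ U) ∧
      ∑ k : Fin 4, G (z + (r • (I ^ (k:ℕ) • X) + ξ k)) (b + (r • (I ^ (k:ℕ) • B) + ζ k))
        (b + (r • (I ^ (k:ℕ) • B) + ζ k))
        ≤ 4 * G z b b + r ^ 2 * (4 * G z (B + chris G z X b) (B + chris G z X b)
          - 4 * Rc G z X b + η) := by
  have hprop : ProperSpace E := FiniteDimensional.proper ℂ E
  have hV : IsOpen (U ×ˢ (univ : Set E)) := h.isOpen.prod isOpen_univ
  set P : Set (E × E) := K ×ˢ closedBall (0 : E) C with hP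
  have hPc : IsCompact P := hK.prod (isCompact_closedBall _ _)
  have hPV : P ⊆ U ×ˢ (univ : Set E) := prod_mono hKU (subset_univ _)
  have hq2 : ContDiffOn ℝ 2 (qf G) (U ×ˢ univ) := h.contDiffOn_qf.of_le (by
    simpa using! (WithTop.coe_le_coe.2 le_top : ((2 : ℕ∞) : WithTop ℕ∞) ≤ ((⊤ : ℕ∞) : WithTop ℕ∞)))
  have hcC : 0 < C := by linarith only [hC]
  obtain ⟨δ₀, hδ₀, htay⟩ := uniform_taylor hV hPc hPV hq2 (η := η / (64 * C ^ 2)) (by positivity)
  -- bounds for the first and second derivatives on `P`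
  have c1 : ContinuousOn (fderiv ℝ (qf G)) (U ×ˢ univ) :=
    (h.contDiffOn_qf.fderiv_of_isOpen hV (m := ∞) (by simp)).continuousOn
  have c2 : ContinuousOn (fderiv ℝ (fderiv ℝ (qf G))) (U ×ˢ univ) :=
    ((h.contDiffOn_qf.fderiv_of_isOpen hV (m := ∞) (by simp)).fderiv_of_isOpen hV (m := ∞)
      (by simp)).continuousOn
  obtain ⟨C₁, hC₁⟩ := hPc.exists_bound_of_continuousOn (c1.mono hPV)
  obtain ⟨C₂, hC₂⟩ := hPc.exists_bound_of_continuousOn (c2.mono hPV)
  set A₁ := max C₁ 1 with hA₁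
  set A₂ := max C₂ 1 with hA₂
  have hA₁1 : 0 < A₁ := lt_of_lt_of_le one_pos (le_max_right _ _)
  have hA₂1 : 0 < A₂ := lt_of_lt_of_le one_pos (le_max_right _ _)
  refine ⟨min 1 (min (δ₀ / (2 * C)) (η / (32 * A₂ * C ^ 2))), by positivity,
    η / (8 * A₁), by positivity, ?_⟩
  intro r hr hrr z hz b X B hb hX hB ξ ζ hξ hζ hSξ hSζ
  have hr1 : r ≤ 1 := hrr.trans (min_le_left _ _)
  have hr2 : r ≤ δ₀ / (2 * C) := hrr.trans ((min_le_right _ _).trans (min_le_left _ _))
  have hr3 : r ≤ η / (32 * A₂ * C ^ 2) := hrr.trans ((min_le_right _ _).trans (min_le_right _ _))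
  have hzU : z ∈ U := hKU hz
  set p : E × E := (z, b) with hp
  have hpP : p ∈ P := ⟨hz, by simpa using hb⟩
  set H : Fin 4 → E × E := fun k => (I ^ (k:ℕ) • X, I ^ (k:ℕ) • B) with hH
  set e : Fin 4 → E × E := fun k => (ξ k, ζ k) with he
  have hHn : ∀ k, ‖H k‖ ≤ C := by
    intro k
    simp only [hH, Prod.norm_def, norm_I_pow_smul]
    exact max_le hX hB
  have hen : ∀ k, ‖e k‖ ≤ C * r ^ 2 := fun k => by
    simp only [he, Prod.norm_def]
    exact max_le (hξ k) (hζ k)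
  have hrr2 : r ^ 2 ≤ r := pow_le_of_le_one hr.le hr1 two_ne_zero
  have hhn : ∀ k, ‖r • H k + e k‖ ≤ 2 * C * r := by
    intro k
    calc ‖r • H k + e k‖ ≤ ‖r • H k‖ + ‖e k‖ := norm_add_le _ _
      _ ≤ r * C + C * r ^ 2 := by
          rw [norm_smul, Real.norm_of_nonneg hr.le]
          gcongr
          · exact hHn k
          · exact hen k
      _ ≤ 2 * C * r := by have := mul_le_mul_of_nonneg_left hrr2 hcC.le; linarith only [this]
  have hhδ : ∀ k, ‖r • H k + e k‖ ≤ δ₀ := by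
    intro k
    refine (hhn k).trans ?_
    rw [le_div_iff₀ (by positivity)] at hr2
    linarith only [hr2]
  have htk := fun k => htay p hpP (r • H k + e k) (hhδ k)
  refine ⟨fun k => (htk k).1.1, ?_⟩
  -- Taylor upper bound
  have hT : ∀ k, qf G (p + (r • H k + e k)) ≤ qf G p + fderiv ℝ (qf G) p (r • H k + e k)
      + fderiv ℝ (fderiv ℝ (qf G)) p (r • H k + e k) (r • H k + e k) / 2 + η / 16 * r ^ 2 := by
    intro k
    have h1 := (abs_le.1 (htk k).2).2
    have h2 : η / (64 * C ^ 2) * ‖r • H k + e k‖ ^ 2 ≤ η / 16 * r ^ 2 := by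
      calc _ ≤ η / (64 * C ^ 2) * (2 * C * r) ^ 2 := by
            gcongr
            exact hhn k
        _ = η / 16 * r ^ 2 := by field_simp; ring
    linarith only [h1, h2]
  -- quadratic part
  have hQ : ∀ k, fderiv ℝ (fderiv ℝ (qf G)) p (r • H k + e k) (r • H k + e k) ≤
      r ^ 2 * fderiv ℝ (fderiv ℝ (qf G)) p (H k) (H k) + η / 8 * r ^ 2 := by
    intro k
    have hTn : ‖fderiv ℝ (fderiv ℝ (qf G)) p‖ ≤ A₂ := (hC₂ p hpP).trans (le_max_left _ _)
    have hb1 : ∀ u v : E × E, fderiv ℝ (fderiv ℝ (qf G)) p u v ≤ A₂ * ‖u‖ * ‖v‖ := by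
      intro u v
      calc _ ≤ ‖fderiv ℝ (fderiv ℝ (qf G)) p u v‖ := Real.le_norm_self _
        _ ≤ ‖fderiv ℝ (fderiv ℝ (qf G)) p‖ * ‖u‖ * ‖v‖ := ContinuousLinearMap.le_opNorm₂ _ _ _
        _ ≤ _ := by gcongr
    have e1 : fderiv ℝ (fderiv ℝ (qf G)) p (r • H k + e k) (r • H k + e k)
        = r ^ 2 * fderiv ℝ (fderiv ℝ (qf G)) p (H k) (H k)
          + r * (fderiv ℝ (fderiv ℝ (qf G)) p (H k) (e k)
            + fderiv ℝ (fderiv ℝ (qf G)) p (e k) (H k))
          + fderiv ℝ (fderiv ℝ (qf G)) p (e k) (e k) := by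
      simp only [map_add, map_smul, add_apply, smul_apply, smul_eq_mul]
      ring
    have e2 := hb1 (H k) (e k)
    have e3 := hb1 (e k) (H k)
    have e4 := hb1 (e k) (e k)
    have e5 : A₂ * ‖H k‖ * ‖e k‖ ≤ A₂ * C * (C * r ^ 2) := by
      gcongr
      · exact hHn k
      · exact hen k
    have e6 : A₂ * ‖e k‖ * ‖H k‖ ≤ A₂ * (C * r ^ 2) * C := by
      gcongr
      · exact hen k
      · exact hHn k
    have e7 : A₂ * ‖e k‖ * ‖e k‖ ≤ A₂ * (C * r ^ 2) * (C * r ^ 2) := by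
      gcongr
      · exact hen k
      · exact hen k
    have e8 : r * (A₂ * C * (C * r ^ 2) + A₂ * (C * r ^ 2) * C) + A₂ * (C * r ^ 2) * (C * r ^ 2)
        ≤ 3 * A₂ * C ^ 2 * r * r ^ 2 := by
      have : A₂ * C ^ 2 * r ^ 2 * r ^ 2 ≤ A₂ * C ^ 2 * r ^ 2 * r := by gcongr
      linarith only [this]
    have e9 : 3 * A₂ * C ^ 2 * r ≤ η / 8 := by
      rw [le_div_iff₀ (by positivity)] at hr3
      linarith only [mul_pos (mul_pos hA₂1 (pow_pos hcC 2)) hr, hr3]
    have e10 : 3 * A₂ * C ^ 2 * r * r ^ 2 ≤ η / 8 * r ^ 2 := by gcongr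
    rw [e1]
    have e11 : r * (fderiv ℝ (fderiv ℝ (qf G)) p (H k) (e k)
            + fderiv ℝ (fderiv ℝ (qf G)) p (e k) (H k)) ≤
        r * (A₂ * C * (C * r ^ 2) + A₂ * (C * r ^ 2) * C) := by
      gcongr
      · exact e2.trans e5
      · exact e3.trans e6
    linarith only [e4, e7, e8, e10, e11]
  -- linear part
  have hL : ∑ k, fderiv ℝ (qf G) p (r • H k + e k) ≤ η / 8 * r ^ 2 := by
    rw [← map_sum]
    have e1 : ∑ k, (r • H k + e k) = ((∑ k, ξ k, ∑ k, ζ k) : E × E) := by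
      rw [Finset.sum_add_distrib, ← Finset.smul_sum]
      have : ∑ k, H k = 0 := by
        apply Prod.ext
        · rw [Prod.fst_sum]; exact sum_I_pow_smul X
        · rw [Prod.snd_sum]; exact sum_I_pow_smul B
      rw [this, smul_zero, zero_add]
      apply Prod.ext
      · rw [Prod.fst_sum]
      · rw [Prod.snd_sum]
    rw [e1]
    calc _ ≤ ‖fderiv ℝ (qf G) p ((∑ k, ξ k, ∑ k, ζ k) : E × E)‖ := Real.le_norm_self _
      _ ≤ ‖fderiv ℝ (qf G) p‖ * ‖((∑ k, ξ k, ∑ k, ζ k) : E × E)‖ :=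
          ContinuousLinearMap.le_opNorm _ _
      _ ≤ A₁ * (η / (8 * A₁) * r ^ 2) := by
          gcongr
          · exact (hC₁ p hpP).trans (le_max_left _ _)
          · rw [Prod.norm_def]
            exact max_le hSξ hSζ
      _ = η / 8 * r ^ 2 := by field_simp
  have hsum := Finset.sum_le_sum (fun k (_ : k ∈ Finset.univ) => hT k)
  have hsumQ := Finset.sum_le_sum (fun k (_ : k ∈ Finset.univ) => hQ k)
  have hfin : ∑ k : Fin 4, fderiv ℝ (fderiv ℝ (qf G)) p (H k) (H k)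
      = 8 * G z (B + chris G z X b) (B + chris G z X b) - 8 * Rc G z X b :=
    h.sum_fderiv2_qf (p := p) hzU X B
  simp only [Finset.sum_add_distrib, Finset.sum_const, Finset.card_univ, Fintype.card_fin,
    nsmul_eq_mul, ← Finset.mul_sum, ← Finset.sum_div] at hsum hsumQ
  rw [hfin] at hsumQ
  have hgoal : ∑ k : Fin 4, G (z + (r • (I ^ (k:ℕ) • X) + ξ k)) (b + (r • (I ^ (k:ℕ) • B) + ζ k))
        (b + (r • (I ^ (k:ℕ) • B) + ζ k)) = ∑ k, qf G (p + (r • H k + e k)) := by
    rfl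
  rw [hgoal]
  have hqp : qf G p = G z b b := rfl
  rw [hqp] at hsum
  push_cast at hsum hsumQ
  have hηr : 0 ≤ η * r ^ 2 := by positivity
  linarith only [hL, hsum, hsumQ, hηr]

end LocalKahler

end Vale.Agent.P253.Mfd
end
end
end

section

section

open scoped ContDiff Topology NNReal
open Set Metric

namespace Vale.Agent.P253.Mfd

section glue

variable {F : Type*} [NormedAddCommGroup F] [NormedSpace ℝ F]

lemma hasDerivWithinAt_of_notMem_closure' {f : ℝ → F} {f' : F} {s : Set ℝ} {x : ℝ}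
    (h : x ∉ closure s) : HasDerivWithinAt f f' s x :=
  HasFDerivWithinAt.of_notMem_closure h

/-- gluing two solutions of an ODE. -/
lemma glue_sol {v : ℝ → F → F} {a c d : ℝ} (hac : a ≤ c) (hcd : c ≤ d) {y₁ y₂ : ℝ → F}
    (h₁ : ∀ t ∈ Icc a c, HasDerivWithinAt y₁ (v t (y₁ t)) (Icc a c) t)
    (h₂ : ∀ t ∈ Icc c d, HasDerivWithinAt y₂ (v t (y₂ t)) (Icc c d) t)
    (h12 : y₂ c = y₁ c) :
    ∃ y : ℝ → F, y a = y₁ a ∧ (∀ t ∈ Icc a c, y t = y₁ t) ∧ (∀ t ∈ Icc c d, y t = y₂ t) ∧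
      ∀ t ∈ Icc a d, HasDerivWithinAt y (v t (y t)) (Icc a d) t := by
  classical
  set y : ℝ → F := fun t => if t ≤ c then y₁ t else y₂ t with hy
  have e1 : ∀ t ∈ Icc a c, y t = y₁ t := fun t ht => by simp [hy, ht.2]
  have e2 : ∀ t ∈ Icc c d, y t = y₂ t := by
    intro t ht
    by_cases h : t ≤ c
    · have : t = c := le_antisymm h ht.1
      subst this
      simp [hy, h12]
    · simp [hy, h]
  refine ⟨y, e1 a ⟨le_rfl, hac⟩, e1, e2, fun t ht => ?_⟩
  have hu : Icc a d = Icc a c ∪ Icc c d := (Icc_union_Icc_eq_Icc hac hcd).symm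
  rw [hu]
  refine HasDerivWithinAt.union ?_ ?_
  · by_cases h : t ∈ Icc a c
    · rw [e1 t h]
      exact (h₁ t h).congr e1 (e1 t h)
    · exact hasDerivWithinAt_of_notMem_closure' (by rwa [isClosed_Icc.closure_eq])
  · by_cases h : t ∈ Icc c d
    · rw [e2 t h]
      exact (h₂ t h).congr e2 (e2 t h)
    · exact hasDerivWithinAt_of_notMem_closure' (by rwa [isClosed_Icc.closure_eq])

end glue

/-- Linear (nonautonomous) ODEs: short time. -/
lemma exists_linODE_short {F : Type*} [NormedAddCommGroup F] [NormedSpace ℝ F] [CompleteSpace F]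
    {c d M : ℝ} (hcd : c ≤ d) (L : ℝ → F →L[ℝ] F) (hL : ContinuousOn L (Icc c d)) (hM : 0 < M)
    (hLM : ∀ t ∈ Icc c d, ‖L t‖ ≤ M) (hd : d - c ≤ 1 / (2 * M)) (x : F) :
    ∃ y : ℝ → F, y c = x ∧ ∀ t ∈ Icc c d, HasDerivWithinAt y (L t (y t)) (Icc c d) t := by
  obtain ⟨M', hM'⟩ : ∃ M' : ℝ≥0, (M' : ℝ) = M := ⟨M.toNNReal, Real.coe_toNNReal M hM.le⟩
  subst hM'
  set A : ℝ≥0 := ‖x‖₊ + 1 with hA
  set B : ℝ≥0 := M' * (‖x‖₊ + A) with hB
  have hpl : IsPicardLindelof (fun t y => L t y) (tmin := c) (tmax := d)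
      ⟨c, ⟨le_rfl, hcd⟩⟩ x A 0 B M' := by
    refine ⟨fun t ht => ?_, fun y _ => ?_, fun t ht y hy => ?_, ?_⟩
    · refine LipschitzWith.lipschitzOnWith ?_
      refine LipschitzWith.of_dist_le_mul fun y z => ?_
      rw [dist_eq_norm, dist_eq_norm, ← map_sub]
      exact (L t).le_of_opNorm_le (hLM t ht) _
    · exact hL.clm_apply continuousOn_const
    · have h1 : ‖y‖ ≤ ‖x‖ + A := by
        have : ‖y - x‖ ≤ A := by rwa [mem_closedBall, dist_eq_norm] at hy
        calc ‖y‖ = ‖x + (y - x)‖ := by congr 1; abel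
          _ ≤ ‖x‖ + ‖y - x‖ := norm_add_le _ _
          _ ≤ _ := by gcongr
      calc ‖L t y‖ ≤ M' * ‖y‖ := (L t).le_of_opNorm_le (hLM t ht) _
        _ ≤ M' * (‖x‖ + A) := by gcongr
        _ = B := by rw [hB, NNReal.coe_mul, NNReal.coe_add]; rfl
    · have h1 : max (d - c) (c - c) = d - c := by
        rw [sub_self]; exact max_eq_left (by linarith only [hcd])
      simp only [h1]
      have h2 : (B : ℝ) = M' * (2 * ‖x‖ + 1) := by
        rw [hB, NNReal.coe_mul, NNReal.coe_add, hA, NNReal.coe_add, coe_nnnorm,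
          NNReal.coe_one]
        ring
      rw [h2]
      have h3 : M' * (2 * ‖x‖ + 1) * (d - c) ≤ M' * (2 * ‖x‖ + 1) * (1 / (2 * M')) := by
        gcongr
      have h4 : (M' : ℝ) * (2 * ‖x‖ + 1) * (1 / (2 * M')) = ‖x‖ + 1/2 := by field_simp
      simp [hA]
      linarith only [h3, h4]
  exact hpl.exists_eq_forall_mem_Icc_hasDerivWithinAt₀

/-- Linear (nonautonomous) ODEs have solutions on the whole interval. -/
theorem exists_linODE {F : Type*} [NormedAddCommGroup F] [NormedSpace ℝ F] [CompleteSpace F]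
    {a b : ℝ} (hab : a ≤ b) (L : ℝ → F →L[ℝ] F) (hL : ContinuousOn L (Icc a b)) (x : F) :
    ∃ y : ℝ → F, y a = x ∧ ∀ t ∈ Icc a b, HasDerivWithinAt y (L t (y t)) (Icc a b) t := by
  obtain ⟨C, hC⟩ : ∃ C, ∀ t ∈ Icc a b, ‖L t‖ ≤ C := isCompact_Icc.exists_bound_of_continuousOn hL
  set M : ℝ := |C| + 1 with hM
  have hMpos : 0 < M := by positivity
  have hLM : ∀ t ∈ Icc a b, ‖L t‖ ≤ M := fun t ht =>
    (hC t ht).trans ((le_abs_self C).trans (by rw [hM]; linarith))
  set δ : ℝ := 1 / (2 * M) with hδ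
  have hδpos : 0 < δ := by positivity
  have key : ∀ k : ℕ, ∀ d ∈ Icc a b, d - a ≤ k * δ →
      ∃ y : ℝ → F, y a = x ∧ ∀ t ∈ Icc a d, HasDerivWithinAt y (L t (y t)) (Icc a d) t := by
    intro k
    induction k with
    | zero =>
      intro d hd hk
      have : d = a := by
        simp at hk
        linarith only [hd, hk, hd.1]
      subst this
      refine ⟨fun _ => x, rfl, fun t ht => ?_⟩
      simp only [Icc_self, mem_singleton_iff] at ht
      subst ht
      simp only [Icc_self]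
      exact HasFDerivWithinAt.of_subsingleton (by simp)
    | succ k ih =>
      intro d hd hk
      set c := max a (d - δ) with hc
      have hac : a ≤ c := le_max_left _ _
      have hcd : c ≤ d := max_le hd.1 (by linarith only [hδpos])
      have hcb : c ≤ b := hcd.trans hd.2
      have hck : c - a ≤ k * δ := by
        push_cast at hk
        rw [hc]
        rcases le_total a (d - δ) with h | h
        · rw [max_eq_right h]; linarith only [hk]
        · rw [max_eq_left h]; simp; positivity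
      obtain ⟨y₁, hy₁, hy₁'⟩ := ih c ⟨hac, hcb⟩ hck
      obtain ⟨y₂, hy₂, hy₂'⟩ := exists_linODE_short hcd L
        (hL.mono (Icc_subset_Icc hac hd.2)) hMpos
        (fun t ht => hLM t ⟨hac.trans ht.1, ht.2.trans hd.2⟩)
        (by
          have : d - δ ≤ c := le_max_right _ _
          linarith only [this]) (y₁ c)
      obtain ⟨y, hya, -, -, hy⟩ := glue_sol (v := fun t z => L t z) hac hcd hy₁' hy₂' hy₂
      exact ⟨y, by rw [hya, hy₁], hy⟩
  obtain ⟨k, hk⟩ := exists_nat_ge ((b - a) / δ)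
  refine key k b ⟨hab, le_rfl⟩ ?_
  rwa [div_le_iff₀ hδpos] at hk

end Vale.Agent.P253.Mfd
end
end

section

section

open scoped ContDiff Topology
open Set Metric Complex Filter

set_option maxSynthPendingDepth 3
set_option linter.unusedSectionVars false

noncomputable section

namespace Vale.Agent.P253.Mfd

variable {E : Type*} [NormedAddCommGroup E] [NormedSpace ℂ E] [FiniteDimensional ℂ E]
  {G : E → E →L[ℝ] E →L[ℝ] ℝ} {U : Set E} {z : E}

/-- The pointwise inequality at the scale `r`. -/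
def PW (G : E → E →L[ℝ] E →L[ℝ] ℝ) (U K : Set E) (C τ η r : ℝ) : Prop :=
  ∀ z ∈ K, ∀ b X B : E, ‖b‖ ≤ C → ‖X‖ ≤ C → ‖B‖ ≤ C →
      ∀ ξ ζ : Fin 4 → E, (∀ k, ‖ξ k‖ ≤ C * r ^ 2) → (∀ k, ‖ζ k‖ ≤ C * r ^ 2) →
      ‖∑ k, ξ k‖ ≤ τ * r ^ 2 → ‖∑ k, ζ k‖ ≤ τ * r ^ 2 →
      (∀ k : Fin 4, z + (r • (I ^ (k:ℕ) • X) + ξ k) ∈ U) ∧
      ∑ k : Fin 4, G (z + (r • (I ^ (k:ℕ) • X) + ξ k)) (b + (r • (I ^ (k:ℕ) • B) + ζ k))
        (b + (r • (I ^ (k:ℕ) • B) + ζ k))
        ≤ 4 * G z b b + r ^ 2 * (4 * G z (B + chris G z X b) (B + chris G z X b)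
          - 4 * Rc G z X b + η)

namespace LocalKahler

set_option maxHeartbeats 1000000 in
theorem variation (h : LocalKahler G U) {K : Set E} (hKU : K ⊆ U) {κ : ℝ} (hκ : 0 ≤ κ)
    (hcurv : ∀ z ∈ K, ∀ X a, κ * G z X X * G z a a ≤ Rc G z X a)
    {d : E → E → ℝ}
    (hd : ∀ c c' : ℝ → E, (∀ t ∈ Icc (0:ℝ) 1, HasDerivWithinAt c (c' t) (Icc 0 1) t) →
      ContinuousOn c' (Icc 0 1) → (∀ t ∈ Icc (0:ℝ) 1, c t ∈ U) →
      d (c 0) (c 1) ≤ ∫ t in (0:ℝ)..1, √(G (c t) (c' t) (c' t)))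
    {c c' EE : ℝ → E} (hc : ∀ t ∈ Icc (0:ℝ) 1, HasDerivWithinAt c (c' t) (Icc 0 1) t)
    (hc' : ContinuousOn c' (Icc 0 1)) (hcK : ∀ t ∈ Icc (0:ℝ) 1, c t ∈ K)
    (hE : ∀ t ∈ Icc (0:ℝ) 1, HasDerivWithinAt EE (-(chris G (c t) (c' t) (EE t))) (Icc 0 1) t)
    {N ε S φ₀ φ₁ r η C τ : ℝ}
    (hN : ∀ t ∈ Icc (0:ℝ) 1, G (c t) (EE t) (EE t) = N) (hε : 0 < ε)
    (hS : S = ∫ t in (0:ℝ)..1, (√(G (c t) (c' t) (c' t)) + ε))
    (hφ₀ : 0 ≤ φ₀) (hφ₁ : 0 ≤ φ₁) (hr : 0 < r)
    (hpw : PW G U K C τ η r)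
    (hbC : ∀ t ∈ Icc (0:ℝ) 1, ‖(√(G (c t) (c' t) (c' t)) + ε)⁻¹ • c' t‖ ≤ C)
    (hXC : ∀ t ∈ Icc (0:ℝ) 1, ∀ f : ℝ, 0 ≤ f → f ≤ max φ₀ φ₁ → ‖f • EE t‖ ≤ C)
    (hBC : ∀ t ∈ Icc (0:ℝ) 1, ∀ f : ℝ, 0 ≤ f → f ≤ max φ₀ φ₁ →
      ‖((φ₁ - φ₀) / S) • EE t
        - chris G (c t) ((√(G (c t) (c' t) (c' t)) + ε)⁻¹ • c' t) (f • EE t)‖ ≤ C)
    {ξ₀ ξ₁ : Fin 4 → E} (hξ₀ : ∀ k, ‖ξ₀ k‖ ≤ C * r ^ 2) (hξ₁ : ∀ k, ‖ξ₁ k‖ ≤ C * r ^ 2)
    (hζ : ∀ k, ‖(1 / S : ℝ) • (ξ₁ k - ξ₀ k)‖ ≤ C * r ^ 2)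
    (hSξ₀ : ‖∑ k, ξ₀ k‖ ≤ τ * r ^ 2) (hSξ₁ : ‖∑ k, ξ₁ k‖ ≤ τ * r ^ 2)
    (hSζ : ‖∑ k, (1 / S : ℝ) • (ξ₁ k - ξ₀ k)‖ ≤ τ * r ^ 2) :
    ∑ k : Fin 4, d (c 0 + ((r * φ₀) • (I ^ (k:ℕ) • EE 0) + ξ₀ k))
        (c 1 + ((r * φ₁) • (I ^ (k:ℕ) • EE 1) + ξ₁ k))
      ≤ S * (4 + 2 * r ^ 2 * ((φ₁ - φ₀) / S) ^ 2 * N + η * r ^ 2 / 2
          - 2 * r ^ 2 * (min φ₀ φ₁) ^ 2 * κ * N) + 4 * ε * r ^ 2 * (min φ₀ φ₁) ^ 2 * κ * N := by
  have h01 : (0:ℝ) ≤ 1 := zero_le_one
  have hcU : ∀ t ∈ Icc (0:ℝ) 1, c t ∈ U := fun t ht => hKU (hcK t ht)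
  have hcc : ContinuousOn c (Icc 0 1) := fun t ht => (hc t ht).continuousWithinAt
  have hEc : ContinuousOn EE (Icc 0 1) := fun t ht => (hE t ht).continuousWithinAt
  have hGc : ContinuousOn (fun t => G (c t)) (Icc 0 1) := h.smooth.continuousOn.comp hcc hcU
  have hΓc : ContinuousOn (fun t => chris G (c t)) (Icc 0 1) :=
    h.contDiffOn_chris.continuousOn.comp hcc hcU
  set lam : ℝ → ℝ := fun t => √(G (c t) (c' t) (c' t)) + ε with hlam
  have hlamc : ContinuousOn lam (Icc 0 1) :=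
    (((hGc.clm_apply hc').clm_apply hc').sqrt).add continuousOn_const
  have hlamε : ∀ t, ε ≤ lam t := fun t => by
    simp only [hlam]; linarith only [Real.sqrt_nonneg (G (c t) (c' t) (c' t))]
  have hlam0 : ∀ t, 0 < lam t := fun t => hε.trans_le (hlamε t)
  have hlami : IntervalIntegrable lam MeasureTheory.volume 0 1 :=
    hlamc.intervalIntegrable_of_Icc h01
  have hSε : ε ≤ S := by
    rw [hS]
    have := intervalIntegral.integral_mono_on h01
      (_root_.intervalIntegrable_const (c := ε)) hlami (fun t _ => hlamε t)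
    simpa using this
  have hSpos : 0 < S := hε.trans_le hSε
  have hN0 : 0 ≤ N := by
    rw [← hN 0 (by simp)]
    by_cases h0 : EE 0 = 0
    · simp [h0]
    · exact (h.pos _ (hcU 0 (by simp)) _ h0).le
  -- the parameter
  set lamt : ℝ → ℝ := fun t => lam (projIcc 0 1 h01 t) with hlamt
  have hlamtc : Continuous lamt := by
    have : Continuous (fun t : Icc (0:ℝ) 1 => lam t) := hlamc.domRestrict
    exact this.comp continuous_projIcc
  have hlamteq : ∀ t ∈ Icc (0:ℝ) 1, lamt t = lam t := fun t ht => by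
    simp only [hlamt, projIcc_of_mem h01 ht]
  have hlamt0 : ∀ t, 0 < lamt t := fun t => hlam0 _
  set s : ℝ → ℝ := fun t => (∫ u in (0:ℝ)..t, lamt u) / S with hs
  have hsd : ∀ t, HasDerivAt s (lamt t / S) t := by
    intro t
    exact (intervalIntegral.integral_hasDerivAt_right (hlamtc.intervalIntegrable _ _)
      (hlamtc.stronglyMeasurableAtFilter _ _) hlamtc.continuousAt).div_const S
  have hs0 : s 0 = 0 := by simp [hs]
  have hs1 : s 1 = 1 := by
    have : (∫ u in (0:ℝ)..1, lamt u) = S := by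
      rw [hS]
      apply intervalIntegral.integral_congr
      intro t ht
      rw [uIcc_of_le h01] at ht
      exact hlamteq t ht
    simp only [hs, this]
    exact div_self hSpos.ne'
  have hsmono : Monotone s := monotone_of_deriv_nonneg (fun t => (hsd t).differentiableAt)
    (fun t => by rw [(hsd t).deriv]; exact (div_pos (hlamt0 t) hSpos).le)
  have hsI : ∀ t ∈ Icc (0:ℝ) 1, 0 ≤ s t ∧ s t ≤ 1 := fun t ht =>
    ⟨hs0 ▸ hsmono ht.1, hs1 ▸ hsmono ht.2⟩
  have hsd' : ∀ t ∈ Icc (0:ℝ) 1, HasDerivWithinAt s (lam t / S) (Icc 0 1) t := fun t ht => by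
    rw [← hlamteq t ht]; exact (hsd t).hasDerivWithinAt
  have hsc : ContinuousOn s (Icc 0 1) := fun t ht => (hsd' t ht).continuousWithinAt
  set f : ℝ → ℝ := fun t => φ₀ + (φ₁ - φ₀) * s t with hf
  have hfc : ContinuousOn f (Icc 0 1) := continuousOn_const.add (continuousOn_const.mul hsc)
  have hfd : ∀ t ∈ Icc (0:ℝ) 1, HasDerivWithinAt f ((φ₁ - φ₀) * (lam t / S)) (Icc 0 1) t :=
    fun t ht => ((hsd' t ht).const_mul (φ₁ - φ₀)).const_add φ₀
  set m := min φ₀ φ₁ with hm
  have hm0 : 0 ≤ m := le_min hφ₀ hφ₁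
  have hfm : ∀ t ∈ Icc (0:ℝ) 1, m ≤ f t ∧ f t ≤ max φ₀ φ₁ := by
    intro t ht
    obtain ⟨h0, h1⟩ := hsI t ht
    have e : f t = (1 - s t) * φ₀ + s t * φ₁ := by simp only [hf]; ring
    rw [e]
    have hml : m ≤ φ₀ := min_le_left _ _
    have hmr : m ≤ φ₁ := min_le_right _ _
    have hMl : φ₀ ≤ max φ₀ φ₁ := le_max_left _ _
    have hMr : φ₁ ≤ max φ₀ φ₁ := le_max_right _ _
    constructor
    · linarith only [mul_nonneg (sub_nonneg.2 h1) (sub_nonneg.2 hml),
        mul_nonneg h0 (sub_nonneg.2 hmr)]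
    · linarith only [mul_nonneg (sub_nonneg.2 h1) (sub_nonneg.2 hMl),
        mul_nonneg h0 (sub_nonneg.2 hMr)]
  -- the variation
  set del : Fin 4 → ℝ → E := fun k t =>
    (r * f t) • (I ^ (k:ℕ) • EE t) + ((1 - s t) • ξ₀ k + s t • ξ₁ k) with hdel
  set del' : Fin 4 → ℝ → E := fun k t =>
    ((r * f t) • (I ^ (k:ℕ) • (-(chris G (c t) (c' t) (EE t))))
      + (r * ((φ₁ - φ₀) * (lam t / S))) • (I ^ (k:ℕ) • EE t))
      + ((-(lam t / S)) • ξ₀ k + (lam t / S) • ξ₁ k) with hdel'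
  have hdeld : ∀ k, ∀ t ∈ Icc (0:ℝ) 1, HasDerivWithinAt (del k) (del' k t) (Icc 0 1) t := by
    intro k t ht
    have h1 : HasDerivWithinAt (fun t => I ^ (k:ℕ) • EE t)
        (I ^ (k:ℕ) • (-(chris G (c t) (c' t) (EE t)))) (Icc 0 1) t :=
      (hE t ht).const_smul (I ^ (k:ℕ))
    have h2 : HasDerivWithinAt (fun t => r * f t) (r * ((φ₁ - φ₀) * (lam t / S))) (Icc 0 1) t :=
      (hfd t ht).const_mul r
    have h3 := h2.smul h1
    have h4 : HasDerivWithinAt (fun t => (1 - s t) • ξ₀ k) ((-(lam t / S)) • ξ₀ k) (Icc 0 1) t :=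
      ((hsd' t ht).const_sub 1).smul_const (ξ₀ k)
    have h5 : HasDerivWithinAt (fun t => s t • ξ₁ k) ((lam t / S) • ξ₁ k) (Icc 0 1) t :=
      (hsd' t ht).smul_const (ξ₁ k)
    exact h3.add (h4.add h5)
  have hdelc : ∀ k, ContinuousOn (del k) (Icc 0 1) := fun k t ht =>
    (hdeld k t ht).continuousWithinAt
  have hdel'c : ∀ k, ContinuousOn (del' k) (Icc 0 1) := by
    intro k
    have h1 : ContinuousOn (fun t => lam t / S) (Icc 0 1) := hlamc.div_const S
    have h2 : ContinuousOn (fun t => I ^ (k:ℕ) • EE t) (Icc 0 1) := hEc.const_smul _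
    have h3 : ContinuousOn (fun t => I ^ (k:ℕ) • (-(chris G (c t) (c' t) (EE t)))) (Icc 0 1) :=
      (((hΓc.clm_apply hc').clm_apply hEc).neg).const_smul _
    exact ((((continuousOn_const.mul hfc).smul h3).add
      ((continuousOn_const.mul (continuousOn_const.mul h1)).smul h2))).add
      ((h1.neg.smul continuousOn_const).add (h1.smul continuousOn_const))
  set b : ℝ → E := fun t => (lam t)⁻¹ • c' t with hb
  set B : ℝ → E := fun t => ((φ₁ - φ₀) / S) • EE t - chris G (c t) (b t) (f t • EE t) with hB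
  set ζ : Fin 4 → E := fun k => (1 / S : ℝ) • (ξ₁ k - ξ₀ k) with hζdef
  have hdecomp : ∀ k : Fin 4, ∀ t, c' t + del' k t
      = lam t • (b t + (r • (I ^ (k:ℕ) • B t) + ζ k)) := by
    intro k t
    have hl := (hlam0 t).ne'
    have e1 : c' t = lam t • b t := by
      simp only [hb]; rw [smul_smul, mul_inv_cancel₀ hl, one_smul]
    have e2 : chris G (c t) (c' t) (EE t) = lam t • chris G (c t) (b t) (EE t) := by
      conv_lhs => rw [e1]
      simp
    have e3 : I ^ (k:ℕ) • B t = ((φ₁ - φ₀) / S) • (I ^ (k:ℕ) • EE t)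
        - f t • (I ^ (k:ℕ) • chris G (c t) (b t) (EE t)) := by
      simp only [hB, map_smul, smul_sub]
      rw [smul_comm (I ^ (k:ℕ)) ((φ₁ - φ₀) / S), smul_comm (I ^ (k:ℕ)) (f t)]
    have e4 : I ^ (k:ℕ) • (-(chris G (c t) (c' t) (EE t)))
        = (-(lam t)) • (I ^ (k:ℕ) • chris G (c t) (b t) (EE t)) := by
      rw [e2, neg_smul, smul_neg, smul_comm (I ^ (k:ℕ)) (lam t)]
    simp only [hdel', hζdef]
    rw [e4, e3]
    nth_rewrite 1 [e1]
    module
  have hcurvemem : ∀ k : Fin 4, ∀ t, c t + del k t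
      = c t + (r • (I ^ (k:ℕ) • (f t • EE t)) + ((1 - s t) • ξ₀ k + s t • ξ₁ k)) := by
    intro k t
    simp only [hdel]
    rw [smul_comm (I ^ (k:ℕ)) (f t), smul_smul]
  -- use of the pointwise inequality
  have hpt : ∀ t ∈ Icc (0:ℝ) 1, (∀ k, c t + del k t ∈ U) ∧
      ∑ k, G (c t + del k t) (b t + (r • (I ^ (k:ℕ) • B t) + ζ k))
        (b t + (r • (I ^ (k:ℕ) • B t) + ζ k)) ≤ 4 * G (c t) (b t) (b t)
          + r ^ 2 * (4 * ((φ₁ - φ₀) / S) ^ 2 * N - 4 * (κ * (m ^ 2 * N) * G (c t) (b t) (b t)) + η) := by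
    intro t ht
    obtain ⟨h0, h1⟩ := hsI t ht
    have h1' : 0 ≤ 1 - s t := by linarith only [h1]
    have hξt : ∀ k, ‖(1 - s t) • ξ₀ k + s t • ξ₁ k‖ ≤ C * r ^ 2 := by
      intro k
      calc _ ≤ ‖(1 - s t) • ξ₀ k‖ + ‖s t • ξ₁ k‖ := norm_add_le _ _
        _ = (1 - s t) * ‖ξ₀ k‖ + s t * ‖ξ₁ k‖ := by
          rw [norm_smul, norm_smul, Real.norm_of_nonneg h0, Real.norm_of_nonneg (by linarith only [h1])]
        _ ≤ (1 - s t) * (C * r ^ 2) + s t * (C * r ^ 2) := by
          gcongr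
          · exact hξ₀ k
          · exact hξ₁ k
        _ = _ := by ring
    have hSξt : ‖∑ k, ((1 - s t) • ξ₀ k + s t • ξ₁ k)‖ ≤ τ * r ^ 2 := by
      rw [Finset.sum_add_distrib, ← Finset.smul_sum, ← Finset.smul_sum]
      calc _ ≤ ‖(1 - s t) • ∑ k, ξ₀ k‖ + ‖s t • ∑ k, ξ₁ k‖ := norm_add_le _ _
        _ = (1 - s t) * ‖∑ k, ξ₀ k‖ + s t * ‖∑ k, ξ₁ k‖ := by
          rw [norm_smul, norm_smul, Real.norm_of_nonneg h0, Real.norm_of_nonneg (by linarith only [h1])]
        _ ≤ (1 - s t) * (τ * r ^ 2) + s t * (τ * r ^ 2) := by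
          gcongr
        _ = _ := by ring
    obtain ⟨hf0, hf1⟩ := hfm t ht
    have hp := hpw (c t) (hcK t ht) (b t) (f t • EE t) (B t) (hbC t ht)
      (hXC t ht (f t) (hm0.trans hf0) hf1) (hBC t ht (f t) (hm0.trans hf0) hf1)
      (fun k => (1 - s t) • ξ₀ k + s t • ξ₁ k) ζ hξt hζ hSξt hSζ
    refine ⟨fun k => by rw [hcurvemem k t]; exact hp.1 k, ?_⟩
    have hsum : ∑ k, G (c t + del k t) (b t + (r • (I ^ (k:ℕ) • B t) + ζ k))
        (b t + (r • (I ^ (k:ℕ) • B t) + ζ k)) = ∑ k : Fin 4, G (c t +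
          (r • (I ^ (k:ℕ) • (f t • EE t)) + ((1 - s t) • ξ₀ k + s t • ξ₁ k)))
          (b t + (r • (I ^ (k:ℕ) • B t) + ζ k)) (b t + (r • (I ^ (k:ℕ) • B t) + ζ k)) := by
      apply Finset.sum_congr rfl
      intro k _
      rw [hcurvemem k t]
    rw [hsum]
    refine hp.2.trans ?_
    have e1 : B t + chris G (c t) (f t • EE t) (b t) = ((φ₁ - φ₀) / S) • EE t := by
      rw [h.chris_symm (hcU t ht) (f t • EE t) (b t)]
      simp only [hB]
      abel
    have e2 : G (c t) (((φ₁ - φ₀) / S) • EE t) (((φ₁ - φ₀) / S) • EE t)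
        = ((φ₁ - φ₀) / S) ^ 2 * N := by
      rw [map_smul, map_smul, smul_apply, smul_eq_mul, smul_eq_mul, hN t ht]
      ring
    have e3 : κ * (m ^ 2 * N) * G (c t) (b t) (b t) ≤ Rc G (c t) (f t • EE t) (b t) := by
      refine le_trans ?_ (hcurv (c t) (hcK t ht) (f t • EE t) (b t))
      have e4 : G (c t) (f t • EE t) (f t • EE t) = (f t) ^ 2 * N := by
        rw [map_smul, map_smul, smul_apply, smul_eq_mul, smul_eq_mul, hN t ht]
        ring
      rw [e4]
      have hg0 : 0 ≤ G (c t) (b t) (b t) := by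
        by_cases h0 : b t = 0
        · simp [h0]
        · exact (h.pos _ (hcU t ht) _ h0).le
      gcongr
    rw [e1, e2]
    have hr2 : 0 ≤ r ^ 2 := by positivity
    have e5 : r ^ 2 * (4 * (((φ₁ - φ₀) / S) ^ 2 * N) - 4 * Rc G (c t) (f t • EE t) (b t) + η)
      ≤ r ^ 2 * (4 * ((φ₁ - φ₀) / S) ^ 2 * N - 4 * (κ * (m ^ 2 * N) * G (c t) (b t) (b t)) + η) := by
      gcongr ?_ * ?_
      linarith only [e3]
    linarith only [e5]
  -- integrate
  have hdk : ∀ k, d (c 0 + del k 0) (c 1 + del k 1) ≤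
      ∫ t in (0:ℝ)..1, √(G (c t + del k t) (c' t + del' k t) (c' t + del' k t)) := by
    intro k
    exact hd (fun t => c t + del k t) (fun t => c' t + del' k t)
      (fun t ht => (hc t ht).add (hdeld k t ht)) (hc'.add (hdel'c k)) (fun t ht => (hpt t ht).1 k)
  have hcont : ∀ k, ContinuousOn
      (fun t => √(G (c t + del k t) (c' t + del' k t) (c' t + del' k t))) (Icc 0 1) := by
    intro k
    have h1 : ContinuousOn (fun t => c' t + del' k t) (Icc 0 1) := hc'.add (hdel'c k)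
    have h2 : ContinuousOn (fun t => G (c t + del k t)) (Icc 0 1) :=
      h.smooth.continuousOn.comp (hcc.add (hdelc k)) (fun t ht => (hpt t ht).1 k)
    exact ((h2.clm_apply h1).clm_apply h1).sqrt
  have hends : ∀ k : Fin 4, d (c 0 + ((r * φ₀) • (I ^ (k:ℕ) • EE 0) + ξ₀ k))
        (c 1 + ((r * φ₁) • (I ^ (k:ℕ) • EE 1) + ξ₁ k)) = d (c 0 + del k 0) (c 1 + del k 1) := by
    intro k
    simp [hdel, hf, hs0, hs1]
  rw [Finset.sum_congr rfl (fun k _ => hends k)]
  have hsumint : ∑ k : Fin 4, d (c 0 + del k 0) (c 1 + del k 1) ≤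
      ∫ t in (0:ℝ)..1, ∑ k : Fin 4, √(G (c t + del k t) (c' t + del' k t) (c' t + del' k t)) := by
    rw [intervalIntegral.integral_finsetSum
      (fun k _ => (hcont k).intervalIntegrable_of_Icc h01)]
    exact Finset.sum_le_sum (fun k _ => hdk k)
  refine hsumint.trans ?_
  set A : ℝ := 4 + 2 * r ^ 2 * ((φ₁ - φ₀) / S) ^ 2 * N + η * r ^ 2 / 2
          - 2 * r ^ 2 * m ^ 2 * κ * N with hA
  set B₀ : ℝ := 4 * ε * r ^ 2 * m ^ 2 * κ * N with hB₀
  have hptw : ∀ t ∈ Icc (0:ℝ) 1,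
      ∑ k : Fin 4, √(G (c t + del k t) (c' t + del' k t) (c' t + del' k t)) ≤ lam t * A + B₀ := by
    intro t ht
    obtain ⟨hU, hineq⟩ := hpt t ht
    set v : Fin 4 → E := fun k => b t + (r • (I ^ (k:ℕ) • B t) + ζ k) with hv
    have hl := hlam0 t
    have hk : ∀ k, √(G (c t + del k t) (c' t + del' k t) (c' t + del' k t))
        ≤ lam t * ((G (c t + del k t) (v k) (v k) + 1) / 2) := by
      intro k
      rw [hdecomp k t]
      have hg0 : 0 ≤ G (c t + del k t) (v k) (v k) := by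
        by_cases h0 : v k = 0
        · simp [h0]
        · exact (h.pos _ (hU k) _ h0).le
      have e1 : G (c t + del k t) (lam t • v k) (lam t • v k)
          = lam t ^ 2 * G (c t + del k t) (v k) (v k) := by
        rw [map_smul, map_smul, smul_apply, smul_eq_mul, smul_eq_mul]
        ring
      rw [e1, Real.sqrt_mul (by positivity), Real.sqrt_sq hl.le]
      gcongr
      rw [Real.sqrt_le_left (by positivity)]
      linarith only [sq_nonneg (G (c t + del k t) (v k) (v k) - 1)]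
    have hsum : ∑ k : Fin 4, √(G (c t + del k t) (c' t + del' k t) (c' t + del' k t)) ≤
        lam t / 2 * (∑ k, G (c t + del k t) (v k) (v k) + 4) := by
      refine (Finset.sum_le_sum (fun k _ => hk k)).trans (le_of_eq ?_)
      rw [← Finset.mul_sum, ← Finset.sum_div, Finset.sum_add_distrib]
      simp
      ring
    refine hsum.trans ?_
    have hgb : G (c t) (b t) (b t) = ((lam t - ε) / lam t) ^ 2 := by
      have e1 : G (c t) (b t) (b t) = (lam t)⁻¹ ^ 2 * G (c t) (c' t) (c' t) := by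
        simp only [hb]
        rw [map_smul, map_smul, smul_apply, smul_eq_mul, smul_eq_mul]
        ring
      have hg0 : 0 ≤ G (c t) (c' t) (c' t) := by
        by_cases h0 : c' t = 0
        · simp [h0]
        · exact (h.pos _ (hcU t ht) _ h0).le
      have e2 : G (c t) (c' t) (c' t) = (lam t - ε) ^ 2 := by
        simp only [hlam, add_sub_cancel_right]
        rw [Real.sq_sqrt hg0]
      rw [e1, e2]
      field_simp
    set g := G (c t) (b t) (b t) with hg
    have hg1 : 0 ≤ lam t * (1 - g) ∧ lam t * (1 - g) ≤ 2 * ε := by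
      have e : lam t * (1 - g) = 2 * ε - ε ^ 2 / lam t := by
        rw [hgb]; field_simp; ring
      have e' : ε ^ 2 / lam t ≤ ε := by
        rw [div_le_iff₀ hl]
        linarith only [mul_le_mul_of_nonneg_left (hlamε t) hε.le]
      have e'' : 0 ≤ ε ^ 2 / lam t := by positivity
      rw [e]
      constructor <;> linarith only [hε, e', e'']
    have hκN : 0 ≤ r ^ 2 * m ^ 2 * κ * N := by positivity
    have e1 : lam t / 2 * (∑ k, G (c t + del k t) (v k) (v k) + 4) ≤
        lam t / 2 * (4 * g + r ^ 2 * (4 * ((φ₁ - φ₀) / S) ^ 2 * N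
          - 4 * (κ * (m ^ 2 * N) * g) + η) + 4) := by
      gcongr
    refine e1.trans ?_
    have e2 : lam t * A + B₀ - lam t / 2 * (4 * g + r ^ 2 * (4 * ((φ₁ - φ₀) / S) ^ 2 * N
          - 4 * (κ * (m ^ 2 * N) * g) + η) + 4)
        = 2 * (lam t * (1 - g)) + 2 * (r ^ 2 * m ^ 2 * κ * N) * (2 * ε - lam t * (1 - g)) := by
      simp only [hA, hB₀]; ring
    have e3 : 0 ≤ 2 * (r ^ 2 * m ^ 2 * κ * N) * (2 * ε - lam t * (1 - g)) := by
      apply mul_nonneg (by linarith only [hκN])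
      linarith only [hg1, hg1.2]
    linarith only [hg1, e2, e3, hg1.1]
  have i1 : IntervalIntegrable (fun t => ∑ k : Fin 4,
      √(G (c t + del k t) (c' t + del' k t) (c' t + del' k t))) MeasureTheory.volume 0 1 :=
    (continuousOn_finsetSum Finset.univ (fun k _ => hcont k)).intervalIntegrable_of_Icc h01
  have i2 : IntervalIntegrable (fun t => lam t * A + B₀) MeasureTheory.volume 0 1 :=
    ((hlamc.mul continuousOn_const).add continuousOn_const).intervalIntegrable_of_Icc h01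
  have hint := intervalIntegral.integral_mono_on h01 i1 i2 hptw
  refine hint.trans (le_of_eq ?_)
  rw [intervalIntegral.integral_add (hlami.mul_const A) _root_.intervalIntegrable_const,
    intervalIntegral.integral_mul_const, ← hS]
  simp

/-- a positive lower bound for the metric on a compact set -/
theorem exists_lower (h : LocalKahler G U) {K : Set E} (hK : IsCompact K) (hKU : K ⊆ U) :
    ∃ m > 0, ∀ z ∈ K, ∀ v, m * ‖v‖ ^ 2 ≤ G z v v := by
  have : ProperSpace E := FiniteDimensional.proper ℂ E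
  set P := K ×ˢ sphere (0 : E) 1 with hP
  have hPc : IsCompact P := hK.prod (isCompact_sphere 0 1)
  have hcont : ContinuousOn (fun p : E × E => G p.1 p.2 p.2) P := by
    have h1 : ContinuousOn (fun p : E × E => G p.1) P :=
      h.smooth.continuousOn.comp continuousOn_fst (fun p hp => hKU hp.1)
    exact (h1.clm_apply continuousOn_snd).clm_apply continuousOn_snd
  obtain ⟨m, hm, hmin⟩ : ∃ m > 0, ∀ p ∈ P, m ≤ G p.1 p.2 p.2 := by
    rcases P.eq_empty_or_nonempty with hemp | hne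
    · exact ⟨1, one_pos, fun p hp => by simp [hemp] at hp⟩
    · obtain ⟨p₀, hp₀, hmin⟩ := hPc.exists_isMinOn hne hcont
      refine ⟨G p₀.1 p₀.2 p₀.2, ?_, fun p hp => hmin hp⟩
      apply h.pos _ (hKU hp₀.1)
      intro h0
      have := hp₀.2
      simp [h0] at this
  refine ⟨m, hm, fun z hz v => ?_⟩
  by_cases hv : v = 0
  · simp [hv]
  have hvn : 0 < ‖v‖ := norm_pos_iff.2 hv
  have h1 := hmin (z, ‖v‖⁻¹ • v) ⟨hz, by simp [norm_smul, hvn.ne']⟩
  simp only [map_smul, smul_apply, smul_eq_mul] at h1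
  have h2 : ‖v‖⁻¹ * (‖v‖⁻¹ * G z v v) = G z v v / ‖v‖ ^ 2 := by field_simp
  rw [h2, le_div_iff₀ (by positivity)] at h1
  exact h1

end LocalKahler

/-- error terms of order `r²` whose sum is `o(r²)` -/
def IsSmall (ξ : ℝ → Fin 4 → E) : Prop :=
  (∃ C : ℝ, ∀ᶠ r in 𝓝[>] (0:ℝ), ∀ k, ‖ξ r k‖ ≤ C * r ^ 2) ∧
  ∀ τ > 0, ∀ᶠ r in 𝓝[>] (0:ℝ), ‖∑ k, ξ r k‖ ≤ τ * r ^ 2

namespace LocalKahler

set_option maxHeartbeats 1000000 in
/-- Second variation inequality along nearly minimising curves. -/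
theorem second_variation (h : LocalKahler G U) {K : Set E} (hK : IsCompact K) (hKU : K ⊆ U)
    {κ : ℝ} (hκ : 0 ≤ κ)
    (hcurv : ∀ z ∈ K, ∀ X a, κ * G z X X * G z a a ≤ Rc G z X a)
    {d : E → E → ℝ}
    (hd : ∀ c c' : ℝ → E, (∀ t ∈ Icc (0:ℝ) 1, HasDerivWithinAt c (c' t) (Icc 0 1) t) →
      ContinuousOn c' (Icc 0 1) → (∀ t ∈ Icc (0:ℝ) 1, c t ∈ U) →
      d (c 0) (c 1) ≤ ∫ t in (0:ℝ)..1, √(G (c t) (c' t) (c' t)))
    {x x' : E} {D : ℝ} (hD : 0 < D) (hDd : D ≤ d x x')
    (hcurves : ∀ ε > 0, ∃ c c' : ℝ → E,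
      (∀ t ∈ Icc (0:ℝ) 1, HasDerivWithinAt c (c' t) (Icc 0 1) t) ∧
      ContinuousOn c' (Icc 0 1) ∧ c 0 = x ∧ c 1 = x' ∧ (∀ t ∈ Icc (0:ℝ) 1, c t ∈ K) ∧
      ∫ t in (0:ℝ)..1, √(G (c t) (c' t) (c' t)) ≤ D + ε) (Y : E) :
    ∃ Y', G x' Y' Y' = G x Y Y ∧ ∀ φ₀ φ₁ : ℝ, 0 ≤ φ₀ → 0 ≤ φ₁ →
      ∀ ξ ξ' : ℝ → Fin 4 → E, IsSmall ξ → IsSmall ξ' → ∀ η > 0, ∀ᶠ r in 𝓝[>] (0:ℝ),
      ∑ k : Fin 4, d (x + ((r * φ₀) • (I ^ (k:ℕ) • Y) + ξ r k))
        (x' + ((r * φ₁) • (I ^ (k:ℕ) • Y') + ξ' r k))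
        ≤ 4 * D + r ^ 2 * (2 * (φ₁ - φ₀) ^ 2 * G x Y Y / D
          - 2 * (min φ₀ φ₁) ^ 2 * κ * G x Y Y * D + η) := by
  have hprop : ProperSpace E := FiniteDimensional.proper ℂ E
  have hcompl : CompleteSpace E := FiniteDimensional.complete ℂ E
  have h01 : (0:ℝ) ≤ 1 := zero_le_one
  have h0m : (0:ℝ) ∈ Icc (0:ℝ) 1 := by simp
  have h1m : (1:ℝ) ∈ Icc (0:ℝ) 1 := by simp
  set ε : ℕ → ℝ := fun n => 1 / ((n:ℝ) + 1) with hεdef
  have hε : ∀ n, 0 < ε n := fun n => by simp only [hεdef]; positivity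
  have hεlim : Tendsto ε atTop (𝓝 0) := tendsto_one_div_add_atTop_nhds_zero_nat
  have hcv := fun n : ℕ => hcurves (ε n) (hε n)
  choose c c' hc hc' hc0 hc1 hcK hlen using hcv
  have hxK : x ∈ K := by rw [← hc0 0]; exact hcK 0 0 h0m
  have hx'K : x' ∈ K := by rw [← hc1 0]; exact hcK 0 1 h1m
  obtain ⟨m, hm, hlow⟩ := h.exists_lower hK hKU
  obtain ⟨CΓ₀, hCΓ₀⟩ := hK.exists_bound_of_continuousOn (h.contDiffOn_chris.continuousOn.mono hKU)
  set CΓ := max CΓ₀ 0 with hCΓdef
  have hCΓ0 : 0 ≤ CΓ := le_max_right _ _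
  have hCΓ : ∀ z ∈ K, ∀ u v, ‖chris G z u v‖ ≤ CΓ * ‖u‖ * ‖v‖ := by
    intro z hz u v
    calc _ ≤ ‖chris G z‖ * ‖u‖ * ‖v‖ := (chris G z).le_opNorm₂ u v
      _ ≤ _ := by
        gcongr
        exact (hCΓ₀ z hz).trans (le_max_left _ _)
  set N := G x Y Y with hNdef
  have hGnonneg : ∀ z ∈ U, ∀ v, 0 ≤ G z v v := by
    intro z hz v
    by_cases h0 : v = 0
    · simp [h0]
    · exact (h.pos _ hz _ h0).le
  have hN0 : 0 ≤ N := hGnonneg x (hKU hxK) Y
  -- parallel fields
  have hpar : ∀ n, ∃ EE : ℝ → E, EE 0 = Y ∧ ∀ t ∈ Icc (0:ℝ) 1,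
      HasDerivWithinAt EE (-(chris G (c n t) (c' n t) (EE t))) (Icc 0 1) t := by
    intro n
    have hL : ContinuousOn (fun t => -(chris G (c n t) (c' n t))) (Icc 0 1) := by
      have hcc : ContinuousOn (c n) (Icc 0 1) := fun t ht => (hc n t ht).continuousWithinAt
      have : ContinuousOn (fun t => chris G (c n t)) (Icc 0 1) :=
        h.contDiffOn_chris.continuousOn.comp hcc (fun t ht => hKU (hcK n t ht))
      exact (this.clm_apply (hc' n)).neg
    obtain ⟨y, hy0, hy⟩ := exists_linODE h01 _ hL Y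
    exact ⟨y, hy0, fun t ht => by simpa using hy t ht⟩
  choose EE hE0 hE using hpar
  have hN : ∀ n, ∀ t ∈ Icc (0:ℝ) 1, G (c n t) (EE n t) (EE n t) = N := by
    intro n
    have hder : ∀ t ∈ Icc (0:ℝ) 1,
        HasDerivWithinAt (fun t => G (c n t) (EE n t) (EE n t)) 0 (Icc 0 1) t := by
      intro t ht
      have hctU : c n t ∈ U := hKU (hcK n t ht)
      have h1 : HasDerivWithinAt (fun t => G (c n t)) (fderiv ℝ G (c n t) (c' n t)) (Icc 0 1) t :=
        (h.differentiableAt hctU).hasFDerivAt.comp_hasDerivWithinAt t (hc n t ht)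
      have h2 := (h1.clm_apply (hE n t ht)).clm_apply (hE n t ht)
      convert! h2 using 1
      rw [add_apply, h.fderiv_eq hctU]
      simp only [map_neg, neg_apply]
      ring
    have hdiff : DifferentiableOn ℝ (fun t => G (c n t) (EE n t) (EE n t)) (Icc 0 1) :=
      fun t ht => (hder t ht).differentiableWithinAt
    have hz : ∀ t ∈ Ico (0:ℝ) 1,
        derivWithin (fun t => G (c n t) (EE n t) (EE n t)) (Icc 0 1) t = 0 := fun t ht =>
      (hder t (Ico_subset_Icc_self ht)).derivWithin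
        (uniqueDiffOn_Icc one_pos t (Ico_subset_Icc_self ht))
    intro t ht
    have := constant_of_derivWithin_zero hdiff hz t ht
    rw [this]
    simp only [hc0, hE0, hNdef]
  set R := √(N / m) with hR
  have hR0 : 0 ≤ R := Real.sqrt_nonneg _
  have hEbound : ∀ n, ∀ t ∈ Icc (0:ℝ) 1, ‖EE n t‖ ≤ R := by
    intro n t ht
    apply Real.le_sqrt_of_sq_le
    rw [le_div_iff₀ hm, mul_comm, ← hN n t ht]
    exact hlow _ (hcK n t ht) _
  obtain ⟨Y', hY'ball, φ, hφ, hlim⟩ := (isCompact_closedBall (0:E) R).tendsto_subseq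
    (x := fun n => EE n 1) (fun n => by simpa using hEbound n 1 h1m)
  have hGY' : G x' Y' Y' = N := by
    have h1 : Tendsto (fun n => G x' (EE (φ n) 1) (EE (φ n) 1)) atTop (𝓝 (G x' Y' Y')) := by
      have hcont : Continuous (fun v => G x' v v) := by fun_prop
      exact (hcont.tendsto Y').comp hlim
    have h2 : (fun n => G x' (EE (φ n) 1) (EE (φ n) 1)) = fun _ => N := by
      funext n
      have := hN (φ n) 1 h1m
      rwa [hc1] at this
    rw [h2] at h1
    exact (tendsto_nhds_unique h1 tendsto_const_nhds)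
  refine ⟨Y', hGY', ?_⟩
  intro φ₀ φ₁ hφ₀ hφ₁ ξ ξ' ⟨⟨Cξ, hCξ⟩, hξs⟩ ⟨⟨Cξ', hCξ'⟩, hξ's⟩ η hη
  -- lengths
  set S : ℕ → ℝ := fun n => ∫ t in (0:ℝ)..1, (√(G (c n t) (c' n t) (c' n t)) + ε n) with hSdef
  have hsqc : ∀ n, ContinuousOn (fun t => √(G (c n t) (c' n t) (c' n t))) (Icc 0 1) := by
    intro n
    have hcc : ContinuousOn (c n) (Icc 0 1) := fun t ht => (hc n t ht).continuousWithinAt
    have h1 : ContinuousOn (fun t => G (c n t)) (Icc 0 1) :=
      h.smooth.continuousOn.comp hcc (fun t ht => hKU (hcK n t ht))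
    exact ((h1.clm_apply (hc' n)).clm_apply (hc' n)).sqrt
  have hSeq : ∀ n, S n = (∫ t in (0:ℝ)..1, √(G (c n t) (c' n t) (c' n t))) + ε n := by
    intro n
    simp only [hSdef]
    rw [intervalIntegral.integral_add ((hsqc n).intervalIntegrable_of_Icc h01)
      _root_.intervalIntegrable_const]
    simp
  have hSlow : ∀ n, D + ε n ≤ S n := by
    intro n
    have := hd (c n) (c' n) (hc n) (hc' n) (fun t ht => hKU (hcK n t ht))
    rw [hc0, hc1] at this
    rw [hSeq]
    linarith only [hDd, this]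
  have hSup : ∀ n, S n ≤ D + 2 * ε n := by
    intro n
    rw [hSeq]
    linarith only [hlen, hlen n]
  have hSlim : Tendsto S atTop (𝓝 D) := by
    refine tendsto_of_tendsto_of_tendsto_of_le_of_le (g := fun n => D + ε n)
      (h := fun n => D + 2 * ε n) ?_ ?_ hSlow hSup
    · simpa using (tendsto_const_nhds (x := D)).add hεlim
    · simpa using (tendsto_const_nhds (x := D)).add (hεlim.const_mul 2)
  have hSpos : ∀ n, D ≤ S n := fun n => by linarith only [hε, hSlow, hSlow n, hε n]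
  -- constants
  set M := max φ₀ φ₁ with hM
  have hM0 : 0 ≤ M := hφ₀.trans (le_max_left _ _)
  set Cb := √(1 / m) with hCb
  have hCb0 : 0 ≤ Cb := Real.sqrt_nonneg _
  set C := 1 + Cb + M * R + (|φ₁ - φ₀| / D * R + CΓ * Cb * (M * R)) + (|Cξ| + |Cξ'| + 1)
    + (|Cξ| + |Cξ'| + 1) / D with hC
  have t1 : 0 ≤ M * R := by positivity
  have t2 : 0 ≤ |φ₁ - φ₀| / D * R + CΓ * Cb * (M * R) := by positivity
  have t3 : 0 ≤ |Cξ| + |Cξ'| + 1 := by positivity
  have t4 : 0 ≤ (|Cξ| + |Cξ'| + 1) / D := by positivity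
  have hC1 : 1 ≤ C := by linarith only [hCb0, t1, t2, t3, t4]
  obtain ⟨r₀, hr₀, τ, hτ, hpw⟩ := h.pointwise hK hKU (C := C) hC1 (η := 2 * η / D) (by positivity)
  set τ' := min τ (τ * D / 2) with hτ'
  have hτ'0 : 0 < τ' := by positivity
  have hr₀' : ∀ᶠ r in 𝓝[>] (0:ℝ), 0 < r ∧ r ≤ r₀ := by
    have : Ioc 0 r₀ ∈ 𝓝[>] (0:ℝ) := Ioc_mem_nhdsGT hr₀
    filter_upwards [this] with r hr using hr
  filter_upwards [hCξ, hCξ', hξs τ' hτ'0, hξ's τ' hτ'0, hr₀'] with r hr1 hr2 hr3 hr4 hr5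
  obtain ⟨hr, hrr⟩ := hr5
  have hr2' : 0 ≤ r ^ 2 := by positivity
  have hPW : PW G U K C τ (2 * η / D) r := hpw r hr hrr
  have hτ'1 : τ' ≤ τ := min_le_left _ _
  have hτ'2 : τ' ≤ τ * D / 2 := min_le_right _ _
  -- the inequality along the sequence
  have hev : ∀ᶠ n in atTop, φ₁ * ‖Y' - EE (φ n) 1‖ ≤ r := by
    have h1 : Tendsto (fun n => φ₁ * ‖Y' - EE (φ n) 1‖) atTop (𝓝 (φ₁ * ‖Y' - Y'‖)) :=
      ((tendsto_const_nhds.sub hlim).norm).const_mul φ₁
    rw [sub_self, norm_zero, mul_zero] at h1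
    exact h1.eventually (ge_mem_nhds hr)
  have hkey : ∀ᶠ n in atTop, ∑ k : Fin 4, d (x + ((r * φ₀) • (I ^ (k:ℕ) • Y) + ξ r k))
        (x' + ((r * φ₁) • (I ^ (k:ℕ) • Y') + ξ' r k)) ≤
      S (φ n) * (4 + 2 * r ^ 2 * ((φ₁ - φ₀) / S (φ n)) ^ 2 * N + (2 * η / D) * r ^ 2 / 2
          - 2 * r ^ 2 * (min φ₀ φ₁) ^ 2 * κ * N)
          + 4 * ε (φ n) * r ^ 2 * (min φ₀ φ₁) ^ 2 * κ * N := by
    filter_upwards [hev] with n hn
    set i := φ n with hi
    set ξ₁ : Fin 4 → E := fun k => ξ' r k + (r * φ₁) • (I ^ (k:ℕ) • (Y' - EE i 1)) with hξ₁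
    have hξ₀n : ∀ k, ‖ξ r k‖ ≤ |Cξ| * r ^ 2 := fun k =>
      (hr1 k).trans (by gcongr; exact le_abs_self _)
    have hξ₁n : ∀ k, ‖ξ₁ k‖ ≤ (|Cξ'| + 1) * r ^ 2 := by
      intro k
      calc ‖ξ₁ k‖ ≤ ‖ξ' r k‖ + ‖(r * φ₁) • (I ^ (k:ℕ) • (Y' - EE i 1))‖ := norm_add_le _ _
        _ ≤ |Cξ'| * r ^ 2 + r * r := by
          gcongr
          · exact (hr2 k).trans (by gcongr; exact le_abs_self _)
          · rw [norm_smul, norm_I_pow_smul, Real.norm_of_nonneg (by positivity), mul_assoc]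
            gcongr
        _ = _ := by ring
    have hSξ₁ : ∑ k, ξ₁ k = ∑ k, ξ' r k := by
      simp only [hξ₁]
      rw [Finset.sum_add_distrib, ← Finset.smul_sum, sum_I_pow_smul, smul_zero, add_zero]
    have hSi : D ≤ S i := hSpos i
    have hSi0 : 0 < S i := hD.trans_le hSi
    have hinvS : 1 / S i ≤ 1 / D := one_div_le_one_div_of_le hD hSi
    have hinvS0 : 0 < 1 / S i := by positivity
    have hbb : ∀ t ∈ Icc (0:ℝ) 1,
        ‖(√(G (c i t) (c' i t) (c' i t)) + ε i)⁻¹ • c' i t‖ ≤ Cb := by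
      intro t ht
      apply Real.le_sqrt_of_sq_le
      rw [le_div_iff₀ hm, mul_comm]
      set lam := √(G (c i t) (c' i t) (c' i t)) + ε i with hlam
      have hlam0 : 0 < lam := by
        have := Real.sqrt_nonneg (G (c i t) (c' i t) (c' i t))
        have := hε i
        linarith
      refine (hlow _ (hcK i t ht) _).trans ?_
      rw [map_smul, map_smul, smul_apply, smul_eq_mul, smul_eq_mul, ← mul_assoc]
      have hg : G (c i t) (c' i t) (c' i t) ≤ lam ^ 2 := by
        have h1 := Real.sq_sqrt (hGnonneg _ (hKU (hcK i t ht)) (c' i t))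
        have h2 : √(G (c i t) (c' i t) (c' i t)) ≤ lam := by linarith only [hε, hε i]
        calc _ = √(G (c i t) (c' i t) (c' i t)) ^ 2 := h1.symm
          _ ≤ lam ^ 2 := by gcongr
      calc _ ≤ lam⁻¹ * lam⁻¹ * lam ^ 2 := by gcongr
        _ = 1 := by field_simp
    have hfE : ∀ t ∈ Icc (0:ℝ) 1, ∀ f : ℝ, 0 ≤ f → f ≤ max φ₀ φ₁ → ‖f • EE i t‖ ≤ M * R := by
      intro t ht f hf0 hf1
      rw [norm_smul, Real.norm_of_nonneg hf0]
      gcongr
      exact hEbound i t ht
    have hv := h.variation hKU hκ hcurv hd (hc i) (hc' i) (hcK i) (hE i) (N := N) (ε := ε i)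
      (S := S i) (φ₀ := φ₀) (φ₁ := φ₁) (r := r) (η := 2 * η / D) (C := C) (τ := τ)
      (hN i) (hε i) rfl hφ₀ hφ₁ hr hPW
      (fun t ht => (hbb t ht).trans (by linarith only [t1, t2, t3, t4]))
      (fun t ht f hf0 hf1 => (hfE t ht f hf0 hf1).trans (by linarith only [hCb0, t2, t3, t4]))
      (fun t ht f hf0 hf1 => by
        calc _ ≤ ‖((φ₁ - φ₀) / S i) • EE i t‖
              + ‖chris G (c i t) ((√(G (c i t) (c' i t) (c' i t)) + ε i)⁻¹ • c' i t)
                (f • EE i t)‖ := norm_sub_le _ _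
          _ ≤ |φ₁ - φ₀| / D * R + CΓ * Cb * (M * R) := by
            apply add_le_add
            · rw [norm_smul, Real.norm_eq_abs, abs_div, abs_of_pos hSi0]
              gcongr
              exact hEbound i t ht
            · refine (hCΓ _ (hcK i t ht) _ _).trans ?_
              have q1 := hbb t ht
              have q2 := hfE t ht f hf0 hf1
              gcongr
          _ ≤ C := by linarith only [hCb0, t1, t3, t4])
      (ξ₀ := ξ r) (ξ₁ := ξ₁)
      (fun k => (hξ₀n k).trans (by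
        gcongr
        have := abs_nonneg Cξ'
        linarith only [hCb0, t1, t2, t4, this]))
      (fun k => (hξ₁n k).trans (by
        gcongr
        have := abs_nonneg Cξ
        linarith only [hCb0, t1, t2, t4, this]))
      (fun k => by
        rw [norm_smul, Real.norm_of_nonneg hinvS0.le]
        calc _ ≤ 1 / D * ((|Cξ'| + 1) * r ^ 2 + |Cξ| * r ^ 2) := by
              gcongr
              exact (norm_sub_le _ _).trans (add_le_add (hξ₁n k) (hξ₀n k))
          _ = (|Cξ| + |Cξ'| + 1) / D * r ^ 2 := by ring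
          _ ≤ C * r ^ 2 := by
            gcongr
            linarith only [hCb0, t1, t2, t3])
      (hr3.trans (by gcongr))
      (by rw [hSξ₁]; exact hr4.trans (by gcongr))
      (by
        rw [← Finset.smul_sum, Finset.sum_sub_distrib, hSξ₁, norm_smul,
          Real.norm_of_nonneg hinvS0.le]
        calc _ ≤ 1 / D * (τ' * r ^ 2 + τ' * r ^ 2) := by
              gcongr
              exact (norm_sub_le _ _).trans (add_le_add hr4 hr3)
          _ ≤ 1 / D * (τ * D / 2 * r ^ 2 + τ * D / 2 * r ^ 2) := by gcongr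
          _ = τ * r ^ 2 := by field_simp; ring)
    rw [hc0, hc1, hE0] at hv
    refine le_trans (le_of_eq ?_) hv
    apply Finset.sum_congr rfl
    intro k _
    congr 2
    simp only [hξ₁, smul_sub]
    abel
  have hlimit : Tendsto (fun n => S (φ n) * (4 + 2 * r ^ 2 * ((φ₁ - φ₀) / S (φ n)) ^ 2 * N
        + (2 * η / D) * r ^ 2 / 2 - 2 * r ^ 2 * (min φ₀ φ₁) ^ 2 * κ * N)
          + 4 * ε (φ n) * r ^ 2 * (min φ₀ φ₁) ^ 2 * κ * N) atTop
      (𝓝 (D * (4 + 2 * r ^ 2 * ((φ₁ - φ₀) / D) ^ 2 * N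
        + (2 * η / D) * r ^ 2 / 2 - 2 * r ^ 2 * (min φ₀ φ₁) ^ 2 * κ * N)
          + 4 * 0 * r ^ 2 * (min φ₀ φ₁) ^ 2 * κ * N)) := by
    have hS1 : Tendsto (fun n => S (φ n)) atTop (𝓝 D) := hSlim.comp hφ.tendsto_atTop
    have he1 : Tendsto (fun n => ε (φ n)) atTop (𝓝 0) := hεlim.comp hφ.tendsto_atTop
    have hq : Tendsto (fun n => (φ₁ - φ₀) / S (φ n)) atTop (𝓝 ((φ₁ - φ₀) / D)) :=
      tendsto_const_nhds.div hS1 hD.ne'
    exact (hS1.mul (((((hq.pow 2).const_mul (2 * r ^ 2)).mul_const N).const_add 4).add_const _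
      |>.sub_const _)).add ((((he1.const_mul 4).mul_const (r ^ 2)).mul_const _ |>.mul_const κ
        |>.mul_const N))
  have hfinal := ge_of_tendsto hlimit hkey
  refine hfinal.trans (le_of_eq ?_)
  field_simp
  ring

end LocalKahler

end Vale.Agent.P253.Mfd
end
end
end

section

section

open scoped ContDiff Topology Real
open Set Metric

namespace Vale.Agent.P253.Mfd

variable {E F : Type*} [NormedAddCommGroup E] [NormedSpace ℂ E]
    [NormedAddCommGroup F] [NormedSpace ℂ F]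

lemma line_diffOn {U : Set E} {f : E → F} (hf : DifferentiableOn ℂ f U) (z h : E) :
    DifferentiableOn ℂ (fun w : ℂ => f (z + w • h)) {w | z + w • h ∈ U} := by
  intro w hw
  have h1 : DifferentiableAt ℂ (fun w : ℂ => z + w • h) w := by fun_prop
  exact (hf _ hw).comp w h1.differentiableWithinAt (fun w' hw' => hw')

lemma line_isOpen {U : Set E} (hU : IsOpen U) (z h : E) : IsOpen {w : ℂ | z + w • h ∈ U} :=
  hU.preimage (by fun_prop : Continuous fun w : ℂ => z + w • h)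

lemma line_hasDeriv {U : Set E} (hU : IsOpen U) {f : E → F} (hf : DifferentiableOn ℂ f U)
    {z : E} (hz : z ∈ U) (h : E) :
    HasDerivAt (fun w : ℂ => f (z + w • h)) (fderiv ℂ f z h) 0 := by
  have h1 : HasDerivAt (fun w : ℂ => z + w • h) h 0 := by
    have := ((hasDerivAt_id (0:ℂ)).smul_const h).const_add z
    simpa using this
  have h2 : HasFDerivAt f (fderiv ℂ f z) (z + (0:ℂ) • h) := by
    simpa using (hf.differentiableAt (hU.mem_nhds hz)).hasFDerivAt
  exact h2.comp_hasDerivAt (0:ℂ) h1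

lemma fderiv_continuousOn [FiniteDimensional ℂ E] {U : Set E} (hU : IsOpen U) {f : E → F}
    (hf : DifferentiableOn ℂ f U) : ContinuousOn (fderiv ℂ f) U := by
  have : ProperSpace E := FiniteDimensional.proper ℂ E
  intro z₀ hz₀
  refine ContinuousAt.continuousWithinAt ?_
  obtain ⟨R, hR, hRU⟩ := nhds_basis_closedBall.mem_iff.1 (hU.mem_nhds hz₀)
  have hcomp : IsCompact (closedBall z₀ R) := isCompact_closedBall _ _
  have huc : UniformContinuousOn f (closedBall z₀ R) :=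
    hcomp.uniformContinuousOn_of_continuous (hf.continuousOn.mono hRU)
  rw [Metric.continuousAt_iff]
  intro ε hε
  obtain ⟨δ, hδ, hδ'⟩ := Metric.uniformContinuousOn_iff_le.1 huc (ε / 2 * (R / 2)) (by positivity)
  refine ⟨min δ (R / 2), by positivity, fun z hz => ?_⟩
  have hz1 : dist z z₀ ≤ R / 2 := (hz.trans_le (min_le_right _ _)).le
  have hz2 : dist z z₀ ≤ δ := (hz.trans_le (min_le_left _ _)).le
  rw [dist_eq_norm]
  refine lt_of_le_of_lt (ContinuousLinearMap.opNorm_le_bound _ (M := ε / 2) (by positivity)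
    (fun h => ?_)) (half_lt_self hε)
  by_cases hh : h = 0
  · simp [hh]
  have hhn : 0 < ‖h‖ := norm_pos_iff.2 hh
  set r : ℝ := R / 2 / ‖h‖ with hr
  have hrpos : 0 < r := by positivity
  have hrh : r * ‖h‖ = R / 2 := by rw [hr]; field_simp
  have hin : ∀ y ∈ closedBall z₀ (R/2), ∀ w ∈ closedBall (0:ℂ) r, y + w • h ∈ closedBall z₀ R := by
    intro y hy w hw
    rw [mem_closedBall, dist_eq_norm] at *
    have : y + w • h - z₀ = (y - z₀) + w • h := by abel
    rw [this]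
    have hw' : ‖w‖ ≤ r := by simpa using hw
    calc ‖(y - z₀) + w • h‖ ≤ ‖y - z₀‖ + ‖w • h‖ := norm_add_le _ _
      _ ≤ R / 2 + r * ‖h‖ := by rw [norm_smul]; gcongr
      _ = R := by rw [hrh]; ring
  have hz₀' : z₀ ∈ closedBall z₀ (R/2) := mem_closedBall_self (by positivity)
  have hz' : z ∈ closedBall z₀ (R/2) := hz1
  have hzU : z ∈ U := hRU (closedBall_subset_closedBall (by linarith only [hR]) hz')
  -- the difference function
  have hd1 := line_hasDeriv hU hf hzU h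
  have hd2 := line_hasDeriv hU hf hz₀ h
  have hd := (hd1.sub hd2).deriv
  have hdc : ∀ y ∈ closedBall z₀ (R/2), DiffContOnCl ℂ (fun w : ℂ => f (y + w • h)) (ball 0 r) :=
    fun y hy => (line_diffOn hf y h).diffContOnCl_ball (fun w hw => hRU (hin y hy w hw))
  have hbound := Complex.norm_deriv_le_of_forall_mem_sphere_norm_le (c := (0:ℂ)) (R := r)
    (C := ε / 2 * (R / 2)) (f := (fun w : ℂ => f (z + w • h)) - (fun w : ℂ => f (z₀ + w • h)))
    hrpos ((hdc z hz').sub (hdc z₀ hz₀')) (by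
      intro w hw
      have hw' := sphere_subset_closedBall hw
      have := hδ' _ (hin z hz' w hw') _ (hin z₀ hz₀' w hw') (by
        rw [dist_eq_norm]
        have : z + w • h - (z₀ + w • h) = z - z₀ := by abel
        rw [this, ← dist_eq_norm]
        exact hz2)
      rw [dist_eq_norm] at this
      simpa using this)
  rw [hd] at hbound
  rw [_root_.sub_apply]
  calc ‖fderiv ℂ f z h - fderiv ℂ f z₀ h‖ ≤ ε / 2 * (R / 2) / r := hbound
    _ = ε / 2 * ‖h‖ := by rw [hr]; field_simp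

lemma fderiv_apply_diffOn [FiniteDimensional ℂ E] [CompleteSpace F] {U : Set E} (hU : IsOpen U)
    {f : E → F} (hf : DifferentiableOn ℂ f U) (h : E) :
    DifferentiableOn ℂ (fun z => fderiv ℂ f z h) U := by
  have : ProperSpace E := FiniteDimensional.proper ℂ E
  intro z₀ hz₀
  refine DifferentiableAt.differentiableWithinAt ?_
  obtain ⟨R, hR, hRU⟩ := nhds_basis_closedBall.mem_iff.1 (hU.mem_nhds hz₀)
  set r : ℝ := R / 2 / (‖h‖ + 1) with hr
  have hrpos : 0 < r := by positivity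
  have hrh : r * ‖h‖ ≤ R / 2 := by
    rw [hr, div_mul_eq_mul_div]
    rw [div_le_iff₀ (by positivity)]
    linarith only [hR]
  have hin : ∀ y ∈ ball z₀ (R/2), ∀ w ∈ closedBall (0:ℂ) r, y + w • h ∈ closedBall z₀ R := by
    intro y hy w hw
    rw [mem_closedBall, dist_eq_norm]
    rw [mem_ball, dist_eq_norm] at hy
    have : y + w • h - z₀ = (y - z₀) + w • h := by abel
    rw [this]
    have hw' : ‖w‖ ≤ r := by simpa using hw
    calc ‖(y - z₀) + w • h‖ ≤ ‖y - z₀‖ + ‖w • h‖ := norm_add_le _ _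
      _ ≤ R / 2 + r * ‖h‖ := by rw [norm_smul]; gcongr
      _ ≤ R := by linarith only [hrh]
  have hcirc : ∀ θ : ℝ, circleMap (0:ℂ) r θ ∈ closedBall (0:ℂ) r := fun θ =>
    circleMap_mem_closedBall _ hrpos.le _
  -- the Cauchy formula
  have hform : ∀ y ∈ ball z₀ (R/2), fderiv ℂ f y h = (2 * π * Complex.I : ℂ)⁻¹ •
      ∫ θ in (0:ℝ)..(2 * π), deriv (circleMap 0 r) θ •
        (((circleMap 0 r θ - 0) ^ 2)⁻¹ • f (y + (circleMap 0 r θ) • h)) := by
    intro y hy
    have hyU : y ∈ U := hRU (ball_subset_closedBall (ball_subset_ball (by linarith only [hR]) hy))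
    rw [← (line_hasDeriv hU hf hyU h).deriv]
    have := Complex.two_pi_I_inv_smul_circleIntegral_sub_sq_inv_smul_of_differentiable
      (line_isOpen hU y h) (c := 0) (w₀ := 0) (R := r) (f := fun w : ℂ => f (y + w • h))
      (fun w hw => hRU (hin y hy w hw)) (line_diffOn hf y h) (mem_ball_self hrpos)
    rw [← this, circleIntegral]
  obtain ⟨C, hC⟩ : ∃ C, ∀ y ∈ closedBall z₀ R, ‖fderiv ℂ f y‖ ≤ C :=
    (isCompact_closedBall z₀ R).exists_bound_of_continuousOn ((fderiv_continuousOn hU hf).mono hRU)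
  have hcm : Continuous (circleMap (0:ℂ) r) := continuous_circleMap _ _
  have hne : ∀ θ : ℝ, (circleMap (0:ℂ) r θ - 0) ^ 2 ≠ 0 := by
    intro θ
    have := circleMap_ne_center (c := (0:ℂ)) (θ := θ) hrpos.ne'
    exact pow_ne_zero _ (sub_ne_zero.2 this)
  have hcoef : Continuous fun θ : ℝ => deriv (circleMap (0:ℂ) r) θ *
      ((circleMap (0:ℂ) r θ - 0) ^ 2)⁻¹ := by
    simp only [deriv_circleMap]
    exact (hcm.mul continuous_const).mul
      (((hcm.sub continuous_const).pow 2).inv₀ hne)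
  have key : HasFDerivAt (fun y => ∫ θ in (0:ℝ)..(2 * π), (deriv (circleMap (0:ℂ) r) θ *
        ((circleMap (0:ℂ) r θ - 0) ^ 2)⁻¹) • f (y + (circleMap 0 r θ) • h))
      (∫ θ in (0:ℝ)..(2 * π), (deriv (circleMap (0:ℂ) r) θ *
        ((circleMap (0:ℂ) r θ - 0) ^ 2)⁻¹) • fderiv ℂ f (z₀ + (circleMap 0 r θ) • h)) z₀ := by
    have hcontf : ∀ y ∈ ball z₀ (R/2), Continuous fun θ : ℝ => f (y + (circleMap 0 r θ) • h) := by
      intro y hy
      have h1 : Continuous fun θ : ℝ => y + (circleMap 0 r θ) • h := by fun_prop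
      exact hf.continuousOn.comp_continuous h1 fun θ => hRU (hin y hy _ (hcirc θ))
    have hcontf' : Continuous fun θ : ℝ => fderiv ℂ f (z₀ + (circleMap 0 r θ) • h) := by
      have h1 : Continuous fun θ : ℝ => z₀ + (circleMap 0 r θ) • h := by fun_prop
      exact (fderiv_continuousOn hU hf).comp_continuous h1 fun θ =>
        hRU (hin z₀ (mem_ball_self (by positivity)) _ (hcirc θ))
    refine intervalIntegral.hasFDerivAt_integral_of_dominated_of_fderiv_le
      (F' := fun y θ => (deriv (circleMap (0:ℂ) r) θ *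
        ((circleMap (0:ℂ) r θ - 0) ^ 2)⁻¹) • fderiv ℂ f (y + (circleMap 0 r θ) • h))
      (bound := fun θ => ‖deriv (circleMap (0:ℂ) r) θ *
        ((circleMap (0:ℂ) r θ - 0) ^ 2)⁻¹‖ * C)
      (ball_mem_nhds z₀ (by positivity : 0 < R/2)) ?_ ?_ ?_ ?_ ?_ ?_
    · filter_upwards [ball_mem_nhds z₀ (by positivity : 0 < R/2)] with y hy
      exact (hcoef.smul (hcontf y hy)).aestronglyMeasurable
    · exact (hcoef.smul (hcontf z₀ (mem_ball_self (by positivity)))).intervalIntegrable _ _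
    · exact (hcoef.smul hcontf').aestronglyMeasurable
    · refine Filter.Eventually.of_forall fun θ _ y hy => ?_
      rw [norm_smul]
      gcongr
      exact hC _ (hin y hy _ (hcirc θ))
    · exact (hcoef.norm.mul continuous_const).intervalIntegrable _ _
    · refine Filter.Eventually.of_forall fun θ _ y hy => ?_
      have h1 : HasFDerivAt (fun y : E => y + (circleMap 0 r θ) • h)
        (ContinuousLinearMap.id ℂ E) y := (hasFDerivAt_id y).add_const _
      have h2 : HasFDerivAt f (fderiv ℂ f (y + (circleMap 0 r θ) • h))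
          (y + (circleMap 0 r θ) • h) :=
        (hf.differentiableAt (hU.mem_nhds (hRU (hin y hy _ (hcirc θ))))).hasFDerivAt
      have h3 := h2.comp y h1
      rw [ContinuousLinearMap.comp_id] at h3
      exact h3.const_smul _
  have key2 := key.const_smul ((2 * π * Complex.I : ℂ)⁻¹)
  refine (key2.differentiableAt).congr_of_eventuallyEq ?_
  filter_upwards [ball_mem_nhds z₀ (by positivity : 0 < R/2)] with y hy
  rw [hform y hy]
  simp only [Pi.smul_apply, smul_smul]

/-- In finite dimension a complex differentiable function on an open set is smooth over `ℂ`. -/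
theorem contDiffOn_of_differentiableOn_complex
    {E F : Type*} [NormedAddCommGroup E] [NormedSpace ℂ E] [FiniteDimensional ℂ E]
    [NormedAddCommGroup F] [NormedSpace ℂ F] [CompleteSpace F]
    {U : Set E} (hU : IsOpen U) {f : E → F} (hf : DifferentiableOn ℂ f U) :
    ContDiffOn ℂ ∞ f U := by
  rw [contDiffOn_infty]
  intro n
  induction n generalizing f with
  | zero =>
    simpa [contDiffOn_zero] using hf.continuousOn
  | succ n ih =>
    have h1 : ((n + 1 : ℕ) : ℕ∞ω) = (n : ℕ∞ω) + 1 := by push_cast; rfl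
    rw [h1, contDiffOn_succ_iff_fderiv_of_isOpen hU]
    refine ⟨hf, by simp, ?_⟩
    rw [contDiffOn_clm_apply]
    intro h
    exact ih (fderiv_apply_diffOn hU hf h)

end Vale.Agent.P253.Mfd
end
end

section

section

open scoped ContDiff Topology
open Set Metric Complex Filter

set_option maxSynthPendingDepth 3
set_option linter.unusedSectionVars false

noncomputable section

namespace Vale.Agent.P253.Mfd

variable {E : Type*} [NormedAddCommGroup E] [NormedSpace ℂ E] [FiniteDimensional ℂ E]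
  {G : E → E →L[ℝ] E →L[ℝ] ℝ} {U : Set E} {z : E} {v : E → E}

/-- half the Lie derivative of `G` along `v`, as a quadratic form -/
def Sfun (G : E → E →L[ℝ] E →L[ℝ] ℝ) (v : E → E) (z a : E) : ℝ :=
  (fderiv ℝ G z (v z) a a + 2 * G z (fderiv ℝ v z a) a) / 2

/-- covariant derivative of `v` -/
def Nop (G : E → E →L[ℝ] E →L[ℝ] ℝ) (v : E → E) (z a : E) : E :=
  fderiv ℝ v z a + chris G z (v z) a

/-- `I • v` is an infinitesimal isometry. -/
def Killing (G : E → E →L[ℝ] E →L[ℝ] ℝ) (v : E → E) (U : Set E) : Prop :=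
  ∀ z ∈ U, ∀ a, fderiv ℝ G z (I • v z) a a + 2 * G z (I • fderiv ℝ v z a) a = 0

theorem fderiv_real_smul_I {F F' : Type*} [NormedAddCommGroup F] [NormedSpace ℂ F]
    [NormedAddCommGroup F'] [NormedSpace ℂ F'] {U : Set F} {v : F → F'} {z : F}
    (hU : IsOpen U) (hv : DifferentiableOn ℂ v U) (hz : z ∈ U) (a : F) :
    fderiv ℝ v z (I • a) = I • fderiv ℝ v z a := by
  have h1 : HasFDerivAt v (fderiv ℂ v z) z :=
    ((hv z hz).differentiableAt (hU.mem_nhds hz)).hasFDerivAt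
  have h2 := h1.restrictScalars ℝ
  rw [h2.fderiv]
  simp

theorem Nop_symm (h : LocalKahler G U) (hv : DifferentiableOn ℂ v U) (hk : Killing G v U)
    (hz : z ∈ U) (a b : E) : G z (Nop G v z a) b = G z (Nop G v z b) a := by
  -- polarised Killing identity
  have key : ∀ a, G z (I • Nop G v z a) a = 0 := by
    intro a
    have := hk z hz a
    rw [h.fderiv_eq hz, h.symm z hz a, h.par_left hz] at this
    rw [Nop, smul_add, map_add, add_apply]
    linarith only [this]
  have hN : ∀ a b, Nop G v z (a + b) = Nop G v z a + Nop G v z b := by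
    intro a b; simp [Nop]; abel
  have hNI : ∀ a, Nop G v z (I • a) = I • Nop G v z a := by
    intro a
    rw [Nop, Nop, fderiv_real_smul_I h.isOpen hv hz, h.par z hz, smul_add]
  have key2 : ∀ a b, G z (I • Nop G v z a) b + G z (I • Nop G v z b) a = 0 := by
    intro a b
    have h1 := key (a + b)
    have h2 := key a
    have h3 := key b
    rw [hN, smul_add] at h1
    simp only [map_add, add_apply] at h1
    linarith only [h2, h3, h1]
  have h1 := key2 a (I • b)
  rw [h.herm z hz, hNI, smul_smul, I_mul_I, neg_one_smul, map_neg, neg_apply] at h1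
  linarith only [h1]

theorem fderiv2_real_smul_I {F F' : Type*} [NormedAddCommGroup F] [NormedSpace ℂ F]
    [NormedAddCommGroup F'] [NormedSpace ℂ F'] {U : Set F} {v : F → F'} {z : F}
    (hU : IsOpen U) (hv : ContDiffOn ℂ ∞ v U) (hz : z ∈ U) (u a : F) :
    fderiv ℝ (fderiv ℝ v) z (I • u) a = I • fderiv ℝ (fderiv ℝ v) z u a := by
  have hvr : ContDiffOn ℝ ∞ v U := hv.restrict_scalars ℝ
  have hvd : DifferentiableOn ℂ v U := hv.differentiableOn (by simp)
  have hs : IsSymmSndFDerivAt ℝ v z :=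
    (hvr.contDiffAt (hU.mem_nhds hz)).isSymmSndFDerivAt
      (by simpa using! (WithTop.coe_le_coe.2 le_top : ((2 : ℕ∞) : WithTop ℕ∞) ≤ ((⊤ : ℕ∞) : WithTop ℕ∞)))
  have hd : HasFDerivAt (fderiv ℝ v) (fderiv ℝ (fderiv ℝ v) z) z :=
    (((hvr.fderiv_of_isOpen hU (m := ∞) (by simp)).contDiffAt
      (hU.mem_nhds hz)).differentiableAt (by simp)).hasFDerivAt
  have h3 : (fun y => fderiv ℝ v y (I • u)) =ᶠ[𝓝 z] (fun y => I • fderiv ℝ v y u) := by
    filter_upwards [hU.mem_nhds hz] with y hy using fderiv_real_smul_I hU hvd hy u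
  have h1 := hd.clm_apply (hasFDerivAt_const (I • u) z)
  have h2 := (hd.clm_apply (hasFDerivAt_const u z)).const_smul I
  have h4 := (h1.congr_of_eventuallyEq h3.symm).unique h2
  have := congrArg (fun T => T a) h4
  rw [hs.eq, hs.eq u a]
  simpa using this

theorem hasDerivAt_general (h : LocalKahler G U) (hv : ContDiffOn ℂ ∞ v U) (hz : z ∈ U) (c : ℂ)
    {a y' a' : E} {y α : ℝ → E} {s₀ : ℝ} (hy : HasDerivAt y y' s₀) (hy0 : y s₀ = z)
    (hα : HasDerivAt α a' s₀) (hα0 : α s₀ = a) :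
    HasDerivAt (fun s => fderiv ℝ G (y s) (c • v (y s)) (α s) (α s)
        + 2 * G (y s) (c • fderiv ℝ v (y s) (α s)) (α s))
      (fderiv ℝ (fderiv ℝ G) z y' (c • v z) a a + fderiv ℝ G z (c • fderiv ℝ v z y') a a
        + 2 * fderiv ℝ G z (c • v z) a' a
        + 2 * (fderiv ℝ G z y' (c • fderiv ℝ v z a) a
          + G z (c • (fderiv ℝ (fderiv ℝ v) z y' a + fderiv ℝ v z a')) a
          + G z (c • fderiv ℝ v z a) a')) s₀ := by
  have hvr : ContDiffOn ℝ ∞ v U := hv.restrict_scalars ℝ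
  have hd : HasFDerivAt (fderiv ℝ v) (fderiv ℝ (fderiv ℝ v) z) z :=
    (((hvr.fderiv_of_isOpen h.isOpen (m := ∞) (by simp)).contDiffAt
      (h.isOpen.mem_nhds hz)).differentiableAt (by simp)).hasFDerivAt
  have hvd : HasFDerivAt v (fderiv ℝ v z) z :=
    ((hvr.contDiffAt (h.isOpen.mem_nhds hz)).differentiableAt (by simp)).hasFDerivAt
  have hG1 := (h.differentiableAt hz).hasFDerivAt
  have hG2 := (h.differentiableAt_fderiv hz).hasFDerivAt
  subst hy0 hα0
  have e1 := hG1.comp_hasDerivAt s₀ hy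
  have e2 := hG2.comp_hasDerivAt s₀ hy
  have e3 := (hvd.comp_hasDerivAt s₀ hy).const_smul c
  have e4 := (hd.comp_hasDerivAt s₀ hy)
  have f1 := ((e2.clm_apply e3).clm_apply hα).clm_apply hα
  have f2 := ((e1.clm_apply ((e4.clm_apply hα).const_smul c)).clm_apply hα).const_mul 2
  convert! f1.add f2 using 1
  simp only [Function.comp_apply, Pi.smul_apply, add_apply, smul_add, map_add]
  rw [h.fderiv_symm hz (c • v (y s₀)) (α s₀) a']
  ring

/-- Derivative of `Sfun` along the flow of `v` (lifted to the tangent bundle). -/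
theorem hasDerivAt_Sfun (h : LocalKahler G U) (hv : ContDiffOn ℂ ∞ v U) (hk : Killing G v U)
    (hz : z ∈ U) {a : E} {y α : ℝ → E} {s₀ : ℝ} (hy : HasDerivAt y (v z) s₀) (hy0 : y s₀ = z)
    (hα : HasDerivAt α (fderiv ℝ v z a) s₀) (hα0 : α s₀ = a) :
    HasDerivAt (fun s => Sfun G v (y s) (α s))
      (2 * G z (Nop G v z a) (Nop G v z a) - 2 * Rc G z (v z) a) s₀ := by
  have hvd : DifferentiableOn ℂ v U := hv.differentiableOn (by simp)
  have h1 := (hasDerivAt_general h hv hz 1 hy hy0 hα hα0).div_const 2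
  -- Killing identity differentiated in the imaginary direction
  have hy1 : HasDerivAt (fun s : ℝ => z + s • (I • v z)) (I • v z) 0 := by
    simpa using ((hasDerivAt_id (0 : ℝ)).smul_const (I • v z)).const_add z
  have hα1 : HasDerivAt (fun s : ℝ => a + s • (I • fderiv ℝ v z a)) (I • fderiv ℝ v z a) 0 := by
    simpa using ((hasDerivAt_id (0 : ℝ)).smul_const (I • fderiv ℝ v z a)).const_add a
  have h2 := hasDerivAt_general (a := a) h hv hz I hy1 (by simp) hα1 (by simp)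
  have h3 : (fun s : ℝ => fderiv ℝ G (z + s • (I • v z)) (I • v (z + s • (I • v z)))
        (a + s • (I • fderiv ℝ v z a)) (a + s • (I • fderiv ℝ v z a))
        + 2 * G (z + s • (I • v z)) (I • fderiv ℝ v (z + s • (I • v z))
          (a + s • (I • fderiv ℝ v z a))) (a + s • (I • fderiv ℝ v z a))) =ᶠ[𝓝 0]
        fun _ => (0 : ℝ) := by
    have : ∀ᶠ s : ℝ in 𝓝 0, z + s • (I • v z) ∈ U := by
      apply hy1.continuousAt
      simpa using h.isOpen.mem_nhds hz
    filter_upwards [this] with s hs using hk _ hs _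
  have h4 := (h2.congr_of_eventuallyEq h3.symm).unique (hasDerivAt_const (0 : ℝ) (0 : ℝ))
  have h5 := h.star hz (v z) a (fderiv ℝ v z a)
  have e1 : fderiv ℝ v z (I • v z) = I • fderiv ℝ v z (v z) :=
    fderiv_real_smul_I h.isOpen hvd hz _
  have e2 : fderiv ℝ v z (I • fderiv ℝ v z a) = I • fderiv ℝ v z (fderiv ℝ v z a) :=
    fderiv_real_smul_I h.isOpen hvd hz _
  have e3 : fderiv ℝ (fderiv ℝ v) z (I • v z) a = I • fderiv ℝ (fderiv ℝ v) z (v z) a :=
    fderiv2_real_smul_I h.isOpen hv hz _ _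
  rw [e1, e2, e3, ← smul_add, h.herm z hz] at h4
  simp only [smul_smul, I_mul_I, neg_one_smul, map_neg, neg_apply] at h4
  simp only [one_smul] at h1
  refine h1.congr_deriv ?_
  have e4 : fderiv ℝ v z a + chris G z (v z) a = Nop G v z a := rfl
  rw [e4] at h5
  simp only [map_add, add_apply] at h4 ⊢
  linarith only [h5, h4]

/-- Derivative of `Sfun` along an integral curve of `v`, for a parallel vector. -/
theorem hasDerivAt_Sfun_par (h : LocalKahler G U) (hv : ContDiffOn ℂ ∞ v U) (hk : Killing G v U)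
    (hz : z ∈ U) {a : E} {y α : ℝ → E} {s₀ : ℝ} (hy : HasDerivAt y (v z) s₀) (hy0 : y s₀ = z)
    (hα : HasDerivAt α (-chris G z (v z) a) s₀) (hα0 : α s₀ = a) :
    HasDerivAt (fun s => Sfun G v (y s) (α s)) (-(2 * Rc G z (v z) a)) s₀ := by
  have hvd : DifferentiableOn ℂ v U := hv.differentiableOn (by simp)
  have h1 := (hasDerivAt_general h hv hz 1 hy hy0 hα hα0).div_const 2
  -- the flow version
  have hy1 : HasDerivAt (fun s : ℝ => z + s • v z) (v z) 0 := by
    simpa using ((hasDerivAt_id (0 : ℝ)).smul_const (v z)).const_add z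
  have hα1 : HasDerivAt (fun s : ℝ => a + s • fderiv ℝ v z a) (fderiv ℝ v z a) 0 := by
    simpa using ((hasDerivAt_id (0 : ℝ)).smul_const (fderiv ℝ v z a)).const_add a
  have h2 := (hasDerivAt_general (a := a) h hv hz 1 hy1 (by simp) hα1 (by simp)).div_const 2
  have h3 := hasDerivAt_Sfun (a := a) h hv hk hz hy1 (by simp) hα1 (by simp)
  simp only [one_smul] at h1 h2
  have h4 := h3.unique h2
  refine h1.congr_deriv ?_
  have e1 : -chris G z (v z) a = fderiv ℝ v z a - Nop G v z a := by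
    simp only [Nop]; abel
  have e2 : fderiv ℝ G z (v z) (Nop G v z a) a + G z (fderiv ℝ v z (Nop G v z a)) a
      + G z (fderiv ℝ v z a) (Nop G v z a) = 2 * G z (Nop G v z a) (Nop G v z a) := by
    have e3 := Nop_symm h hvd hk hz (Nop G v z a) a
    have e4 : G z (Nop G v z (Nop G v z a)) a = G z (fderiv ℝ v z (Nop G v z a)) a
        + G z (chris G z (v z) (Nop G v z a)) a := by
      conv_lhs => rw [Nop]
      rw [map_add, add_apply]
    have e5 : G z (Nop G v z a) (Nop G v z a) = G z (fderiv ℝ v z a) (Nop G v z a)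
        + G z (chris G z (v z) a) (Nop G v z a) := by
      conv_lhs => enter [1]; rw [Nop]
      rw [map_add, add_apply]
    rw [h.fderiv_eq hz, h.symm z hz (Nop G v z a) (chris G z (v z) a)]
    linarith only [e3, e4, e5]
  rw [e1]
  simp only [map_sub, map_add, add_apply, sub_apply] at h4 ⊢
  linarith only [e2, h4]

end Vale.Agent.P253.Mfd
end
end
end

section

section

open scoped ContDiff Topology
open Set Metric Complex Filter

set_option maxSynthPendingDepth 3
set_option linter.unusedSectionVars false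

noncomputable section

namespace Vale.Agent.P253.Mfd

/-- a local monotonicity property on a compact interval is global -/
theorem interval_propagate {P : ℝ → Prop} {a b : ℝ} (hab : a ≤ b)
    (h : ∀ t ∈ Icc a b, ∃ ε > 0, ∀ s ∈ Icc a b, ∀ s' ∈ Icc a b, |s - t| < ε → |s' - t| < ε →
      s ≤ s' → P s → P s') (ha : P a) : P b := by
  choose! ε hε hP using h
  obtain ⟨δ, hδ, hleb⟩ := lebesgue_number_lemma_of_metric (s := Icc a b)
    (c := fun t : Icc a b => ball (t : ℝ) (ε t)) isCompact_Icc (fun t => isOpen_ball)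
    (fun t ht => mem_iUnion.2 ⟨⟨t, ht⟩, mem_ball_self (hε t ht)⟩)
  obtain ⟨N, hN⟩ := exists_nat_gt ((b - a) / δ)
  have hN0 : (0:ℝ) < N := by
    have : 0 ≤ (b - a) / δ := div_nonneg (by linarith only [hab]) hδ.le
    linarith only [hN, this]
  have hstep : (b - a) / N < δ := by
    rw [div_lt_iff₀ hδ] at hN
    rw [div_lt_iff₀ hN0]
    linarith only [hN]
  have hstep0 : 0 ≤ (b - a) / N := div_nonneg (by linarith only [hab]) hN0.le
  have hmem : ∀ k : ℕ, k ≤ N → a + k * ((b - a) / N) ∈ Icc a b := by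
    intro k hk
    have hk' : (k:ℝ) ≤ N := by exact_mod_cast hk
    constructor
    · have : 0 ≤ (k:ℝ) * ((b - a) / N) := by positivity
      linarith only [this]
    · have : (k:ℝ) * ((b - a) / N) ≤ N * ((b - a) / N) := by gcongr
      have h2 : (N:ℝ) * ((b - a) / N) = b - a := by field_simp
      linarith only [this, h2]
  have key : ∀ k : ℕ, k ≤ N → P (a + k * ((b - a) / N)) := by
    intro k
    induction k with
    | zero => intro _; simpa using ha
    | succ k ih =>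
      intro hk
      have h1 := ih (Nat.le_of_succ_le hk)
      have m1 := hmem k (Nat.le_of_succ_le hk)
      have m2 := hmem (k+1) hk
      obtain ⟨t, ht⟩ := hleb _ m1
      have b1 : a + k * ((b - a) / N) ∈ ball (t:ℝ) (ε t) := ht (mem_ball_self hδ)
      have b2 : a + (k + 1 : ℕ) * ((b - a) / N) ∈ ball (t:ℝ) (ε t) := by
        apply ht
        rw [mem_ball, Real.dist_eq]
        have : a + ((k + 1 : ℕ) : ℝ) * ((b - a) / N) - (a + k * ((b - a) / N)) = (b - a) / N := by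
          push_cast; ring
        rw [this, abs_of_nonneg hstep0]
        exact hstep
      rw [mem_ball, Real.dist_eq] at b1 b2
      refine hP t t.2 _ m1 _ m2 b1 b2 ?_ h1
      push_cast
      nlinarith only [hstep0]
  have := key N le_rfl
  have h2 : (N:ℝ) * ((b - a) / N) = b - a := by field_simp
  rw [h2] at this
  simpa using this

variable {E : Type*} [NormedAddCommGroup E] [NormedSpace ℂ E] [FiniteDimensional ℂ E]
  {G : E → E →L[ℝ] E →L[ℝ] ℝ} {U : Set E} {z : E} {v : E → E}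

/-- `Sfun` as a derivative -/
theorem hasDerivAt_energy (hG : DifferentiableAt ℝ G z)
    (hsymm : ∀ v w, G z v w = G z w v) {a : E} {y α : ℝ → E} {s₀ : ℝ}
    (hy : HasDerivAt y (v z) s₀) (hy0 : y s₀ = z)
    (hα : HasDerivAt α (fderiv ℝ v z a) s₀) (hα0 : α s₀ = a) :
    HasDerivAt (fun s => G (y s) (α s) (α s)) (2 * Sfun G v z a) s₀ := by
  subst hy0 hα0
  have e1 := hG.hasFDerivAt.comp_hasDerivAt s₀ hy
  have f1 := (e1.clm_apply hα).clm_apply hα
  convert! f1 using 1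
  simp only [Sfun, Function.comp_apply, add_apply]
  rw [hsymm (α s₀)]
  ring

/-- naturality of `Sfun` -/
theorem Sfun_natural {G' : E → E →L[ℝ] E →L[ℝ] ℝ} {v' : E → E} {τ : E → E} (hU : IsOpen U)
    (hz : z ∈ U) (hτ : ContDiffOn ℝ ∞ τ U) (hG : DifferentiableAt ℝ G z)
    (hG' : DifferentiableAt ℝ G' (τ z)) (hv : DifferentiableAt ℝ v z)
    (hv' : DifferentiableAt ℝ v' (τ z)) (hsymm : ∀ v w, G z v w = G z w v)
    (hsymm' : ∀ v w, G' (τ z) v w = G' (τ z) w v)
    (hGG : ∀ w ∈ U, ∀ a, G' (τ w) (fderiv ℝ τ w a) (fderiv ℝ τ w a) = G w a a)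
    (hvv : ∀ w ∈ U, fderiv ℝ τ w (v w) = v' (τ w)) (a : E) :
    Sfun G' v' (τ z) (fderiv ℝ τ z a) = Sfun G v z a := by
  have hτd : HasFDerivAt τ (fderiv ℝ τ z) z :=
    ((hτ.contDiffAt (hU.mem_nhds hz)).differentiableAt (by simp)).hasFDerivAt
  have hτ2 : HasFDerivAt (fderiv ℝ τ) (fderiv ℝ (fderiv ℝ τ) z) z :=
    (((hτ.fderiv_of_isOpen hU (m := ∞) (by simp)).contDiffAt
      (hU.mem_nhds hz)).differentiableAt (by simp)).hasFDerivAt
  have hsym : IsSymmSndFDerivAt ℝ τ z :=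
    (hτ.contDiffAt (hU.mem_nhds hz)).isSymmSndFDerivAt
      (by simpa using! (WithTop.coe_le_coe.2 le_top : ((2 : ℕ∞) : WithTop ℕ∞) ≤ ((⊤ : ℕ∞) : WithTop ℕ∞)))
  -- derivative of the relation between the vector fields
  have hrel : fderiv ℝ v' (τ z) (fderiv ℝ τ z a)
      = fderiv ℝ (fderiv ℝ τ) z (v z) a + fderiv ℝ τ z (fderiv ℝ v z a) := by
    have h1 := hτ2.clm_apply hv.hasFDerivAt
    have h2 : HasFDerivAt (fun w => v' (τ w)) _ z := hv'.hasFDerivAt.comp z hτd
    have h3 : (fun w => fderiv ℝ τ w (v w)) =ᶠ[𝓝 z] fun w => v' (τ w) := by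
      filter_upwards [hU.mem_nhds hz] with w hw using hvv w hw
    have h4 := h2.unique (h1.congr_of_eventuallyEq h3.symm)
    have h5 := congrArg (fun T => T a) h4
    simp only [ContinuousLinearMap.comp_apply, add_apply, ContinuousLinearMap.flip_apply] at h5
    rw [h5, hsym.eq a (v z)]
    abel
  -- test curve
  have hy1 : HasDerivAt (fun s : ℝ => z + s • v z) (v z) 0 := by
    simpa using ((hasDerivAt_id (0 : ℝ)).smul_const (v z)).const_add z
  have hα1 : HasDerivAt (fun s : ℝ => a + s • fderiv ℝ v z a) (fderiv ℝ v z a) 0 := by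
    simpa using ((hasDerivAt_id (0 : ℝ)).smul_const (fderiv ℝ v z a)).const_add a
  have h1 := hasDerivAt_energy hG hsymm hy1 (by simp) hα1 (by simp)
  have hz0 : z + (0:ℝ) • v z = z := by simp
  have ha0 : a + (0:ℝ) • fderiv ℝ v z a = a := by simp
  have hy2 : HasDerivAt (fun s : ℝ => τ (z + s • v z)) (v' (τ z)) 0 := by
    have h2 : HasFDerivAt τ (fderiv ℝ τ z) (z + (0:ℝ) • v z) := by rw [hz0]; exact hτd
    have h3 := HasFDerivAt.comp_hasDerivAt (f := fun s : ℝ => z + s • v z) (0:ℝ) h2 hy1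
    rw [hvv z hz] at h3
    exact h3
  have hα2 : HasDerivAt (fun s : ℝ => fderiv ℝ τ (z + s • v z) (a + s • fderiv ℝ v z a))
      (fderiv ℝ v' (τ z) (fderiv ℝ τ z a)) 0 := by
    have h2 : HasFDerivAt (fderiv ℝ τ) (fderiv ℝ (fderiv ℝ τ) z) (z + (0:ℝ) • v z) := by
      rw [hz0]; exact hτ2
    have h3 := HasFDerivAt.comp_hasDerivAt (f := fun s : ℝ => z + s • v z) (0:ℝ) h2 hy1
    have h4 := h3.clm_apply hα1
    rw [hrel]
    convert! h4 using 1
    simp
  have h2 := hasDerivAt_energy (a := fderiv ℝ τ z a) hG' hsymm' hy2 (by simp) hα2 (by simp)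
  have h3 : (fun s : ℝ => G' (τ (z + s • v z)) (fderiv ℝ τ (z + s • v z) (a + s • fderiv ℝ v z a))
      (fderiv ℝ τ (z + s • v z) (a + s • fderiv ℝ v z a))) =ᶠ[𝓝 0]
      fun s : ℝ => G (z + s • v z) (a + s • fderiv ℝ v z a) (a + s • fderiv ℝ v z a) := by
    have : ∀ᶠ s : ℝ in 𝓝 0, z + s • v z ∈ U := by
      apply hy1.continuousAt
      simpa using hU.mem_nhds hz
    filter_upwards [this] with s hs using hGG _ hs _
  have h4 := (h2.congr_of_eventuallyEq h3.symm).unique h1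
  linarith only [h4]

/-- parallel transport backwards in time -/
theorem exists_par_back (h : LocalKahler G U) {y y' : ℝ → E} {a b : ℝ} (hab : a ≤ b)
    (hy : ContinuousOn y (Icc a b)) (hyU : ∀ t ∈ Icc a b, y t ∈ U)
    (hy' : ContinuousOn y' (Icc a b)) (β₁ : E) :
    ∃ β : ℝ → E, β b = β₁ ∧ ∀ t ∈ Icc a b,
      HasDerivWithinAt β (-chris G (y t) (y' t) (β t)) (Icc a b) t := by
  have hcompl : CompleteSpace E := FiniteDimensional.complete ℂ E
  have hrefl : ∀ t ∈ Icc a b, a + b - t ∈ Icc a b := fun t ht =>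
    ⟨by linarith [ht.2], by linarith [ht.1]⟩
  have hL : ContinuousOn (fun t => chris G (y (a + b - t)) (y' (a + b - t))) (Icc a b) := by
    have h1 : ContinuousOn (fun t => chris G (y t)) (Icc a b) :=
      h.contDiffOn_chris.continuousOn.comp hy hyU
    have h2 := h1.clm_apply hy'
    exact h2.comp (by fun_prop : ContinuousOn (fun t => a + b - t) (Icc a b)) hrefl
  obtain ⟨β, hβ0, hβ⟩ := exists_linODE hab _ hL β₁
  refine ⟨fun t => β (a + b - t), by simpa using hβ0, fun t ht => ?_⟩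
  have h1 := hβ (a + b - t) (hrefl t ht)
  have h2 : HasDerivWithinAt (fun t => a + b - t) (-1) (Icc a b) t := by
    simpa using (hasDerivWithinAt_id t (Icc a b)).const_sub (a + b)
  have h3 := h1.scomp t h2 hrefl
  refine h3.congr_deriv ?_
  simp

/-- parallel vectors have constant length -/
theorem par_const (h : LocalKahler G U) {y y' β : ℝ → E} {a b : ℝ}
    (hy : ∀ t ∈ Icc a b, HasDerivWithinAt y (y' t) (Icc a b) t) (hyU : ∀ t ∈ Icc a b, y t ∈ U)
    (hβ : ∀ t ∈ Icc a b, HasDerivWithinAt β (-chris G (y t) (y' t) (β t)) (Icc a b) t)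
    {t : ℝ} (ht : t ∈ Icc a b) : G (y t) (β t) (β t) = G (y a) (β a) (β a) := by
  rcases (ht.1.trans ht.2).eq_or_lt with rfl | hab
  · rw [le_antisymm ht.2 ht.1]
  have hder : ∀ t ∈ Icc a b,
      HasDerivWithinAt (fun t => G (y t) (β t) (β t)) 0 (Icc a b) t := by
    intro t ht
    have h1 : HasDerivWithinAt (fun t => G (y t)) (fderiv ℝ G (y t) (y' t)) (Icc a b) t :=
      (h.differentiableAt (hyU t ht)).hasFDerivAt.comp_hasDerivWithinAt t (hy t ht)
    have h2 := (h1.clm_apply (hβ t ht)).clm_apply (hβ t ht)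
    refine h2.congr_deriv ?_
    rw [add_apply, h.fderiv_eq (hyU t ht)]
    simp only [map_neg, neg_apply]
    ring
  have hdiff : DifferentiableOn ℝ (fun t => G (y t) (β t) (β t)) (Icc a b) :=
    fun t ht => (hder t ht).differentiableWithinAt
  have hz : ∀ t ∈ Ico a b,
      derivWithin (fun t => G (y t) (β t) (β t)) (Icc a b) t = 0 := fun t ht =>
    (hder t (Ico_subset_Icc_self ht)).derivWithin
      (uniqueDiffOn_Icc hab t (Ico_subset_Icc_self ht))
  exact constant_of_derivWithin_zero hdiff hz t ht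

/-- The top eigenvalue of `Sfun` does not increase along integral curves. -/
theorem top_eigenvalue_step (h : LocalKahler G U) (hv : ContDiffOn ℂ ∞ v U)
    (hk : Killing G v U) (hR : ∀ z ∈ U, ∀ X a, 0 ≤ Rc G z X a) {y : ℝ → E} {a b : ℝ} (hab : a ≤ b)
    (hy : ∀ t ∈ Icc a b, HasDerivWithinAt y (v (y t)) (Icc a b) t) (hyU : ∀ t ∈ Icc a b, y t ∈ U)
    {Λ : ℝ} (hΛ : ∀ w, Sfun G v (y a) w ≤ Λ * G (y a) w w) (w : E) :
    Sfun G v (y b) w ≤ Λ * G (y b) w w := by
  have hyc : ContinuousOn y (Icc a b) := fun t ht => (hy t ht).continuousWithinAt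
  have hvr : ContDiffOn ℝ ∞ v U := hv.restrict_scalars ℝ
  have hvc : ContinuousOn (fun t => v (y t)) (Icc a b) := hvr.continuousOn.comp hyc hyU
  obtain ⟨β, hβ1, hβ⟩ := exists_par_back h hab hyc hyU hvc w
  have hβc : ContinuousOn β (Icc a b) := fun t ht => (hβ t ht).continuousWithinAt
  have hconst := par_const h hy hyU hβ (right_mem_Icc.2 hab)
  have hanti : AntitoneOn (fun t => Sfun G v (y t) (β t)) (Icc a b) := by
    apply antitoneOn_of_deriv_nonpos (convex_Icc a b)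
    · -- continuity
      have c1 : ContinuousOn (fun t => fderiv ℝ G (y t)) (Icc a b) :=
        h.contDiffOn_fderiv.continuousOn.comp hyc hyU
      have c2 : ContinuousOn (fun t => G (y t)) (Icc a b) := h.smooth.continuousOn.comp hyc hyU
      have c3 : ContinuousOn (fun t => fderiv ℝ v (y t)) (Icc a b) :=
        (hvr.fderiv_of_isOpen h.isOpen (m := ∞) (by simp)).continuousOn.comp hyc hyU
      have c4 := ((c1.clm_apply hvc).clm_apply hβc).clm_apply hβc
      have c5 := (c2.clm_apply (c3.clm_apply hβc)).clm_apply hβc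
      exact (c4.add (continuousOn_const.mul c5)).div_const 2
    · intro t ht
      rw [interior_Icc] at ht
      have hn : Icc a b ∈ 𝓝 t := Icc_mem_nhds ht.1 ht.2
      have := hasDerivAt_Sfun_par h hv hk (hyU t (Ioo_subset_Icc_self ht))
        ((hy t (Ioo_subset_Icc_self ht)).hasDerivAt hn) rfl
        ((hβ t (Ioo_subset_Icc_self ht)).hasDerivAt hn) rfl
      exact this.differentiableAt.differentiableWithinAt
    · intro t ht
      rw [interior_Icc] at ht
      have hn : Icc a b ∈ 𝓝 t := Icc_mem_nhds ht.1 ht.2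
      have := hasDerivAt_Sfun_par h hv hk (hyU t (Ioo_subset_Icc_self ht))
        ((hy t (Ioo_subset_Icc_self ht)).hasDerivAt hn) rfl
        ((hβ t (Ioo_subset_Icc_self ht)).hasDerivAt hn) rfl
      rw [this.deriv]
      have := hR (y t) (hyU t (Ioo_subset_Icc_self ht)) (v (y t)) (β t)
      linarith only [this]
  have h1 := hanti (left_mem_Icc.2 hab) (right_mem_Icc.2 hab) hab
  simp only at h1
  rw [hβ1] at h1 hconst
  rw [hconst]
  exact h1.trans (hΛ _)

end Vale.Agent.P253.Mfd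
end
end
end

section

section

open scoped ContDiff Topology
open Set Metric Complex Filter

set_option maxSynthPendingDepth 3
set_option linter.unusedSectionVars false

noncomputable section

namespace Vale.Agent.P253.Mfd

variable {ι : Type*} [Fintype ι] {E : Type*} [NormedAddCommGroup E] [NormedSpace ℂ E]

/-- the linear action with weights `m` in the linear coordinates `φ` -/
def LE (φ : E ≃L[ℂ] (ι → ℂ)) (m : ι → ℝ) (ζ : ℂ) (z : E) : E :=
  φ.symm (fun j => Complex.exp (ζ * m j) * φ z j)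

/-- the generator of the action -/
def AE (φ : E ≃L[ℂ] (ι → ℂ)) (m : ι → ℝ) (z : E) : E :=
  φ.symm (fun j => (m j : ℂ) * φ z j)

variable {φ : E ≃L[ℂ] (ι → ℂ)} {m : ι → ℝ}

theorem LE_coord (ζ : ℂ) (z : E) (j : ι) : φ (LE φ m ζ z) j = Complex.exp (ζ * m j) * φ z j := by
  simp [LE]

theorem AE_coord (z : E) (j : ι) : φ (AE φ m z) j = (m j : ℂ) * φ z j := by
  simp [AE]

theorem ext_coord {z w : E} (h : ∀ j, φ z j = φ w j) : z = w :=
  φ.injective (funext h)

theorem LE_zero (z : E) : LE φ m 0 z = z := by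
  apply ext_coord (φ := φ); intro j; simp [LE_coord]

theorem LE_add (ζ ζ' : ℂ) (z : E) : LE φ m (ζ + ζ') z = LE φ m ζ (LE φ m ζ' z) := by
  apply ext_coord (φ := φ); intro j
  simp only [LE_coord, add_mul, Complex.exp_add]; ring

theorem LE_zero_right (ζ : ℂ) : LE φ m ζ 0 = 0 := by
  apply ext_coord (φ := φ); intro j; simp [LE_coord]

theorem hasDerivAt_LE (ζ : ℂ) (z : E) :
    HasDerivAt (fun ζ => LE φ m ζ z) (AE φ m (LE φ m ζ z)) ζ := by
  have key : HasDerivAt (fun ζ : ℂ => (fun j => Complex.exp (ζ * m j) * φ z j : ι → ℂ))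
      (fun j => (m j : ℂ) * φ (LE φ m ζ z) j) ζ := by
    rw [hasDerivAt_pi]
    intro j
    simp only [LE_coord]
    have h1 : HasDerivAt (fun ζ : ℂ => Complex.exp (ζ * m j)) (Complex.exp (ζ * m j) * m j) ζ := by
      have := (hasDerivAt_id ζ).mul_const (m j : ℂ)
      simpa using this.cexp
    have h2 := h1.mul_const (φ z j)
    convert! h2 using 1
    ring
  have := (φ.symm.toContinuousLinearMap.hasFDerivAt
    (x := (fun j => Complex.exp (ζ * m j) * φ z j : ι → ℂ))).comp_hasDerivAt ζ key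
  exact this

theorem differentiable_LE (z : E) : Differentiable ℂ (fun ζ => LE φ m ζ z) :=
  fun ζ => (hasDerivAt_LE ζ z).differentiableAt

theorem deriv_LE (ζ : ℂ) (z : E) : deriv (fun ζ => LE φ m ζ z) ζ = AE φ m (LE φ m ζ z) :=
  (hasDerivAt_LE ζ z).deriv

theorem continuous_LE : Continuous (fun q : ℂ × E => LE φ m q.1 q.2) := by
  apply φ.symm.continuous.comp
  apply continuous_pi
  intro j
  have h1 : Continuous (fun q : ℂ × E => φ q.2 j) :=
    (continuous_apply j).comp (φ.continuous.comp continuous_snd)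
  exact ((Complex.continuous_exp.comp (continuous_fst.mul continuous_const))).mul h1

theorem continuous_AE : Continuous (AE φ m) := by
  apply φ.symm.continuous.comp
  apply continuous_pi
  intro j
  exact continuous_const.mul ((continuous_apply j).comp φ.continuous)

theorem differentiable_LE_right (ζ : ℂ) : Differentiable ℂ (LE φ m ζ) := by
  apply φ.symm.differentiable.comp
  rw [differentiable_pi]
  intro j
  have h1 : Differentiable ℂ (fun z : E => φ z j) := by
    have := differentiable_pi.1 φ.differentiable j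
    exact this
  exact (differentiable_const _).mul h1

theorem norm_exp_mul (t k : ℝ) : ‖Complex.exp ((t:ℂ) * k)‖ = Real.exp (t * k) := by
  rw [Complex.norm_exp]
  simp

theorem norm_LE_le {t : ℝ} {M : ℝ} (hM : ∀ j, Real.exp (t * m j) ≤ M) (z : E) (hM0 : 0 ≤ M) :
    ‖φ (LE φ m t z)‖ ≤ M * ‖φ z‖ := by
  rw [pi_norm_le_iff_of_nonneg (by positivity)]
  intro j
  rw [LE_coord, norm_mul, norm_exp_mul]
  have h1 := hM j
  have h2 := norm_le_pi_norm (φ z) j
  gcongr

theorem exists_minw (hm : ∀ j, 0 < m j) : ∃ c > 0, ∀ j, c ≤ m j := by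
  rcases isEmpty_or_nonempty ι with h | h
  · exact ⟨1, one_pos, fun j => (h.false j).elim⟩
  · obtain ⟨j₀, hj₀⟩ := Finite.exists_min m
    exact ⟨m j₀, hm j₀, hj₀⟩

theorem norm_LE_nonpos {c : ℝ} (hm : ∀ j, c ≤ m j) {t : ℝ} (ht : t ≤ 0) (z : E) :
    ‖φ (LE φ m t z)‖ ≤ Real.exp (c * t) * ‖φ z‖ := by
  apply norm_LE_le _ z (Real.exp_pos _).le
  intro j
  apply Real.exp_le_exp.2
  have := hm j
  nlinarith only [ht, this]

theorem norm_LE_nonpos' (hm : ∀ j, 0 < m j) {t : ℝ} (ht : t ≤ 0) (z : E) :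
    ‖φ (LE φ m t z)‖ ≤ ‖φ z‖ := by
  obtain ⟨c, hc, hcm⟩ := exists_minw hm
  refine (norm_LE_nonpos hcm ht z).trans ?_
  have : Real.exp (c * t) ≤ 1 := Real.exp_le_one_iff.2 (mul_nonpos_of_nonneg_of_nonpos hc.le ht)
  calc _ ≤ 1 * ‖φ z‖ := by gcongr
    _ = _ := one_mul _

theorem norm_LE_nonneg (hm : ∀ j, 0 < m j) {t : ℝ} (ht : 0 ≤ t) (z : E) :
    ‖φ (LE φ m t z)‖ ≤ Real.exp (t * ∑ j, m j) * ‖φ z‖ := by
  apply norm_LE_le _ z (Real.exp_pos _).le
  intro j
  apply Real.exp_le_exp.2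
  have : m j ≤ ∑ j, m j :=
    Finset.single_le_sum (f := m) (fun j _ => (hm j).le) (Finset.mem_univ j)
  gcongr

theorem norm_LE_I_le (θ : ℝ) (z : E) : ‖φ (LE φ m (θ * I) z)‖ ≤ ‖φ z‖ := by
  rw [pi_norm_le_iff_of_nonneg (by positivity)]
  intro j
  have : ‖Complex.exp (θ * I * m j)‖ = 1 := by
    rw [Complex.norm_exp]; simp
  rw [LE_coord, norm_mul, this, one_mul]
  exact norm_le_pi_norm (φ z) j

theorem norm_LE_I (θ : ℝ) (z : E) : ‖φ (LE φ m (θ * I) z)‖ = ‖φ z‖ := by
  refine le_antisymm (norm_LE_I_le θ z) ?_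
  have h1 := norm_LE_I_le (φ := φ) (m := m) (-θ) (LE φ m (θ * I) z)
  rw [← LE_add] at h1
  have : ((-θ : ℝ) : ℂ) * I + θ * I = 0 := by push_cast; ring
  rwa [this, LE_zero] at h1

theorem AE_ne_zero (hm : ∀ j, 0 < m j) {z : E} (hz : z ≠ 0) : AE φ m z ≠ 0 := by
  intro h
  apply hz
  apply ext_coord (φ := φ)
  intro j
  have h1 : φ (AE φ m z) j = 0 := by rw [h]; simp
  rw [AE_coord] at h1
  have h2 : (m j : ℂ) ≠ 0 := by exact_mod_cast (hm j).ne'
  simpa [h2] using h1

/-- every point flows into the sphere of radius `δ` -/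
theorem exists_LE_norm_eq (hm : ∀ j, 0 < m j) {z : E} {δ : ℝ} (hδ : 0 < δ)
    (hz : δ < ‖φ z‖) : ∃ T : ℝ, 0 ≤ T ∧ ‖φ (LE φ m ((-T : ℝ) : ℂ) z)‖ = δ := by
  have hc : Continuous (fun t : ℝ => ‖φ (LE φ m ((-t : ℝ) : ℂ) z)‖) := by
    have h1 : Continuous (fun t : ℝ => (((-t : ℝ) : ℂ), z)) :=
      (continuous_ofReal.comp continuous_neg).prodMk continuous_const
    exact (φ.continuous.comp (continuous_LE.comp h1)).norm
  obtain ⟨c, hc0, hcm⟩ := exists_minw hm
  set b := Real.log (‖φ z‖ / δ) / c with hb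
  have hz0 : 0 < ‖φ z‖ := hδ.trans hz
  have hb0 : 0 ≤ b := div_nonneg (Real.log_nonneg (by rw [le_div_iff₀ hδ]; linarith only [hz])) hc0.le
  have hend : ‖φ (LE φ m ((-b : ℝ) : ℂ) z)‖ ≤ δ := by
    refine (norm_LE_nonpos hcm (by linarith only [hb0]) z).trans (le_of_eq ?_)
    have h1 : c * -b = -Real.log (‖φ z‖ / δ) := by rw [hb]; field_simp
    rw [h1, Real.exp_neg, Real.exp_log (by positivity)]
    field_simp
  have := intermediate_value_Icc' hb0 hc.continuousOn
  obtain ⟨T, hT, hT2⟩ := this ⟨hend, by simpa [LE_zero] using hz.le⟩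
  exact ⟨T, hT.1, hT2⟩

/-- the sublevel sets of the coordinate norm are compact -/
theorem isCompact_coordBall (φ : E ≃L[ℂ] (ι → ℂ)) (R : ℝ) : IsCompact {z : E | ‖φ z‖ ≤ R} := by
  have h1 : {z : E | ‖φ z‖ ≤ R} = φ.symm '' closedBall 0 R := by
    ext z
    constructor
    · intro hz
      exact ⟨φ z, by simpa using hz, by simp⟩
    · rintro ⟨w, hw, rfl⟩
      simpa using hw
  rw [h1]
  exact (isCompact_closedBall _ _).image φ.symm.continuous

end Vale.Agent.P253.Mfd
end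
end
end

section

section

open scoped ContDiff Topology
open Set Metric Filter

set_option maxSynthPendingDepth 3
set_option linter.unusedSectionVars false

noncomputable section

namespace Vale.Agent.P253.Mfd

variable {E F : Type*} [NormedAddCommGroup E] [NormedSpace ℂ E] [FiniteDimensional ℂ E]
    [NormedAddCommGroup F] [NormedSpace ℂ F] [CompleteSpace F]

/-- Cauchy estimate for the derivative of a bounded holomorphic map. -/
theorem norm_fderiv_apply_le {U : Set E} (hU : IsOpen U) {k : E → F}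
    (hk : DifferentiableOn ℂ k U) {z : E} {R B : ℝ} (hR : 0 < R) (hball : closedBall z R ⊆ U)
    (hB : ∀ y ∈ closedBall z R, ‖k y‖ ≤ B) (h : E) : ‖fderiv ℂ k z h‖ ≤ B / R * ‖h‖ := by
  by_cases hh : h = 0
  · simp [hh]
  have hhn : 0 < ‖h‖ := norm_pos_iff.2 hh
  set r : ℝ := R / ‖h‖ with hr
  have hrpos : 0 < r := by positivity
  have hrh : r * ‖h‖ = R := by rw [hr]; field_simp
  have hin : ∀ w ∈ closedBall (0:ℂ) r, z + w • h ∈ closedBall z R := by
    intro w hw
    have hw' : ‖w‖ ≤ r := by simpa using hw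
    rw [mem_closedBall, dist_eq_norm, add_sub_cancel_left, norm_smul]
    calc ‖w‖ * ‖h‖ ≤ r * ‖h‖ := by gcongr
      _ = R := hrh
  have hz : z ∈ U := hball (mem_closedBall_self hR.le)
  have hd := (line_hasDeriv hU hk hz h).deriv
  have hdc : DiffContOnCl ℂ (fun w : ℂ => k (z + w • h)) (ball 0 r) :=
    (line_diffOn hk z h).diffContOnCl_ball (fun w hw => hball (hin w hw))
  have hbound := Complex.norm_deriv_le_of_forall_mem_sphere_norm_le (c := (0:ℂ)) (R := r)
    (C := B) (f := fun w : ℂ => k (z + w • h)) hrpos hdc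
    (fun w hw => hB _ (hin w (sphere_subset_closedBall hw)))
  rw [hd] at hbound
  calc ‖fderiv ℂ k z h‖ ≤ B / r := hbound
    _ = B / R * ‖h‖ := by rw [hr]; field_simp

/-- Second order Taylor estimate for a bounded holomorphic map. -/
theorem taylor_holo {U : Set E} (hU : IsOpen U) {k : E → F}
    (hk : DifferentiableOn ℂ k U) {z : E} {R B : ℝ} (hR : 0 < R) (hball : closedBall z R ⊆ U)
    (hB : ∀ y ∈ closedBall z R, ‖k y‖ ≤ B) {h : E} (hh : ‖h‖ ≤ R / 4) :
    ‖k (z + h) - k z - fderiv ℂ k z h‖ ≤ 16 * B / R ^ 2 * ‖h‖ ^ 2 := by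
  have hB0 : 0 ≤ B := (norm_nonneg _).trans (hB z (mem_closedBall_self hR.le))
  have hD := fderiv_apply_diffOn hU hk h
  have hDb : ∀ y ∈ closedBall z (R / 2), ‖fderiv ℂ k y h‖ ≤ B / (R / 2) * ‖h‖ := by
    intro y hy
    have hsub : closedBall y (R / 2) ⊆ closedBall z R :=
      closedBall_subset_closedBall' (by rw [mem_closedBall] at hy; linarith only [hy])
    exact norm_fderiv_apply_le hU hk (by positivity) (hsub.trans hball)
      (fun w hw => hB w (hsub hw)) h
  have hDD : ∀ y ∈ closedBall z (R / 4),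
      ‖fderiv ℂ (fun y => fderiv ℂ k y h) y‖ ≤ 8 * B / R ^ 2 * ‖h‖ := by
    intro y hy
    have hsub : closedBall y (R / 4) ⊆ closedBall z (R / 2) :=
      closedBall_subset_closedBall' (by rw [mem_closedBall] at hy; linarith only [hy])
    have hsub2 : closedBall z (R / 2) ⊆ closedBall z R :=
      closedBall_subset_closedBall (by linarith only [hR])
    refine ContinuousLinearMap.opNorm_le_bound _ (by positivity) (fun v => ?_)
    have := norm_fderiv_apply_le hU hD (z := y) (R := R / 4) (B := B / (R / 2) * ‖h‖)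
      (by positivity) (hsub.trans (hsub2.trans hball)) (fun w hw => hDb w (hsub hw)) v
    refine this.trans (le_of_eq ?_)
    field_simp
    ring
  have hseg : ∀ t ∈ Icc (0:ℝ) 1, z + t • h ∈ closedBall z (R / 4) := by
    intro t ht
    rw [mem_closedBall, dist_eq_norm, add_sub_cancel_left, norm_smul, Real.norm_of_nonneg ht.1]
    calc t * ‖h‖ ≤ 1 * ‖h‖ := by gcongr; exact ht.2
      _ ≤ R / 4 := by linarith only [hh]
  have hU4 : closedBall z (R / 4) ⊆ U := (closedBall_subset_closedBall (by linarith only [hR])).trans hball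
  have hdiff : ∀ t ∈ Icc (0:ℝ) 1, ‖fderiv ℂ k (z + t • h) h - fderiv ℂ k z h‖
      ≤ 8 * B / R ^ 2 * ‖h‖ * ‖h‖ := by
    intro t ht
    have h1 := Convex.norm_image_sub_le_of_norm_fderiv_le (𝕜 := ℂ)
      (f := fun y => fderiv ℂ k y h) (s := closedBall z (R / 4))
      (C := 8 * B / R ^ 2 * ‖h‖) (x := z) (y := z + t • h)
      (fun y hy => hD.differentiableAt (hU.mem_nhds (hU4 hy))) hDD (convex_closedBall _ _)
      (mem_closedBall_self (by positivity)) (hseg t ht)
    refine h1.trans ?_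
    gcongr
    rw [add_sub_cancel_left, norm_smul, Real.norm_of_nonneg ht.1]
    calc t * ‖h‖ ≤ 1 * ‖h‖ := by gcongr; exact ht.2
      _ = ‖h‖ := one_mul _
  have hg : ∀ t ∈ Icc (0:ℝ) 1, HasDerivWithinAt
      (fun t : ℝ => k (z + t • h) - t • fderiv ℂ k z h)
      (fderiv ℂ k (z + t • h) h - fderiv ℂ k z h) (Icc 0 1) t := by
    intro t ht
    have h1 : HasDerivAt (fun t : ℝ => z + t • h) h t := by
      simpa using ((hasDerivAt_id t).smul_const h).const_add z
    have h2 : HasFDerivAt k ((fderiv ℂ k (z + t • h)).restrictScalars ℝ) (z + t • h) :=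
      (hk.differentiableAt (hU.mem_nhds (hU4 (hseg t ht)))).hasFDerivAt.restrictScalars ℝ
    have h3 := h2.comp_hasDerivAt t h1
    have h4 : HasDerivAt (fun t : ℝ => t • fderiv ℂ k z h) (fderiv ℂ k z h) t := by
      simpa using (hasDerivAt_id t).smul_const (fderiv ℂ k z h)
    exact (h3.sub h4).hasDerivWithinAt
  have hfin := norm_image_sub_le_of_norm_deriv_le_segment_01'
    (f := fun t : ℝ => k (z + t • h) - t • fderiv ℂ k z h)
    (f' := fun t : ℝ => fderiv ℂ k (z + t • h) h - fderiv ℂ k z h)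
    (C := 8 * B / R ^ 2 * ‖h‖ * ‖h‖) hg
    (fun t ht => hdiff t ⟨ht.1, ht.2.le⟩)
  simp only [one_smul, zero_smul, add_zero, sub_zero] at hfin
  have e1 : k (z + h) - fderiv ℂ k z h - k z = k (z + h) - k z - fderiv ℂ k z h := by abel
  rw [e1] at hfin
  refine hfin.trans ?_
  have : 0 ≤ B / R ^ 2 * ‖h‖ ^ 2 := by positivity
  calc 8 * B / R ^ 2 * ‖h‖ * ‖h‖ = 8 * (B / R ^ 2 * ‖h‖ ^ 2) := by ring
    _ ≤ 16 * (B / R ^ 2 * ‖h‖ ^ 2) := by linarith only [this]
    _ = _ := by ring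

end Vale.Agent.P253.Mfd
end
end
end

section

section

open scoped Manifold ContDiff Topology Bundle
open Set Metric Complex Filter Bundle IsManifold

set_option maxSynthPendingDepth 3
set_option linter.unusedSectionVars false

noncomputable section

namespace Vale.Agent.P253.Mfd

variable {E : Type*} [NormedAddCommGroup E] [NormedSpace ℂ E] [FiniteDimensional ℂ E]
  {M : Type*} [TopologicalSpace M] [ChartedSpace E M] [IsManifold 𝓘(ℂ, E) 1 M]
  {E' : Type*} [NormedAddCommGroup E'] [NormedSpace ℂ E'] [CompleteSpace E']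
  {M' : Type*} [TopologicalSpace M'] [ChartedSpace E' M'] [IsManifold 𝓘(ℂ, E') 1 M']

/-- Holomorphic maps between complex manifolds are continuously differentiable. -/
theorem contMDiffAt_of_mdiff {f : M → M'} {x : M} {U : Set M} (hU : IsOpen U) (hx : x ∈ U)
    (h : ∀ y ∈ U, MDifferentiableAt 𝓘(ℂ, E) 𝓘(ℂ, E') f y) :
    ContMDiffAt 𝓘(ℂ, E) 𝓘(ℂ, E') 1 f x := by
  have hc : chartAt E x ∈ maximalAtlas 𝓘(ℂ, E) 1 M := chart_mem_maximalAtlas x
  have hc' : chartAt E' (f x) ∈ maximalAtlas 𝓘(ℂ, E') 1 M' := chart_mem_maximalAtlas (f x)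
  set c := chartAt E x with hcdef
  set c' := chartAt E' (f x) with hcdef'
  have hxc : x ∈ c.source := mem_chart_source E x
  have hxc' : f x ∈ c'.source := mem_chart_source E' (f x)
  have hfc : ContinuousOn f U := fun y hy => (h y hy).continuousAt.continuousWithinAt
  have hV : IsOpen (U ∩ f ⁻¹' c'.source) := hfc.isOpen_inter_preimage hU c'.open_source
  set V := U ∩ f ⁻¹' c'.source with hVdef
  have hO : IsOpen (c.target ∩ c.symm ⁻¹' V) :=
    c.continuousOn_symm.isOpen_inter_preimage c.open_target hV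
  set O := c.target ∩ c.symm ⁻¹' V with hOdef
  have hdiff : DifferentiableOn ℂ (fun z => c' (f (c.symm z))) O := by
    intro z hz
    have h1 : MDifferentiableAt 𝓘(ℂ, E) 𝓘(ℂ, E) c.symm z :=
      ((contMDiffOn_symm_of_mem_maximalAtlas hc).contMDiffAt
        (c.open_target.mem_nhds hz.1)).mdifferentiableAt (by simp)
    have h2 : MDifferentiableAt 𝓘(ℂ, E) 𝓘(ℂ, E') f (c.symm z) := h _ hz.2.1
    have h3 : MDifferentiableAt 𝓘(ℂ, E') 𝓘(ℂ, E') c' (f (c.symm z)) :=
      ((contMDiffOn_of_mem_maximalAtlas hc').contMDiffAt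
        (c'.open_source.mem_nhds hz.2.2)).mdifferentiableAt (by simp)
    have h4 := h3.comp z (h2.comp z h1)
    exact h4.differentiableAt.differentiableWithinAt
  have hsm := contDiffOn_of_differentiableOn_complex hO hdiff
  have hxO : c x ∈ O := ⟨c.map_source hxc, by
    simp only [mem_preimage, c.left_inv hxc]; exact ⟨hx, hxc'⟩⟩
  have h1 : ContMDiffAt 𝓘(ℂ, E) 𝓘(ℂ, E') 1 (fun z => c' (f (c.symm z))) (c x) :=
    ((hsm.contDiffAt (hO.mem_nhds hxO)).of_le (by simp)).contMDiffAt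
  have h2 : ContMDiffAt 𝓘(ℂ, E) 𝓘(ℂ, E) 1 c x :=
    (contMDiffOn_of_mem_maximalAtlas hc).contMDiffAt (c.open_source.mem_nhds hxc)
  have h3 : ContMDiffAt 𝓘(ℂ, E') 𝓘(ℂ, E') 1 c'.symm (c' (f (c.symm (c x)))) :=
    (contMDiffOn_symm_of_mem_maximalAtlas hc').contMDiffAt (c'.open_target.mem_nhds (by
      rw [c.left_inv hxc]; exact c'.map_source hxc'))
  have h4 := h3.comp x (h1.comp x h2)
  refine h4.congr_of_eventuallyEq ?_
  have hev : ∀ᶠ y in 𝓝 x, y ∈ V ∩ c.source :=
    (hV.inter c.open_source).mem_nhds ⟨⟨hx, hxc'⟩, hxc⟩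
  filter_upwards [hev] with y hy
  simp only [Function.comp_apply, c.left_inv hy.2, c'.left_inv hy.1.2]

end Vale.Agent.P253.Mfd
end
end
end

section

section

open scoped Manifold ContDiff Topology Bundle
open Set Metric Complex Filter Bundle IsManifold

set_option maxSynthPendingDepth 3
set_option linter.unusedSectionVars false

noncomputable section

namespace Vale.Agent.P253.Mfd

variable {E : Type*} [NormedAddCommGroup E] [NormedSpace ℂ E] [FiniteDimensional ℂ E]
  {M : Type*} [MetricSpace M] [ChartedSpace E M] [IsManifold 𝓘(ℂ, E) 1 M]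

/-- Transition maps between holomorphic charts are complex smooth. -/
theorem transition_complex {e e' : OpenPartialHomeomorph M E}
    (he : e ∈ maximalAtlas 𝓘(ℂ, E) 1 M) (he' : e' ∈ maximalAtlas 𝓘(ℂ, E) 1 M) :
    ContDiffOn ℂ ∞ (e' ∘ e.symm) (e.symm.trans e').source := by
  have h := compatible_of_mem_maximalAtlas he he'
  have h1 : ContDiffOn ℂ 1 (e' ∘ e.symm) (e.symm.trans e').source := by
    rw [contDiffGroupoid, mem_groupoid_of_pregroupoid] at h
    have h2 := h.1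
    simpa [contDiffPregroupoid] using! h2
  exact contDiffOn_of_differentiableOn_complex (e.symm.trans e').open_source
    (h1.differentiableOn (by simp))

/-- Holomorphic charts are smooth real charts. -/
theorem mem_maximalAtlas_real [IsManifold 𝓘(ℝ, E) ∞ M] {e : OpenPartialHomeomorph M E}
    (he : e ∈ maximalAtlas 𝓘(ℂ, E) 1 M) : e ∈ maximalAtlas 𝓘(ℝ, E) ∞ M := by
  rw [IsManifold.mem_maximalAtlas_iff, _root_.mem_maximalAtlas_iff]
  intro e' he'
  have he'1 : e' ∈ maximalAtlas 𝓘(ℂ, E) 1 M := subset_maximalAtlas he'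
  have h1 := (transition_complex he he'1).restrict_scalars ℝ
  have h2 := (transition_complex he'1 he).restrict_scalars ℝ
  constructor
  · rw [contDiffGroupoid, mem_groupoid_of_pregroupoid]
    constructor
    · simpa [contDiffPregroupoid] using! h1
    · simpa [contDiffPregroupoid] using! h2
  · rw [contDiffGroupoid, mem_groupoid_of_pregroupoid]
    constructor
    · simpa [contDiffPregroupoid] using! h2
    · simpa [contDiffPregroupoid] using! h1

variable [IsManifold 𝓘(ℝ, E) ∞ M]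
  [RiemannianBundle (fun x : M => TangentSpace 𝓘(ℝ, E) x)]

/-- The metric in a chart as a bilinear form. -/
def chartG (e : OpenPartialHomeomorph M E) (z : E) : E →L[ℝ] E →L[ℝ] ℝ :=
  ContinuousLinearMap.bilinearComp (innerSL ℝ (E := TangentSpace 𝓘(ℝ, E) (e.symm z)))
    (mfderiv 𝓘(ℝ, E) 𝓘(ℝ, E) e.symm z) (mfderiv 𝓘(ℝ, E) 𝓘(ℝ, E) e.symm z)

theorem chartG_apply (e : OpenPartialHomeomorph M E) (z v w : E) :
    chartG e z v w = chartMetric e z v w := rfl

variable [IsContMDiffRiemannianBundle 𝓘(ℝ, E) ∞ E (fun x : M => TangentSpace 𝓘(ℝ, E) x)]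

set_option backward.isDefEq.respectTransparency false in
theorem contDiffOn_chartMetric {e : OpenPartialHomeomorph M E}
    (he : e ∈ maximalAtlas 𝓘(ℝ, E) ∞ M) (v w : E) :
    ContDiffOn ℝ ∞ (fun z => chartMetric e z v w) e.target := by
  have h1 : ContMDiffOn 𝓘(ℝ, E) 𝓘(ℝ, E) ∞ e.symm e.target :=
    contMDiffOn_symm_of_mem_maximalAtlas he
  have key : ∀ v : E, ContMDiffOn 𝓘(ℝ, E) 𝓘(ℝ, E).tangent ∞
      (fun z : E => (⟨e.symm z, mfderiv 𝓘(ℝ, E) 𝓘(ℝ, E) e.symm z v⟩ : TangentBundle 𝓘(ℝ, E) M))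
      e.target := by
    intro v z hz
    have h2 : ContMDiffOn 𝓘(ℝ, E).tangent 𝓘(ℝ, E).tangent ∞
        (tangentMapWithin 𝓘(ℝ, E) 𝓘(ℝ, E) e.symm e.target) (Bundle.TotalSpace.proj ⁻¹' e.target) :=
      h1.contMDiffOn_tangentMapWithin (by simp) e.open_target.uniqueMDiffOn
    have h3 : ContMDiff 𝓘(ℝ, E) 𝓘(ℝ, E).tangent ∞
        (fun z : E => (⟨z, v⟩ : TangentBundle 𝓘(ℝ, E) E)) :=
      contMDiff_vectorSpace_iff_contDiff (V := fun z : E => (v : TangentSpace 𝓘(ℝ, E) z)) |>.2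
        contDiff_const
    have h4 := h2.comp (h3.contMDiffOn (s := e.target)) (fun z hz => hz)
    refine (h4 z hz).congr (fun y hy => ?_) ?_
    · simp only [Function.comp, tangentMapWithin]
      rw [mfderivWithin_of_isOpen e.open_target hy]
    · simp only [Function.comp, tangentMapWithin]
      rw [mfderivWithin_of_isOpen e.open_target hz]
  have h5 := ContMDiffOn.inner_bundle (IB := 𝓘(ℝ, E)) (IM := 𝓘(ℝ, E)) (n := ∞) (F := E)
    (E := fun x : M => TangentSpace 𝓘(ℝ, E) x) (b := fun z : E => e.symm z)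
    (v := fun z : E => mfderiv 𝓘(ℝ, E) 𝓘(ℝ, E) e.symm z v)
    (w := fun z : E => mfderiv 𝓘(ℝ, E) 𝓘(ℝ, E) e.symm z w) (key v) (key w)
  exact contMDiffOn_iff_contDiffOn.1 h5

theorem contDiffOn_chartG {e : OpenPartialHomeomorph M E}
    (he : e ∈ maximalAtlas 𝓘(ℝ, E) ∞ M) : ContDiffOn ℝ ∞ (chartG e) e.target := by
  have hfd : FiniteDimensional ℝ E := FiniteDimensional.complexToReal E
  rw [contDiffOn_clm_apply]
  intro v
  rw [contDiffOn_clm_apply]
  intro w
  exact contDiffOn_chartMetric he v w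

omit [IsManifold 𝓘(ℂ, E) 1 M] [RiemannianBundle (fun x : M => TangentSpace 𝓘(ℝ, E) x)]
  [IsContMDiffRiemannianBundle 𝓘(ℝ, E) ∞ E (fun x : M => TangentSpace 𝓘(ℝ, E) x)] in
theorem mdifferentiable_chart {e : OpenPartialHomeomorph M E}
    (he : e ∈ maximalAtlas 𝓘(ℝ, E) ∞ M) : e.MDifferentiable 𝓘(ℝ, E) 𝓘(ℝ, E) :=
  ⟨(contMDiffOn_of_mem_maximalAtlas he).mdifferentiableOn (by simp),
    (contMDiffOn_symm_of_mem_maximalAtlas he).mdifferentiableOn (by simp)⟩

theorem mfderiv_symm_injective {e : OpenPartialHomeomorph M E}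
    (he : e ∈ maximalAtlas 𝓘(ℝ, E) ∞ M) {z : E} (hz : z ∈ e.target) :
    Function.Injective (mfderiv 𝓘(ℝ, E) 𝓘(ℝ, E) e.symm z) := by
  have h := (mdifferentiable_chart he).comp_symm_deriv hz
  intro v w hvw
  have := congrArg (fun T => T v) h
  have h2 := congrArg (fun T => T w) h
  simp only [ContinuousLinearMap.comp_apply] at this h2
  rw [hvw] at this
  exact this.symm.trans h2

theorem chartG_symm (e : OpenPartialHomeomorph M E) (z v w : E) :
    chartG e z v w = chartG e z w v := by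
  rw [chartG_apply, chartG_apply, chartMetric, chartMetric]
  exact real_inner_comm _ _

theorem chartG_pos {e : OpenPartialHomeomorph M E}
    (he : e ∈ maximalAtlas 𝓘(ℝ, E) ∞ M) {z : E} (hz : z ∈ e.target) (v : E) (hv : v ≠ 0) :
    0 < chartG e z v v := by
  rw [chartG_apply, chartMetric]
  apply real_inner_self_pos.2
  intro h0
  apply hv
  exact mfderiv_symm_injective he hz (h0.trans (map_zero _).symm)

theorem fderiv_chartMetric {e : OpenPartialHomeomorph M E}
    (he : e ∈ maximalAtlas 𝓘(ℝ, E) ∞ M) {z : E} (hz : z ∈ e.target) (u v w : E) :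
    fderiv ℝ (fun y => chartMetric e y v w) z u = fderiv ℝ (chartG e) z u v w := by
  have hd : DifferentiableAt ℝ (chartG e) z :=
    ((contDiffOn_chartG he).contDiffAt (e.open_target.mem_nhds hz)).differentiableAt (by simp)
  have := (hd.hasFDerivAt.clm_apply (hasFDerivAt_const v z)).clm_apply
    (hasFDerivAt_const w z)
  have h2 : HasFDerivAt (fun y => chartMetric e y v w)
    (((fderiv ℝ (chartG e) z).flip v).flip w) z := by
    convert! this using 1
    ext x
    simp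
  rw [h2.fderiv]
  simp

theorem fderiv2_chartMetric {e : OpenPartialHomeomorph M E}
    (he : e ∈ maximalAtlas 𝓘(ℝ, E) ∞ M) {z : E} (hz : z ∈ e.target) (u v a b : E) :
    fderiv ℝ (fun y => fderiv ℝ (fun x => chartMetric e x a b) y v) z u
      = fderiv ℝ (fderiv ℝ (chartG e)) z u v a b := by
  have hd : DifferentiableAt ℝ (fderiv ℝ (chartG e)) z :=
    (((contDiffOn_chartG he).fderiv_of_isOpen e.open_target (m := ∞) (by simp)).contDiffAt
      (e.open_target.mem_nhds hz)).differentiableAt (by simp)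
  have h1 : (fun y => fderiv ℝ (fun x => chartMetric e x a b) y v) =ᶠ[𝓝 z]
      (fun y => fderiv ℝ (chartG e) y v a b) := by
    filter_upwards [e.open_target.mem_nhds hz] with y hy using fderiv_chartMetric he hy v a b
  have := ((hd.hasFDerivAt.clm_apply (hasFDerivAt_const v z)).clm_apply
    (hasFDerivAt_const a z)).clm_apply (hasFDerivAt_const b z)
  have h2 : HasFDerivAt (fun y => fderiv ℝ (chartG e) y v a b)
    ((((fderiv ℝ (fderiv ℝ (chartG e)) z).flip v).flip a).flip b) z := by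
    convert! this using 1
    ext x
    simp
  rw [h1.fderiv_eq, h2.fderiv]
  simp

theorem isChristoffel_eq {e : OpenPartialHomeomorph M E}
    (he : e ∈ maximalAtlas 𝓘(ℝ, E) ∞ M) {z : E} (hz : z ∈ e.target) {Γ : E → E → E}
    (hΓ : IsChristoffel e z Γ) (u v : E) : Γ u v = chris (chartG e) z u v := by
  refine eq_chris_of_pos (fun v hv => chartG_pos he hz v hv) u v _ (fun w => ?_)
  have := hΓ u v w
  rw [fderiv_chartMetric he hz, fderiv_chartMetric he hz, fderiv_chartMetric he hz] at this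
  exact this

theorem sectNum_eq {e : OpenPartialHomeomorph M E}
    (he : e ∈ maximalAtlas 𝓘(ℝ, E) ∞ M) {z : E} (hz : z ∈ e.target) {Γ : E → E → E}
    (hΓ : IsChristoffel e z Γ) (a b : E) :
    sectNum e z Γ a b = LocalKahler.secG (chartG e) z a b := by
  simp only [sectNum, LocalKahler.secG, isChristoffel_eq he hz hΓ]
  rw [fderiv2_chartMetric he hz, fderiv2_chartMetric he hz, fderiv2_chartMetric he hz]
  rfl

theorem localKahler_chartG (hK : IsKahler E M) {e : OpenPartialHomeomorph M E}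
    (he : e ∈ maximalAtlas 𝓘(ℂ, E) 1 M) : LocalKahler (chartG e) e.target := by
  have he' := mem_maximalAtlas_real he
  refine ⟨e.open_target, contDiffOn_chartG he', fun z _ => chartG_symm e z,
    fun z hz => chartG_pos he' hz, fun z hz => (hK e he z hz).1, fun z hz u v => ?_⟩
  obtain ⟨Γ, hΓ, hpar⟩ := (hK e he z hz).2
  rw [← isChristoffel_eq he' hz hΓ, ← isChristoffel_eq he' hz hΓ, hpar]

theorem Rc_nonneg_chartG (hK : IsKahler E M) {e : OpenPartialHomeomorph M E}
    (he : e ∈ maximalAtlas 𝓘(ℂ, E) 1 M) {z : E} (hz : z ∈ e.target)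
    (hnn : NonnegBisectionalAt E (e.symm z)) (X a : E) : 0 ≤ Rc (chartG e) z X a := by
  have he' := mem_maximalAtlas_real he
  obtain ⟨Γ, hΓ, hb⟩ := hnn e he (e.map_target hz)
  rw [e.right_inv hz] at hΓ hb
  have h1 := hb a X
  rw [sectNum_eq he' hz hΓ, sectNum_eq he' hz hΓ, (localKahler_chartG hK he).secG_add hz] at h1
  linarith only [h1]

theorem Rc_pos_chartG (hK : IsKahler E M) {e : OpenPartialHomeomorph M E}
    (he : e ∈ maximalAtlas 𝓘(ℂ, E) 1 M) {z : E} (hz : z ∈ e.target)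
    (hnn : PosBisectionalAt E (e.symm z)) (X a : E) (hX : X ≠ 0) (ha : a ≠ 0) :
    0 < Rc (chartG e) z X a := by
  have he' := mem_maximalAtlas_real he
  obtain ⟨Γ, hΓ, hb⟩ := hnn e he (e.map_target hz)
  rw [e.right_inv hz] at hΓ hb
  have h1 := hb a X ha hX
  rw [sectNum_eq he' hz hΓ, sectNum_eq he' hz hΓ, (localKahler_chartG hK he).secG_add hz] at h1
  linarith only [h1]

end Vale.Agent.P253.Mfd
end
end
end

section

section

open scoped Manifold ContDiff Topology Bundle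
open Set Metric Complex Filter Bundle IsManifold Asymptotics

set_option maxSynthPendingDepth 3
set_option linter.unusedSectionVars false

noncomputable section

namespace Vale.Agent.P253.Mfd

variable {E : Type*} [NormedAddCommGroup E] [NormedSpace ℂ E] [FiniteDimensional ℂ E]

theorem isSmall_iff {ξ : ℝ → Fin 4 → E} : IsSmall ξ ↔
    (∀ k, (fun r => ξ r k) =O[𝓝[>] (0:ℝ)] (fun r => r ^ 2)) ∧
      (fun r => ∑ k, ξ r k) =o[𝓝[>] (0:ℝ)] (fun r => r ^ 2) := by
  have hsq : ∀ r : ℝ, ‖r ^ 2‖ = r ^ 2 := fun r => Real.norm_of_nonneg (by positivity)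
  constructor
  · rintro ⟨⟨C, hC⟩, hs⟩
    refine ⟨fun k => IsBigO.of_bound C ?_, isLittleO_iff.2 fun τ hτ => ?_⟩
    · filter_upwards [hC] with r hr
      rw [hsq]; exact hr k
    · filter_upwards [hs τ hτ] with r hr
      rw [hsq]; exact hr
  · rintro ⟨h1, h2⟩
    constructor
    · choose C hC using fun k => (h1 k).bound
      refine ⟨∑ k, |C k|, ?_⟩
      have := eventually_all.2 hC
      filter_upwards [this] with r hr k
      have h3 := hr k
      rw [hsq] at h3
      refine h3.trans ?_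
      gcongr
      exact (le_abs_self _).trans (Finset.single_le_sum (f := fun k => |C k|)
        (fun _ _ => abs_nonneg _) (Finset.mem_univ k))
    · intro τ hτ
      filter_upwards [isLittleO_iff.1 h2 hτ] with r hr
      rw [hsq] at hr; exact hr

theorem isSmall_zero : IsSmall (fun _ _ => (0 : E)) := by
  rw [isSmall_iff]
  constructor
  · intro k; exact isBigO_zero _ _
  · simp only [Finset.sum_const_zero]; exact isLittleO_zero _ _

theorem IsSmall.congr {ξ ξ' : ℝ → Fin 4 → E} (h : IsSmall ξ)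
    (h' : ∀ᶠ r in 𝓝[>] (0:ℝ), ∀ k, ξ r k = ξ' r k) : IsSmall ξ' := by
  obtain ⟨⟨C, hC⟩, hs⟩ := h
  refine ⟨⟨C, ?_⟩, fun τ hτ => ?_⟩
  · filter_upwards [hC, h'] with r h1 h2 k
    rw [← h2]; exact h1 k
  · filter_upwards [hs τ hτ, h'] with r h1 h2
    rw [← Finset.sum_congr rfl (fun k _ => h2 k)]; exact h1

/-- holomorphic maps preserve harmonic four point families -/
theorem isSmall_map {F : Type*} [NormedAddCommGroup F] [NormedSpace ℂ F] [FiniteDimensional ℂ F]
    {V : Set F} (hV : IsOpen V) {τ : F → E} (hτ : DifferentiableOn ℂ τ V) {z : F}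
    (hz : z ∈ V) (Y : F) {ξ : ℝ → Fin 4 → F} (hξ : IsSmall ξ) :
    IsSmall (fun r k => τ (z + (r • (I ^ (k:ℕ) • Y) + ξ r k)) - τ z
      - r • (I ^ (k:ℕ) • fderiv ℝ τ z Y)) := by
  obtain ⟨hO, ho⟩ := isSmall_iff.1 hξ
  have hτs : ContDiffOn ℂ ∞ τ V := contDiffOn_of_differentiableOn_complex hV hτ
  have hτr : ContDiffOn ℝ ∞ τ V := hτs.restrict_scalars ℝ
  set T := fderiv ℝ τ z with hT
  set Q := fderiv ℝ (fderiv ℝ τ) z with hQ
  -- Taylor
  have htay : (fun h : F => τ (z + h) - τ z - T h - (2⁻¹ : ℝ) • Q h h) =o[𝓝 0]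
      (fun h => ‖h‖ ^ 2) := by
    rw [isLittleO_iff]
    intro c hc
    obtain ⟨δ, hδ, H⟩ := uniform_taylor_vec hV (isCompact_singleton (x := z))
      (singleton_subset_iff.2 hz)
      (hτr.of_le (by simpa using! (WithTop.coe_le_coe.2 le_top : ((2 : ℕ∞) : WithTop ℕ∞) ≤ ((⊤ : ℕ∞) : WithTop ℕ∞)))) hc
    filter_upwards [closedBall_mem_nhds (0:F) hδ] with h hh
    have := (H z rfl h (by simpa using hh)).2
    rwa [Real.norm_of_nonneg (by positivity)]
  set h : Fin 4 → ℝ → F := fun k r => r • (I ^ (k:ℕ) • Y) + ξ r k with hh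
  have hid : (fun r : ℝ => r) =o[𝓝[>] (0:ℝ)] (fun _ => (1:ℝ)) := by
    rw [isLittleO_one_iff]
    exact tendsto_id.mono_left nhdsWithin_le_nhds
  have hr2 : (fun r : ℝ => r ^ 2) =O[𝓝[>] (0:ℝ)] (fun r => r) := by
    have := (isBigO_refl (fun r : ℝ => r) (𝓝[>] (0:ℝ))).mul hid.isBigO
    simpa [sq] using this
  have hr3 : (fun r : ℝ => r * r ^ 2) =o[𝓝[>] (0:ℝ)] (fun r => r ^ 2) := by
    have := hid.mul_isBigO (isBigO_refl (fun r : ℝ => r ^ 2) (𝓝[>] (0:ℝ)))
    simpa using this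
  have hlin : ∀ k : Fin 4, (fun r : ℝ => r • (I ^ (k:ℕ) • Y)) =O[𝓝[>] (0:ℝ)] (fun r => r) := by
    intro k
    refine IsBigO.of_bound ‖Y‖ (Eventually.of_forall fun r => ?_)
    rw [norm_smul, LocalKahler.norm_I_pow_smul, mul_comm]
  have hhO : ∀ k, h k =O[𝓝[>] (0:ℝ)] (fun r => r) := fun k =>
    (hlin k).add ((hO k).trans hr2)
  have hht : ∀ k, Tendsto (h k) (𝓝[>] (0:ℝ)) (𝓝 0) := by
    intro k
    rw [← isLittleO_one_iff ℝ]
    exact (hhO k).trans_isLittleO hid
  have hrem : ∀ k, (fun r => τ (z + h k r) - τ z - T (h k r) - (2⁻¹ : ℝ) • Q (h k r) (h k r))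
      =o[𝓝[>] (0:ℝ)] (fun r => r ^ 2) := by
    intro k
    have h1 := htay.comp_tendsto (hht k)
    refine h1.trans_isBigO ?_
    have := ((hhO k).norm_left).pow 2
    exact this
  have hBil : ∀ (u v : ℝ → F) (f g : ℝ → ℝ), u =O[𝓝[>] (0:ℝ)] f → v =O[𝓝[>] (0:ℝ)] g →
      (fun r => Q (u r) (v r)) =O[𝓝[>] (0:ℝ)] (fun r => f r * g r) := by
    intro u v f g hu hv
    have h1 : (fun r => Q (u r) (v r)) =O[𝓝[>] (0:ℝ)] (fun r => ‖u r‖ * ‖v r‖) := by
      refine IsBigO.of_bound ‖Q‖ (Eventually.of_forall fun r => ?_)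
      rw [Real.norm_of_nonneg (by positivity), ← mul_assoc]
      exact Q.le_opNorm₂ _ _
    exact h1.trans (hu.norm_left.mul hv.norm_left)
  have hQh : ∀ k, (fun r => Q (h k r) (h k r)) =O[𝓝[>] (0:ℝ)] (fun r => r ^ 2) := by
    intro k
    have := hBil _ _ _ _ (hhO k) (hhO k)
    simpa [sq] using this
  have hTI : ∀ (k : ℕ) (v : F), T (I ^ k • v) = I ^ k • T v := by
    intro k v
    induction k with
    | zero => simp
    | succ k ih => rw [pow_succ', mul_smul, fderiv_real_smul_I hV hτ hz, ih, mul_smul]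
  -- error decomposition
  have hdec : ∀ (k : Fin 4) (r : ℝ), τ (z + (r • (I ^ (k:ℕ) • Y) + ξ r k)) - τ z - r • (I ^ (k:ℕ) • T Y)
      = T (ξ r k) + (2⁻¹ : ℝ) • Q (h k r) (h k r)
        + (τ (z + h k r) - τ z - T (h k r) - (2⁻¹ : ℝ) • Q (h k r) (h k r)) := by
    intro k r
    have : T (h k r) = r • (I ^ (k:ℕ) • T Y) + T (ξ r k) := by
      simp only [hh, map_add, map_smul, hTI]
    rw [this]
    simp only [hh]
    abel
  rw [isSmall_iff]
  constructor
  · intro k
    simp only [hdec]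
    refine (IsBigO.add ?_ ((hQh k).const_smul_left (2⁻¹:ℝ))).add (hrem k).isBigO
    exact (T.isBigO_comp _ _).trans (hO k)
  · simp only [hdec]
    simp only [Finset.sum_add_distrib]
    refine (IsLittleO.add ?_ ?_).add (IsLittleO.fun_sum fun k _ => hrem k)
    · simp only [← map_sum]
      exact (T.isBigO_comp _ _).trans_isLittleO ho
    · simp only [← Finset.smul_sum]
      refine IsLittleO.const_smul_left ?_ _
      -- quadratic part cancels
      have hcancel : ∀ r : ℝ, ∑ k : Fin 4, Q (r • (I ^ (k:ℕ) • Y)) (r • (I ^ (k:ℕ) • Y)) = 0 := by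
        intro r
        have hQI : ∀ u v : F, Q (I • u) v = I • Q u v := fun u v =>
          fderiv2_real_smul_I hV hτs hz u v
        have hsym : IsSymmSndFDerivAt ℝ τ z :=
          (hτr.contDiffAt (hV.mem_nhds hz)).isSymmSndFDerivAt
            (by simpa using! (WithTop.coe_le_coe.2 le_top : ((2 : ℕ∞) : WithTop ℕ∞) ≤ ((⊤ : ℕ∞) : WithTop ℕ∞)))
        have hQI' : ∀ u v : F, Q u (I • v) = I • Q u v := by
          intro u v
          have e1 : Q u (I • v) = Q (I • v) u := hsym.eq u (I • v)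
          have e2 : Q u v = Q v u := hsym.eq u v
          rw [e1, e2, hQI]
        rw [Fin.sum_univ_four]
        have h3 : (I : ℂ) ^ 3 = -I := by rw [pow_succ, I_sq]; ring
        simp only [Fin.val_zero, Fin.val_one, Fin.val_two, pow_zero, pow_one, I_sq,
          show ((3 : Fin 4) : ℕ) = 3 from rfl, h3, neg_smul, one_smul, map_smul, map_neg,
          smul_apply, neg_apply, neg_neg, smul_neg, hQI, hQI']
        rw [smul_smul I I, I_mul_I, neg_one_smul]
        simp only [smul_neg]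
        abel
      have hrw : (fun r => ∑ k, Q (h k r) (h k r)) = fun r => ∑ k : Fin 4,
          (Q (r • (I ^ (k:ℕ) • Y)) (ξ r k) + (Q (ξ r k) (r • (I ^ (k:ℕ) • Y))
            + Q (ξ r k) (ξ r k))) := by
        funext r
        have : ∑ k, Q (h k r) (h k r) = ∑ k : Fin 4, (Q (r • (I ^ (k:ℕ) • Y)) (r • (I ^ (k:ℕ) • Y))
          + (Q (r • (I ^ (k:ℕ) • Y)) (ξ r k) + (Q (ξ r k) (r • (I ^ (k:ℕ) • Y))
            + Q (ξ r k) (ξ r k)))) := by
          apply Finset.sum_congr rfl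
          intro k _
          simp only [hh, map_add, add_apply]
          abel
        rw [this, Finset.sum_add_distrib, hcancel, zero_add]
      rw [hrw]
      refine IsLittleO.fun_sum fun k _ => ?_
      refine IsLittleO.add ?_ (IsLittleO.add ?_ ?_)
      · exact (hBil _ _ _ _ (hlin k) (hO k)).trans_isLittleO hr3
      · have := hBil _ _ _ _ (hO k) (hlin k)
        refine this.trans_isLittleO ?_
        simpa [mul_comm] using hr3
      · have := hBil _ _ _ _ (hO k) ((hO k).trans hr2)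
        refine this.trans_isLittleO ?_
        simpa [mul_comm] using hr3

variable {M : Type*} [MetricSpace M] [ChartedSpace E M]

/-- a harmonic four point family at `x` with velocity `Y` in the chart `e` -/
def Harm (e : OpenPartialHomeomorph M E) (x : M) (Y : E) (a : ℝ → Fin 4 → M) : Prop :=
  (∀ᶠ r in 𝓝[>] (0:ℝ), ∀ k, a r k ∈ e.source) ∧
  IsSmall (fun r k => e (a r k) - e x - r • (I ^ (k:ℕ) • Y))

theorem Harm.tendsto {e : OpenPartialHomeomorph M E} {x : M} {Y : E} {a : ℝ → Fin 4 → M}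
    (hx : x ∈ e.source) (h : Harm e x Y a) (k : Fin 4) :
    Tendsto (fun r => a r k) (𝓝[>] (0:ℝ)) (𝓝 x) := by
  obtain ⟨h1, h2⟩ := h
  obtain ⟨hO, -⟩ := isSmall_iff.1 h2
  have hid : (fun r : ℝ => r) =o[𝓝[>] (0:ℝ)] (fun _ => (1:ℝ)) := by
    rw [isLittleO_one_iff]
    exact tendsto_id.mono_left nhdsWithin_le_nhds
  have hid2 : (fun r : ℝ => r ^ 2) =o[𝓝[>] (0:ℝ)] (fun _ => (1:ℝ)) := by
    have := hid.mul hid
    simpa [sq] using this
  have hlin : (fun r : ℝ => r • (I ^ (k:ℕ) • Y)) =O[𝓝[>] (0:ℝ)] (fun r => r) := by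
    refine IsBigO.of_bound ‖Y‖ (Eventually.of_forall fun r => ?_)
    rw [norm_smul, LocalKahler.norm_I_pow_smul, mul_comm]
  have h3 : Tendsto (fun r => e (a r k) - e x - r • (I ^ (k:ℕ) • Y)) (𝓝[>] (0:ℝ)) (𝓝 0) := by
    rw [← isLittleO_one_iff ℝ]
    exact (hO k).trans_isLittleO hid2
  have h4 : Tendsto (fun r : ℝ => r • (I ^ (k:ℕ) • Y)) (𝓝[>] (0:ℝ)) (𝓝 0) := by
    rw [← isLittleO_one_iff ℝ]
    exact hlin.trans_isLittleO hid
  have h5 : Tendsto (fun r => e (a r k)) (𝓝[>] (0:ℝ)) (𝓝 (e x)) := by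
    have := (h3.add h4).add (tendsto_const_nhds (x := e x))
    simpa using this
  have h6 : Tendsto (fun r => e.symm (e (a r k))) (𝓝[>] (0:ℝ)) (𝓝 x) := by
    have h7 := (e.continuousAt_symm (e.map_source hx)).tendsto.comp h5
    rwa [e.left_inv hx] at h7
  refine h6.congr' ?_
  filter_upwards [h1] with r hr
  exact e.left_inv (hr k)

theorem Harm.change [IsManifold 𝓘(ℂ, E) 1 M] {e e' : OpenPartialHomeomorph M E}
    (he : e ∈ maximalAtlas 𝓘(ℂ, E) 1 M) (he' : e' ∈ maximalAtlas 𝓘(ℂ, E) 1 M) {x : M}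
    (hx : x ∈ e.source) (hx' : x ∈ e'.source) {Y : E} {a : ℝ → Fin 4 → M} (h : Harm e x Y a) :
    Harm e' x (fderiv ℝ (e' ∘ e.symm) (e x) Y) a := by
  have ht := fun k => h.tendsto hx k
  have hV : IsOpen (e.symm ≫ₕ e').source := (e.symm ≫ₕ e').open_source
  have hzV : e x ∈ (e.symm ≫ₕ e').source := by
    simp [OpenPartialHomeomorph.trans_source, hx, hx']
  have hτ : DifferentiableOn ℂ (e' ∘ e.symm) (e.symm ≫ₕ e').source := by
    exact (transition_complex he he').differentiableOn (by simp)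
  obtain ⟨h1, h2⟩ := h
  refine ⟨?_, ?_⟩
  · apply eventually_all.2
    intro k
    exact (ht k).eventually (e'.open_source.mem_nhds hx')
  · have h3 := isSmall_map hV hτ hzV Y h2
    refine h3.congr ?_
    filter_upwards [h1] with r hr k
    have e1 : e x + (r • (I ^ (k:ℕ) • Y) + (e (a r k) - e x - r • (I ^ (k:ℕ) • Y))) = e (a r k) := by
      abel
    rw [e1]
    simp only [Function.comp_apply]
    rw [e.left_inv (hr k), e.left_inv hx]

end Vale.Agent.P253.Mfd
end
end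
end

section

section

open scoped Manifold ContDiff Topology Bundle ENNReal
open Set Metric Complex Filter Bundle IsManifold Manifold MeasureTheory

set_option maxSynthPendingDepth 3
set_option linter.unusedSectionVars false

noncomputable section

namespace Vale.Agent.P253.Mfd

variable {E : Type*} [NormedAddCommGroup E] [NormedSpace ℂ E] [FiniteDimensional ℂ E]
  {M : Type*} [MetricSpace M] [ChartedSpace E M]
  [IsManifold 𝓘(ℂ, E) 1 M] [IsManifold 𝓘(ℝ, E) ∞ M]
  [RiemannianBundle (fun x : M => TangentSpace 𝓘(ℝ, E) x)]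
  [IsContMDiffRiemannianBundle 𝓘(ℝ, E) ∞ E (fun x : M => TangentSpace 𝓘(ℝ, E) x)]
  [IsRiemannianManifold 𝓘(ℝ, E) M]

theorem IsHolIsomFlow.contMDiff {ρ : ℝ → M → M} (hρ : IsHolIsomFlow E ρ) (t : ℝ) :
    ContMDiff 𝓘(ℝ, E) 𝓘(ℝ, E) ∞ (ρ t) := by
  have h1 : ContMDiff 𝓘(ℝ, E) (𝓘(ℝ, ℝ).prod 𝓘(ℝ, E)) ∞ (fun x : M => (t, x)) :=
    contMDiff_const.prodMk contMDiff_id
  exact hρ.smooth.comp h1

theorem IsHolIsomFlow.dist_le {ρ : ℝ → M → M} (hρ : IsHolIsomFlow E ρ) (t : ℝ)
    (x y : M) : dist (ρ t x) (ρ t y) ≤ dist x y := by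
  have key : edist (ρ t x) (ρ t y) ≤ edist x y := by
    rw [IsRiemannianManifold.out (I := 𝓘(ℝ, E)) (ρ t x) (ρ t y),
      IsRiemannianManifold.out (I := 𝓘(ℝ, E)) x y]
    apply le_of_forall_gt
    intro r hr
    obtain ⟨γ, hγ0, hγ1, hγ, hlen⟩ := exists_lt_of_riemannianEDist_lt hr
    have hcomp : ContMDiffOn 𝓘(ℝ, ℝ) 𝓘(ℝ, E) 1 (ρ t ∘ γ) (Icc 0 1) :=
      ((hρ.contMDiff t).of_le (by simp)).comp_contMDiffOn hγ
    have h1 := riemannianEDist_le_pathELength (I := 𝓘(ℝ, E)) hcomp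
      (by simp [hγ0] : (ρ t ∘ γ) 0 = ρ t x) (by simp [hγ1] : (ρ t ∘ γ) 1 = ρ t y) zero_le_one
    refine h1.trans_lt (lt_of_le_of_lt (le_of_eq ?_) hlen)
    rw [pathELength_eq_lintegral_mfderivWithin_Icc, pathELength_eq_lintegral_mfderivWithin_Icc]
    apply setLIntegral_congr_fun measurableSet_Icc
    intro s hs
    have hud : UniqueMDiffWithinAt 𝓘(ℝ, ℝ) (Icc (0:ℝ) 1) s := by
      rw [uniqueMDiffWithinAt_iff_uniqueDiffWithinAt]
      exact uniqueDiffOn_Icc one_pos s hs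
    have h2 : mfderivWithin 𝓘(ℝ, ℝ) 𝓘(ℝ, E) (ρ t ∘ γ) (Icc 0 1) s =
        (mfderiv 𝓘(ℝ, E) 𝓘(ℝ, E) (ρ t) (γ s)).comp
          (mfderivWithin 𝓘(ℝ, ℝ) 𝓘(ℝ, E) γ (Icc 0 1) s) :=
      mfderiv_comp_mfderivWithin s
        (((hρ.contMDiff t) (γ s)).mdifferentiableAt (by simp))
        ((hγ s hs).mdifferentiableWithinAt (by simp)) hud
    have h3 : mfderivWithin 𝓘(ℝ, ℝ) 𝓘(ℝ, E) (ρ t ∘ γ) (Icc 0 1) s 1 =
        mfderiv 𝓘(ℝ, E) 𝓘(ℝ, E) (ρ t) (γ s) (mfderivWithin 𝓘(ℝ, ℝ) 𝓘(ℝ, E) γ (Icc 0 1) s 1) :=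
      congr($h2 1)
    simp only
    rw [h3]
    set v := mfderivWithin 𝓘(ℝ, ℝ) 𝓘(ℝ, E) γ (Icc 0 1) s 1 with hv
    have h4 : ‖mfderiv 𝓘(ℝ, E) 𝓘(ℝ, E) (ρ t) (γ s) v‖ = ‖v‖ := by
      rw [norm_eq_sqrt_real_inner, norm_eq_sqrt_real_inner, hρ.isom t (γ s) v v]
    rw [← ofReal_norm, ← ofReal_norm]
    exact congrArg ENNReal.ofReal h4
  rw [edist_dist, edist_dist] at key
  exact (ENNReal.ofReal_le_ofReal_iff dist_nonneg).1 key

theorem IsHolIsomFlow.dist_eq {ρ : ℝ → M → M} (hρ : IsHolIsomFlow E ρ) (t : ℝ)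
    (x y : M) : dist (ρ t x) (ρ t y) = dist x y := by
  refine le_antisymm (hρ.dist_le t x y) ?_
  have h1 := hρ.dist_le (-t) (ρ t x) (ρ t y)
  rwa [← hρ.add, ← hρ.add, neg_add_cancel, hρ.zero, hρ.zero] at h1

end Vale.Agent.P253.Mfd
end
end
end
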