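import Vale.Agent.P253.MathlibUsed
import Vale.Agent.P253.Bdl.B1

set_option linter.all false

section

section

open scoped ContDiff Topology
open Set Metric

namespace Vale.Agent.P253.Mfd

/-- approximate midpoints (length space) -/
def ApproxMid (X : Type*) [MetricSpace X] : Prop :=
  ∀ x y : X, ∀ s : ℝ, 0 ≤ s → s ≤ dist x y → ∀ ε > 0, ∃ z : X, dist x z = s ∧
    dist z y ≤ dist x y - s + ε

section

variable {X : Type*} [MetricSpace X]

/-- enlarging a compact ball -/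
lemma hr_enlarge [LocallyCompactSpace X] (h : ApproxMid X) (x : X) {r : ℝ} (hr : 0 ≤ r)
    (hc : IsCompact (closedBall x r)) : ∃ r' > r, IsCompact (closedBall x r') := by
  obtain ⟨K, hK, hKi⟩ := exists_compact_superset hc
  obtain ⟨δ, hδ, hδ'⟩ := hc.exists_cthickening_subset_open isOpen_interior hKi
  refine ⟨r + δ / 2, by linarith only [hδ], ?_⟩
  refine hK.of_isClosed_subset isClosed_closedBall ?_
  intro z hz
  refine interior_subset (hδ' ?_)
  rw [mem_closedBall, dist_comm] at hz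
  rcases le_total (dist x z) r with h1 | h1
  · exact self_subset_cthickening _ (by rwa [mem_closedBall, dist_comm])
  · obtain ⟨w, hw1, hw2⟩ := h x z r hr h1 (δ / 2) (by positivity)
    have hw : w ∈ closedBall x r := by rw [mem_closedBall, dist_comm, hw1]
    refine mem_cthickening_of_dist_le z w δ _ hw ?_
    rw [dist_comm]
    linarith only [hz, hw2]

/-- limits of compact balls -/
lemma hr_limit [CompleteSpace X] (h : ApproxMid X) (x : X) {r : ℝ} (hr : 0 < r)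
    (hc : ∀ r' < r, IsCompact (closedBall x r')) : IsCompact (closedBall x r) := by
  refine isCompact_iff_totallyBounded_isComplete.2 ⟨?_, isClosed_closedBall.isComplete⟩
  rw [Metric.totallyBounded_iff]
  intro ε hε
  set r' : ℝ := max (r - ε / 4) 0 with hr'
  have hr'r : r' < r := max_lt (by linarith only [hε]) hr
  have hr'0 : 0 ≤ r' := le_max_right _ _
  have hr'1 : r - ε / 4 ≤ r' := le_max_left _ _
  obtain ⟨t, ht, htc⟩ := Metric.totallyBounded_iff.1 (hc r' hr'r).totallyBounded (ε / 2)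
    (by positivity)
  refine ⟨t, ht, ?_⟩
  intro z hz
  rw [mem_closedBall, dist_comm] at hz
  obtain ⟨w, hw, hwz⟩ : ∃ w ∈ closedBall x r', dist w z < ε / 2 := by
    rcases le_total (dist x z) r' with h1 | h1
    · exact ⟨z, by rwa [mem_closedBall, dist_comm], by rw [dist_self]; positivity⟩
    · obtain ⟨w, hw1, hw2⟩ := h x z r' hr'0 h1 (ε / 8) (by positivity)
      exact ⟨w, by rw [mem_closedBall, dist_comm, hw1], by linarith only [hr'r, hr'1, hz, hw2]⟩
  obtain ⟨y, hy, hwy⟩ := mem_iUnion₂.1 (htc hw)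
  refine mem_iUnion₂.2 ⟨y, hy, ?_⟩
  rw [mem_ball] at hwy ⊢
  have := dist_triangle z w y
  rw [dist_comm z w] at this
  linarith only [hwz, hwy, this]

lemma hr_all [CompleteSpace X] [LocallyCompactSpace X] (h : ApproxMid X) (x : X) (r : ℝ) :
    IsCompact (closedBall x r) := by
  by_contra hcon
  set S : Set ℝ := {r | 0 ≤ r ∧ IsCompact (closedBall x r)} with hS
  have h0 : (0:ℝ) ∈ S := ⟨le_rfl, by simp⟩
  have hdown : ∀ r₁ r₂, r₁ ≤ r₂ → IsCompact (closedBall x r₂) → IsCompact (closedBall x r₁) :=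
    fun r₁ r₂ h12 hc => hc.of_isClosed_subset isClosed_closedBall (closedBall_subset_closedBall h12)
  have hbdd : BddAbove S := by
    refine ⟨r, fun s hs => ?_⟩
    by_contra hlt
    exact hcon (hdown r s (not_le.1 hlt).le hs.2)
  set R : ℝ := sSup S with hR
  have hR0 : 0 ≤ R := le_csSup hbdd h0
  have hlt : ∀ r' < R, IsCompact (closedBall x r') := by
    intro r' hr'
    obtain ⟨s, hs, hs'⟩ := exists_lt_of_lt_csSup ⟨0, h0⟩ hr'
    exact hdown r' s hs'.le hs.2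
  have hRS : IsCompact (closedBall x R) := by
    rcases hR0.eq_or_lt with h1 | h1
    · rw [← h1]; exact h0.2
    · exact hr_limit h x h1 hlt
  obtain ⟨r', hr', hc'⟩ := hr_enlarge h x hR0 hRS
  have : r' ≤ R := le_csSup hbdd ⟨hR0.trans hr'.le, hc'⟩
  linarith only [hr', this]

end

/-- Hopf-Rinow-Cohn-Vossen -/
theorem properSpace_of_complete_of_approxMid {X : Type*} [MetricSpace X] [CompleteSpace X]
    [LocallyCompactSpace X] (h : ApproxMid X) : ProperSpace X :=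
  ⟨fun x r => hr_all h x r⟩

theorem exists_mid {X : Type*} [MetricSpace X] [ProperSpace X] (h : ApproxMid X) (x y : X)
    (s : ℝ) (hs : 0 ≤ s) (hsd : s ≤ dist x y) :
    ∃ z : X, dist x z = s ∧ dist z y = dist x y - s := by
  have hcomp : IsCompact (sphere x s) := isCompact_sphere x s
  obtain ⟨z₀, hz₀, -⟩ := h x y s hs hsd 1 one_pos
  obtain ⟨z, hz, hmin⟩ := hcomp.exists_isMinOn (f := fun z => dist z y)
    ⟨z₀, by rw [mem_sphere, dist_comm, hz₀]⟩ (by fun_prop)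
  rw [mem_sphere, dist_comm] at hz
  refine ⟨z, hz, le_antisymm ?_ ?_⟩
  · refine le_of_forall_pos_le_add fun ε hε => ?_
    obtain ⟨w, hw1, hw2⟩ := h x y s hs hsd ε hε
    exact (hmin (by rw [mem_sphere, dist_comm, hw1] : w ∈ sphere x s)).trans hw2
  · have := dist_triangle x z y
    linarith only [hz, this]

end Vale.Agent.P253.Mfd
end
end

section

section

open scoped ContDiff Topology NNReal
open Set Metric

namespace Vale.Agent.P253.Mfd

section

variable {E : Type*} [NormedAddCommGroup E] [NormedSpace ℂ E] [FiniteDimensional ℂ E]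

/-- Picard-Lindelöf for a holomorphic field on a closed ball, forward in time. -/
lemma exists_fwd {U : Set E} (hU : IsOpen U) {v : E → E} (hv : DifferentiableOn ℂ v U)
    {x₀ : E} {R K M ε : ℝ} (hR : 0 < R) (hRU : closedBall x₀ R ⊆ U) (hε : 0 < ε)
    (hK : ∀ y ∈ closedBall x₀ R, ‖fderiv ℂ v y‖ ≤ K) (hM : ∀ y ∈ closedBall x₀ R, ‖v y‖ ≤ M)
    (hMε : (M + 1) * ε ≤ R / 2) :
    ∃ Y : E → ℝ → E, (∀ x ∈ closedBall x₀ (R/2), Y x 0 = x ∧
        ∀ t ∈ Icc 0 ε, HasDerivWithinAt (Y x) (v (Y x t)) (Icc 0 ε) t) ∧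
      ∃ L' : ℝ≥0, ∀ t ∈ Icc 0 ε, LipschitzOnWith L' (Y · t) (closedBall x₀ (R/2)) := by
  have : CompleteSpace E := FiniteDimensional.complete ℂ E
  have hx₀ : x₀ ∈ closedBall x₀ R := mem_closedBall_self hR.le
  have hM0 : 0 ≤ M := (norm_nonneg _).trans (hM x₀ hx₀)
  have hK0 : 0 ≤ K := (norm_nonneg _).trans (hK x₀ hx₀)
  obtain ⟨M', rfl⟩ : ∃ M' : ℝ≥0, (M' : ℝ) = M := ⟨M.toNNReal, Real.coe_toNNReal M hM0⟩
  obtain ⟨K', rfl⟩ : ∃ K' : ℝ≥0, (K' : ℝ) = K := ⟨K.toNNReal, Real.coe_toNNReal K hK0⟩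
  obtain ⟨R', rfl⟩ : ∃ R' : ℝ≥0, (R' : ℝ) = R := ⟨R.toNNReal, Real.coe_toNNReal R hR.le⟩
  have hpl : IsPicardLindelof (fun _ y => v y) (tmin := 0) (tmax := ε)
      ⟨0, ⟨le_rfl, hε.le⟩⟩ x₀ R' (R'/2) M' K' := by
    refine ⟨fun t _ => ?_, fun y _ => continuousOn_const, fun t _ y hy => hM y hy, ?_⟩
    · refine (convex_closedBall x₀ (R' : ℝ)).lipschitzOnWith_of_nnnorm_fderiv_le (𝕜 := ℂ)
        (fun y hy => hv.differentiableAt (hU.mem_nhds (hRU hy))) fun y hy => ?_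
      exact_mod_cast hK y hy
    · simp only [sub_zero, sub_self]
      rw [max_eq_left hε.le]
      push_cast
      nlinarith only [hε, hMε]
  have h := hpl.exists_forall_mem_closedBall_eq_hasDerivWithinAt_lipschitzOnWith
  simpa using h

omit [FiniteDimensional ℂ E] in
/-- stays in the ball -/
lemma fwd_mem {v : E → E} {x₀ : E} {R M ε : ℝ}
    (hM : ∀ y ∈ closedBall x₀ R, ‖v y‖ ≤ M)
    (hMε : (M + 1) * ε ≤ R / 2) (hM0 : 0 ≤ M) {y : ℝ → E}
    (hy0 : y 0 ∈ closedBall x₀ (R/2))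
    (hy : ∀ t ∈ Icc 0 ε, HasDerivWithinAt y (v (y t)) (Icc 0 ε) t) :
    ∀ t ∈ Icc 0 ε, y t ∈ closedBall x₀ R := by
  intro t ht
  have key : ∀ ⦃t⦄, t ∈ Icc 0 ε → ‖y t - x₀‖ ≤ R / 2 + (M + 1) * t := by
    refine image_norm_le_of_norm_deriv_right_lt_deriv_boundary' (f := fun t => y t - x₀)
      (f' := fun t => v (y t)) (B := fun t => R / 2 + (M + 1) * t) (B' := fun _ => M + 1)
      ?_ ?_ ?_ ?_ ?_ ?_
    · exact (HasDerivWithinAt.continuousOn hy).sub continuousOn_const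
    · intro s hs
      refine ((hy s ⟨hs.1, hs.2.le⟩).sub_const x₀).mono_of_mem_nhdsWithin ?_
      exact Icc_mem_nhdsGE_of_mem hs
    · simpa [mem_closedBall, dist_eq_norm] using hy0
    · fun_prop
    · intro s _
      have := (((hasDerivAt_id s).const_mul (M + 1)).const_add (R/2)).hasDerivWithinAt (s := Ici s)
      simpa using this
    · intro s hs hs'
      refine (hM _ ?_).trans_lt (by linarith only [])
      rw [mem_closedBall, dist_eq_norm, hs']
      nlinarith only [hMε, hM0, hs, hs.1, hs.2]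
  rw [mem_closedBall, dist_eq_norm]
  refine (key ht).trans ?_
  nlinarith only [hMε, hM0, ht, ht.1, ht.2]

/-- The first variation: complex differentiability in the initial point. -/
lemma fwd_diff {U : Set E} (hU : IsOpen U) {v : E → E} (hv : DifferentiableOn ℂ v U)
    {x₀ : E} {R K ε : ℝ} (hRU : closedBall x₀ R ⊆ U)
    (hK : ∀ y ∈ closedBall x₀ R, ‖fderiv ℂ v y‖ ≤ K) {Y : E → ℝ → E}
    (hY : ∀ x ∈ closedBall x₀ (R/2), Y x 0 = x ∧
        ∀ t ∈ Icc 0 ε, HasDerivWithinAt (Y x) (v (Y x t)) (Icc 0 ε) t)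
    (hmem : ∀ x ∈ closedBall x₀ (R/2), ∀ t ∈ Icc 0 ε, Y x t ∈ closedBall x₀ R)
    {L' : ℝ≥0} (hL' : ∀ t ∈ Icc 0 ε, LipschitzOnWith L' (Y · t) (closedBall x₀ (R/2)))
    {x : E} (hx : x ∈ ball x₀ (R/2)) {t : ℝ} (ht : t ∈ Icc 0 ε) :
    DifferentiableAt ℂ (Y · t) x := by
  have : CompleteSpace E := FiniteDimensional.complete ℂ E
  have : ProperSpace E := FiniteDimensional.proper ℂ E
  have hε : 0 ≤ ε := ht.1.trans ht.2
  have hxc : x ∈ closedBall x₀ (R/2) := ball_subset_closedBall hx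
  have hK0 : 0 ≤ K := (norm_nonneg _).trans (hK _ (hmem x hxc t ht))
  have hcY : ContinuousOn (Y x) (Icc 0 ε) := HasDerivWithinAt.continuousOn (hY x hxc).2
  have hcA : ContinuousOn (fun s => fderiv ℂ v (Y x s)) (Icc 0 ε) :=
    (fderiv_continuousOn hU hv).comp hcY fun s hs => hRU (hmem x hxc s hs)
  set Lop : ℝ → (E →L[ℂ] E) →L[ℝ] (E →L[ℂ] E) := fun s =>
    ContinuousLinearMap.restrictScalarsL ℂ (E →L[ℂ] E) (E →L[ℂ] E) ℝ ℝ
      (ContinuousLinearMap.compL ℂ E E E (fderiv ℂ v (Y x s))) with hLop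
  have hcL : ContinuousOn Lop (Icc 0 ε) :=
    (ContinuousLinearMap.restrictScalarsL ℂ (E →L[ℂ] E) (E →L[ℂ] E) ℝ ℝ).continuous.comp_continuousOn
      ((ContinuousLinearMap.compL ℂ E E E).continuous.comp_continuousOn hcA)
  obtain ⟨J, hJ0, hJ⟩ := exists_linODE hε Lop hcL (ContinuousLinearMap.id ℂ E)
  have hJ' : ∀ h : E, ∀ s ∈ Icc 0 ε, HasDerivWithinAt (fun s => J s h)
      (fderiv ℂ v (Y x s) (J s h)) (Icc 0 ε) s := by
    intro h s hs
    have h1 := hJ s hs
    have h2 : HasFDerivAt (fun A : E →L[ℂ] E => A h)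
        ((ContinuousLinearMap.apply ℂ E h).restrictScalars ℝ) (J s) :=
      ((ContinuousLinearMap.apply ℂ E h).restrictScalars ℝ).hasFDerivAt
    have h3 := h2.comp_hasDerivWithinAt s h1
    exact h3
  refine HasFDerivAt.differentiableAt (f' := J t) ?_
  rw [hasFDerivAt_iff_isLittleO_nhds_zero, Asymptotics.isLittleO_iff]
  intro c hc
  set C : ℝ := L' * Real.exp ((K + 1) * ε) / (K + 1) with hC
  have hC0 : 0 ≤ C := by positivity
  set η : ℝ := c / (C + 1) with hη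
  have hη0 : 0 < η := by positivity
  -- uniform continuity
  have huc : UniformContinuousOn (fderiv ℂ v) (closedBall x₀ R) :=
    (isCompact_closedBall x₀ R).uniformContinuousOn_of_continuous
      ((fderiv_continuousOn hU hv).mono hRU)
  obtain ⟨δ₀, hδ₀, hδ₀'⟩ := Metric.uniformContinuousOn_iff_le.1 huc η hη0
  have hnear : ∀ᶠ h : E in 𝓝 0, x + h ∈ closedBall x₀ (R/2) ∧ L' * ‖h‖ < δ₀ := by
    refine Filter.Eventually.and ?_ ?_
    · have : Filter.Tendsto (fun h : E => x + h) (𝓝 0) (𝓝 (x + 0)) :=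
        (continuous_const.add continuous_id).tendsto 0
      rw [add_zero] at this
      exact this.eventually (closedBall_mem_nhds_of_mem hx)
    · have : Filter.Tendsto (fun h : E => (L' : ℝ) * ‖h‖) (𝓝 0) (𝓝 (L' * ‖(0:E)‖)) :=
        (continuous_const.mul continuous_norm).tendsto 0
      rw [norm_zero, mul_zero] at this
      exact this.eventually (gt_mem_nhds hδ₀)
  filter_upwards [hnear] with h hh
  obtain ⟨hxh, hLh⟩ := hh
  -- the difference
  have hdist : ∀ s ∈ Icc 0 ε, ‖Y (x + h) s - Y x s‖ ≤ L' * ‖h‖ := by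
    intro s hs
    have := (hL' s hs).dist_le_mul _ hxh _ hxc
    simpa [dist_eq_norm] using this
  have hgr := norm_le_gronwallBound_of_norm_deriv_right_le
    (f := fun s => Y (x + h) s - Y x s - J s h)
    (f' := fun s => v (Y (x + h) s) - v (Y x s) - fderiv ℂ v (Y x s) (J s h))
    (δ := 0) (K := K + 1) (ε := η * (L' * ‖h‖)) (a := 0) (b := ε) ?_ ?_ ?_ ?_ t ht
  · rw [gronwallBound_of_K_ne_0 (by positivity)] at hgr
    simp only [zero_mul, zero_add, sub_zero] at hgr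
    refine hgr.trans ?_
    calc η * (L' * ‖h‖) / (K + 1) * (Real.exp ((K + 1) * t) - 1)
        ≤ η * (L' * ‖h‖) / (K + 1) * Real.exp ((K + 1) * ε) := by
          gcongr
          have : Real.exp ((K + 1) * t) ≤ Real.exp ((K + 1) * ε) := by
            gcongr
            exact ht.2
          linarith only [this]
      _ = η * C * ‖h‖ := by rw [hC]; ring
      _ ≤ c * ‖h‖ := by
          gcongr
          rw [hη, div_mul_eq_mul_div, div_le_iff₀ (by positivity)]
          nlinarith only [hc]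
  · refine ContinuousOn.sub (ContinuousOn.sub ?_ hcY) ?_
    · exact HasDerivWithinAt.continuousOn (hY _ hxh).2
    · exact HasDerivWithinAt.continuousOn (hJ' h)
  · intro s hs
    have hs' : s ∈ Icc 0 ε := ⟨hs.1, hs.2.le⟩
    refine HasDerivWithinAt.mono_of_mem_nhdsWithin
      ((((hY _ hxh).2 s hs').sub ((hY _ hxc).2 s hs')).sub (hJ' h s hs')) ?_
    exact Icc_mem_nhdsGE_of_mem hs
  · simp [(hY _ hxh).1, (hY _ hxc).1, hJ0]
  · intro s hs
    have hs' : s ∈ Icc 0 ε := ⟨hs.1, hs.2.le⟩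
    have h1 : ‖v (Y (x + h) s) - v (Y x s) - fderiv ℂ v (Y x s) (Y (x + h) s - Y x s)‖ ≤
        η * ‖Y (x + h) s - Y x s‖ := by
      refine Convex.norm_image_sub_le_of_norm_fderiv_le' (𝕜 := ℂ)
        (s := closedBall x₀ R ∩ closedBall (Y x s) δ₀) ?_ ?_ ?_ ?_ ?_
      · intro y hy
        exact hv.differentiableAt (hU.mem_nhds (hRU hy.1))
      · intro y hy
        rw [← dist_eq_norm]
        exact hδ₀' _ hy.1 _ (hmem x hxc s hs') hy.2
      · exact (convex_closedBall _ _).inter (convex_closedBall _ _)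
      · exact ⟨hmem x hxc s hs', mem_closedBall_self hδ₀.le⟩
      · refine ⟨hmem _ hxh s hs', ?_⟩
        rw [mem_closedBall, dist_eq_norm]
        exact (hdist s hs').trans hLh.le
    have h2 : v (Y (x + h) s) - v (Y x s) - fderiv ℂ v (Y x s) (J s h) =
        fderiv ℂ v (Y x s) (Y (x + h) s - Y x s - J s h) +
        (v (Y (x + h) s) - v (Y x s) - fderiv ℂ v (Y x s) (Y (x + h) s - Y x s)) := by
      rw [map_sub]
      abel
    rw [h2]
    refine (norm_add_le _ _).trans ?_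
    refine add_le_add ?_ ?_
    · refine ((fderiv ℂ v (Y x s)).le_of_opNorm_le (hK _ (hmem x hxc s hs')) _).trans ?_
      gcongr
      linarith only []
    · refine h1.trans ?_
      gcongr
      exact hdist s hs'

end

/-- Local flow of a holomorphic vector field: it is complex differentiable in the initial
point. -/
theorem exists_holoFlow {E : Type*} [NormedAddCommGroup E] [NormedSpace ℂ E]
    [FiniteDimensional ℂ E] {U : Set E} (hU : IsOpen U) {v : E → E}
    (hv : DifferentiableOn ℂ v U) {x₀ : E} (hx₀ : x₀ ∈ U) :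
    ∃ ε > (0 : ℝ), ∃ r > (0 : ℝ), ∃ Y : ℝ → E → E,
      ball x₀ r ⊆ U ∧
      (∀ x ∈ ball x₀ r, Y 0 x = x ∧
        ∀ t ∈ Ioo (-ε) ε, Y t x ∈ U ∧ HasDerivAt (fun s => Y s x) (v (Y t x)) t) ∧
      (∀ t ∈ Ioo (-ε) ε, DifferentiableOn ℂ (Y t) (ball x₀ r)) ∧
      ContinuousOn (fun p : ℝ × E => Y p.1 p.2) (Ioo (-ε) ε ×ˢ ball x₀ r) := by
  have : ProperSpace E := FiniteDimensional.proper ℂ E
  obtain ⟨R, hR, hRU⟩ := nhds_basis_closedBall.mem_iff.1 (hU.mem_nhds hx₀)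
  have hcomp : IsCompact (closedBall x₀ R) := isCompact_closedBall _ _
  obtain ⟨K, hK⟩ := hcomp.exists_bound_of_continuousOn ((fderiv_continuousOn hU hv).mono hRU)
  obtain ⟨M, hM⟩ := hcomp.exists_bound_of_continuousOn (hv.continuousOn.mono hRU)
  have hM0 : 0 ≤ M := (norm_nonneg _).trans (hM x₀ (mem_closedBall_self hR.le))
  have hv' : DifferentiableOn ℂ (fun y => -v y) U := hv.fun_neg
  have hK' : ∀ y ∈ closedBall x₀ R, ‖fderiv ℂ (fun y => -v y) y‖ ≤ K := by
    intro y hy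
    rw [fderiv_fun_neg, norm_neg]
    exact hK y hy
  have hM' : ∀ y ∈ closedBall x₀ R, ‖(fun y => -v y) y‖ ≤ M := by
    intro y hy
    simpa using hM y hy
  set ε : ℝ := R / 2 / (M + 1) with hε
  have hεpos : 0 < ε := by positivity
  have hMε : (M + 1) * ε ≤ R / 2 := by
    rw [hε]
    field_simp
    rfl
  obtain ⟨Yp, hYp, Lp, hLp⟩ := exists_fwd hU hv hR hRU hεpos hK hM hMε
  obtain ⟨Ym, hYm, Lm, hLm⟩ := exists_fwd hU hv' hR hRU hεpos hK' hM' hMε
  have hmp : ∀ x ∈ closedBall x₀ (R/2), ∀ t ∈ Icc 0 ε, Yp x t ∈ closedBall x₀ R := fun x hx =>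
    fwd_mem hM hMε hM0 (by rw [(hYp x hx).1]; exact hx) (hYp x hx).2
  have hmm : ∀ x ∈ closedBall x₀ (R/2), ∀ t ∈ Icc 0 ε, Ym x t ∈ closedBall x₀ R := fun x hx =>
    fwd_mem hM' hMε hM0 (by rw [(hYm x hx).1]; exact hx) (hYm x hx).2
  have hcp : ContinuousOn (fun p : E × ℝ => Yp p.1 p.2) (closedBall x₀ (R/2) ×ˢ Icc 0 ε) := by
    refine continuousOn_prod_of_continuousOn_lipschitzOnWith _ Lp ?_ hLp
    exact fun x hx => HasDerivWithinAt.continuousOn (hYp x hx).2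
  have hcm : ContinuousOn (fun p : E × ℝ => Ym p.1 p.2) (closedBall x₀ (R/2) ×ˢ Icc 0 ε) := by
    refine continuousOn_prod_of_continuousOn_lipschitzOnWith _ Lm ?_ hLm
    exact fun x hx => HasDerivWithinAt.continuousOn (hYm x hx).2
  have hbU : ball x₀ (R/2) ⊆ closedBall x₀ (R/2) := ball_subset_closedBall
  -- the flow
  set Y : ℝ → E → E := fun t x => Yp x (max t 0) + Ym x (max (-t) 0) - x with hYdef
  have hYpos : ∀ x ∈ closedBall x₀ (R/2), ∀ t, 0 ≤ t → Y t x = Yp x t := by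
    intro x hx t ht
    simp only [hYdef]
    rw [max_eq_left ht, max_eq_right (by linarith only [ht]), (hYm x hx).1]
    abel
  have hYneg : ∀ x ∈ closedBall x₀ (R/2), ∀ t, t ≤ 0 → Y t x = Ym x (-t) := by
    intro x hx t ht
    simp only [hYdef]
    rw [max_eq_right ht, max_eq_left (by linarith only [ht]), (hYp x hx).1]
    abel
  have hmem : ∀ x ∈ closedBall x₀ (R/2), ∀ t ∈ Icc (-ε) ε, Y t x ∈ closedBall x₀ R := by
    intro x hx t ht
    rcases le_total 0 t with h | h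
    · rw [hYpos x hx t h]
      exact hmp x hx t ⟨h, ht.2⟩
    · rw [hYneg x hx t h]
      exact hmm x hx (-t) ⟨by linarith only [h], by linarith only [ht, ht.1]⟩
  have hderiv : ∀ x ∈ closedBall x₀ (R/2), ∀ t ∈ Ioo (-ε) ε,
      HasDerivAt (fun s => Y s x) (v (Y t x)) t := by
    intro x hx t ht
    have hu : Icc (-ε) ε = Icc (-ε) 0 ∪ Icc 0 ε :=
      (Icc_union_Icc_eq_Icc (by linarith only [hεpos]) hεpos.le).symm
    refine HasDerivWithinAt.hasDerivAt (s := Icc (-ε) ε) ?_ (Icc_mem_nhds ht.1 ht.2)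
    rw [hu]
    refine HasDerivWithinAt.union ?_ ?_
    · by_cases h : t ∈ Icc (-ε) 0
      · rw [hYneg x hx t h.2]
        have h1 : HasDerivWithinAt (Ym x) (-v (Ym x (-t))) (Icc 0 ε) (-t) :=
          (hYm x hx).2 (-t) ⟨by linarith only [h, h.2], by linarith only [h, h.1]⟩
        have h2 : HasDerivWithinAt (fun s : ℝ => -s) (-1) (Icc (-ε) 0) t :=
          (hasDerivAt_neg t).hasDerivWithinAt
        have h3 := HasDerivWithinAt.scomp t h1 h2 (fun s hs => ⟨by linarith only [hs, hs.2],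
          by linarith only [hs, hs.1]⟩)
        have h4 : HasDerivWithinAt (fun s => Ym x (-s)) (v (Ym x (-t))) (Icc (-ε) 0) t := by
          refine HasDerivWithinAt.congr_deriv h3 ?_
          simp
        exact h4.congr (fun s hs => hYneg x hx s hs.2) (hYneg x hx t h.2)
      · exact hasDerivWithinAt_of_notMem_closure' (by rwa [isClosed_Icc.closure_eq])
    · by_cases h : t ∈ Icc 0 ε
      · rw [hYpos x hx t h.1]
        exact ((hYp x hx).2 t h).congr (fun s hs => hYpos x hx s hs.1) (hYpos x hx t h.1)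
      · exact hasDerivWithinAt_of_notMem_closure' (by rwa [isClosed_Icc.closure_eq])
  refine ⟨ε, hεpos, R/2, by positivity, Y, ?_, ?_, ?_, ?_⟩
  · exact (ball_subset_closedBall.trans (closedBall_subset_closedBall (by linarith only [hR]))).trans hRU
  · intro x hx
    refine ⟨by rw [hYpos x (hbU hx) 0 le_rfl, (hYp x (hbU hx)).1], fun t ht => ⟨?_, ?_⟩⟩
    · exact hRU (hmem x (hbU hx) t (Ioo_subset_Icc_self ht))
    · exact hderiv x (hbU hx) t ht
  · intro t ht x hx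
    refine DifferentiableAt.differentiableWithinAt ?_
    have h1 : DifferentiableAt ℂ (Yp · (max t 0)) x :=
      fwd_diff hU hv hRU hK hYp hmp hLp hx ⟨le_max_right _ _, max_le ht.2.le hεpos.le⟩
    have h2 : DifferentiableAt ℂ (Ym · (max (-t) 0)) x :=
      fwd_diff hU hv' hRU hK' hYm hmm hLm hx
        ⟨le_max_right _ _, max_le (by linarith only [ht, ht.1]) hεpos.le⟩
    exact (h1.fun_add h2).fun_sub differentiableAt_id
  · have h1 : ContinuousOn (fun p : ℝ × E => Yp p.2 (max p.1 0))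
        (Ioo (-ε) ε ×ˢ ball x₀ (R/2)) := by
      refine hcp.comp (f := fun p : ℝ × E => (p.2, max p.1 0)) (by fun_prop) ?_
      intro p hp
      exact ⟨hbU hp.2, le_max_right _ _, max_le hp.1.2.le hεpos.le⟩
    have h2 : ContinuousOn (fun p : ℝ × E => Ym p.2 (max (-p.1) 0))
        (Ioo (-ε) ε ×ˢ ball x₀ (R/2)) := by
      refine hcm.comp (f := fun p : ℝ × E => (p.2, max (-p.1) 0)) (by fun_prop) ?_
      intro p hp
      exact ⟨hbU hp.2, le_max_right _ _, max_le (by linarith only [hp, hp.1.1]) hεpos.le⟩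
    exact (h1.add h2).sub continuousOn_snd

end Vale.Agent.P253.Mfd
end
end

section

section

open scoped ContDiff Topology
open Set Metric Filter

namespace Vale.Agent.P253.Mfd

/-- lower second derivative bound implies convexity -/
theorem convexOn_of_second_diff {f : ℝ → ℝ} {a b m : ℝ} (hf : ContinuousOn f (Icc a b))
    (h : ∀ t ∈ Ioo a b, ∀ η > 0, ∀ᶠ r in 𝓝[>] (0 : ℝ),
      (m - η) * r ^ 2 ≤ f (t + r) + f (t - r) - 2 * f t) :
    ConvexOn ℝ (Icc a b) (fun t => f t - m * t ^ 2 / 2) := by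
  refine LinearOrder.convexOn_of_lt (convex_Icc a b) ?_
  intro x hx y hy hxy p q hp hq hpq
  by_contra hcon
  simp only [smul_eq_mul, not_le] at hcon
  set g : ℝ → ℝ := fun t => f t - m * t ^ 2 / 2 with hg
  have hxyab : Icc x y ⊆ Icc a b := Icc_subset_Icc hx.1 hy.2
  set t₀ : ℝ := p * x + q * y with ht₀
  have hd : 0 < y - x := by linarith only [hxy]
  have hp' : p = 1 - q := by linarith only [hpq]
  have ht₀x : x < t₀ := by
    have h1 : t₀ - x = q * (y - x) := by rw [ht₀, hp']; ring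
    have h2 : 0 < q * (y - x) := by positivity
    linarith only [h1, h2]
  have ht₀y : t₀ < y := by
    have h1 : y - t₀ = p * (y - x) := by
      have : q = 1 - p := by linarith only [hpq]
      rw [ht₀, this]; ring
    have h2 : 0 < p * (y - x) := by positivity
    linarith only [h1, h2]
  -- the affine chord
  set sl : ℝ := (g y - g x) / (y - x) with hsl
  have hsl' : sl * (y - x) = g y - g x := by rw [hsl]; field_simp
  have hch : g x + sl * (t₀ - x) = p * g x + q * g y := by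
    have : t₀ - x = q * (y - x) := by
      have : p = 1 - q := by linarith only [hpq]
      rw [ht₀, this]; ring
    rw [this]
    have h2 : sl * (q * (y - x)) = q * (g y - g x) := by rw [← hsl']; ring
    rw [h2]
    have : p = 1 - q := by linarith only [hpq]
    rw [this]; ring
  set D : ℝ := g t₀ - (g x + sl * (t₀ - x)) with hD
  have hDpos : 0 < D := by
    rw [hD, hch]
    have : p * g x + q * g y < g t₀ := hcon
    linarith only [this]
  have hN : 0 < (t₀ - x) * (y - t₀) := by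
    apply mul_pos <;> linarith only [ht₀x, ht₀y]
  set ε : ℝ := D / (2 * ((t₀ - x) * (y - t₀))) with hε
  have hεpos : 0 < ε := by positivity
  set k : ℝ → ℝ := fun t => g t - (g x + sl * (t - x)) + ε * ((t - x) * (t - y)) with hk
  have hkc : ContinuousOn k (Icc x y) := by
    have : ContinuousOn f (Icc x y) := hf.mono hxyab
    simp only [hk, hg]
    fun_prop
  obtain ⟨t₁, ht₁, hmax⟩ := isCompact_Icc.exists_isMaxOn ⟨x, ⟨le_rfl, hxy.le⟩⟩ hkc
  have hkx : k x = 0 := by simp [hk]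
  have hky : k y = 0 := by simp only [hk]; rw [hsl']; ring
  have hk0 : 0 < k t₀ := by
    have : k t₀ = D - ε * ((t₀ - x) * (y - t₀)) := by simp only [hk, hD]; ring
    rw [this, hε]
    have h1 : D / (2 * ((t₀ - x) * (y - t₀))) * ((t₀ - x) * (y - t₀)) = D / 2 := by
      rw [div_mul_eq_mul_div, div_eq_div_iff (by positivity) (by positivity)]
      ring
    rw [h1]
    linarith only [hDpos]
  have hk1 : 0 < k t₁ := hk0.trans_le (hmax ⟨ht₀x.le, ht₀y.le⟩)
  have ht₁x : x < t₁ := lt_of_le_of_ne ht₁.1 (fun h => by rw [← h, hkx] at hk1; exact lt_irrefl _ hk1)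
  have ht₁y : t₁ < y := lt_of_le_of_ne ht₁.2 (fun h => by rw [h, hky] at hk1; exact lt_irrefl _ hk1)
  have hev := h t₁ ⟨hx.1.trans_lt ht₁x, ht₁y.trans_le hy.2⟩ ε hεpos
  have hev2 : ∀ᶠ r in 𝓝[>] (0:ℝ), r < min (t₁ - x) (y - t₁) ∧ 0 < r := by
    refine Eventually.and ?_ self_mem_nhdsWithin
    exact mem_nhdsWithin_of_mem_nhds (Iio_mem_nhds (lt_min (by linarith only [ht₁x]) (by linarith only [ht₁y])))
  obtain ⟨r, hr, hr2, hr0⟩ := (hev.and hev2).exists
  have hr3 : r < t₁ - x := hr2.trans_le (min_le_left _ _)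
  have hr4 : r < y - t₁ := hr2.trans_le (min_le_right _ _)
  have hm1 : k (t₁ + r) ≤ k t₁ := hmax ⟨by linarith only [hr0, hr3], by linarith only [hr4]⟩
  have hm2 : k (t₁ - r) ≤ k t₁ := hmax ⟨by linarith only [hr3], by linarith only [hr0, hr4]⟩
  have hsum : k (t₁ + r) + k (t₁ - r) - 2 * k t₁ =
      (f (t₁ + r) + f (t₁ - r) - 2 * f t₁) - m * r ^ 2 + 2 * ε * r ^ 2 := by
    simp only [hk, hg]; ring
  have : 0 < ε * r ^ 2 := by positivity
  linarith only [hr, hm1, hm2, hsum, this]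

end Vale.Agent.P253.Mfd
end
end

section

section

open scoped ContDiff Topology
open Set Metric Filter MeasureTheory

set_option maxSynthPendingDepth 3
set_option linter.unusedSectionVars false

noncomputable section

namespace Vale.Agent.P253.Mfd

variable {F : Type*} [NormedAddCommGroup F] [NormedSpace ℝ F] [ProperSpace F]

/-- an ultrafilter converging to `+∞` -/
def ultraTop : Ultrafilter ℝ := Ultrafilter.of atTop

theorem ultraTop_le : (ultraTop : Filter ℝ) ≤ atTop := Ultrafilter.of_le _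

/-- the mean value of a bounded continuous function -/
def mean (g : ℝ → F) : F :=
  haveI : Nonempty F := ⟨0⟩
  lim ((ultraTop : Filter ℝ).map fun T => T⁻¹ • ∫ θ in (0:ℝ)..T, g θ)

theorem norm_average_le {g : ℝ → F} {B : ℝ} (hB : ∀ θ, ‖g θ‖ ≤ B) {T : ℝ} (hT : 0 < T) :
    ‖T⁻¹ • ∫ θ in (0:ℝ)..T, g θ‖ ≤ B := by
  rw [norm_smul, norm_inv, Real.norm_of_nonneg hT.le]
  have h1 := intervalIntegral.norm_integral_le_of_norm_le_const (a := 0) (b := T) (C := B)
    (f := g) (fun θ _ => hB θ)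
  rw [sub_zero, abs_of_pos hT] at h1
  calc _ ≤ T⁻¹ * (B * T) := by gcongr
    _ = B := by field_simp

theorem tendsto_mean {g : ℝ → F} {B : ℝ} (hB : ∀ θ, ‖g θ‖ ≤ B) :
    Tendsto (fun T => T⁻¹ • ∫ θ in (0:ℝ)..T, g θ) ultraTop (𝓝 (mean g)) := by
  have hne : Nonempty F := ⟨0⟩
  have h1 : closedBall (0:F) B ∈ (ultraTop : Filter ℝ).map
      fun T => T⁻¹ • ∫ θ in (0:ℝ)..T, g θ := by
    have : ∀ᶠ T in (ultraTop : Filter ℝ), 0 < T := ultraTop_le (eventually_gt_atTop 0)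
    rw [mem_map]
    filter_upwards [this] with T hT
    simpa using norm_average_le hB hT
  obtain ⟨x, -, hx⟩ := (isCompact_closedBall (0:F) B).ultrafilter_le_nhds
    (ultraTop.map fun T => T⁻¹ • ∫ θ in (0:ℝ)..T, g θ) (le_principal_iff.2 h1)
  exact le_nhds_lim ⟨x, hx⟩

theorem mean_eq {g : ℝ → F} {x : F}
    (h : Tendsto (fun T => T⁻¹ • ∫ θ in (0:ℝ)..T, g θ) ultraTop (𝓝 x)) : mean g = x := by
  have hne : Nonempty F := ⟨0⟩
  exact h.limUnder_eq

theorem norm_mean_le {g : ℝ → F} {B : ℝ} (hB : ∀ θ, ‖g θ‖ ≤ B) : ‖mean g‖ ≤ B := by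
  refine le_of_tendsto (tendsto_mean hB).norm ?_
  have : ∀ᶠ T in (ultraTop : Filter ℝ), 0 < T := ultraTop_le (eventually_gt_atTop 0)
  filter_upwards [this] with T hT
  exact norm_average_le hB hT

theorem mean_const (x : F) : mean (fun _ : ℝ => x) = x := by
  apply mean_eq
  have : ∀ᶠ T in (ultraTop : Filter ℝ), 0 < T := ultraTop_le (eventually_gt_atTop 0)
  refine tendsto_const_nhds.congr' ?_
  filter_upwards [this] with T hT
  rw [intervalIntegral.integral_const, sub_zero, smul_smul, inv_mul_cancel₀ hT.ne', one_smul]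

theorem mean_sub {g h : ℝ → F} (hg : Continuous g) (hh : Continuous h) {B C : ℝ}
    (hB : ∀ θ, ‖g θ‖ ≤ B) (hC : ∀ θ, ‖h θ‖ ≤ C) :
    mean (fun θ => g θ - h θ) = mean g - mean h := by
  apply mean_eq
  refine ((tendsto_mean hB).sub (tendsto_mean hC)).congr (fun T => ?_)
  rw [intervalIntegral.integral_sub (hg.intervalIntegrable _ _) (hh.intervalIntegrable _ _),
    smul_sub]

theorem mean_clm {F' : Type*} [NormedAddCommGroup F'] [NormedSpace ℝ F'] [ProperSpace F']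
    {g : ℝ → F} (hg : Continuous g) {B : ℝ} (hB : ∀ θ, ‖g θ‖ ≤ B) (A : F →L[ℝ] F') :
    mean (fun θ => A (g θ)) = A (mean g) := by
  apply mean_eq
  have h1 := (A.continuous.tendsto (mean g)).comp (tendsto_mean hB)
  refine h1.congr (fun T => ?_)
  simp only [Function.comp_apply, map_smul]
  rw [A.intervalIntegral_comp_comm (hg.intervalIntegrable _ _)]

theorem mean_translate {g : ℝ → F} (hg : Continuous g) {B : ℝ} (hB : ∀ θ, ‖g θ‖ ≤ B) (s : ℝ) :
    mean (fun θ => g (θ + s)) = mean g := by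
  apply mean_eq
  have hB0 : 0 ≤ B := (norm_nonneg _).trans (hB 0)
  have h1 : Tendsto (fun T : ℝ => T⁻¹ • (∫ θ in (0:ℝ)..T, g (θ + s)) -
      T⁻¹ • ∫ θ in (0:ℝ)..T, g θ) ultraTop (𝓝 0) := by
    refine squeeze_zero_norm' (a := fun T : ℝ => T⁻¹ * (2 * B * |s|)) ?_ ?_
    · have : ∀ᶠ T in (ultraTop : Filter ℝ), 0 < T := ultraTop_le (eventually_gt_atTop 0)
      filter_upwards [this] with T hT
      rw [← smul_sub, norm_smul, norm_inv, Real.norm_of_nonneg hT.le]
      gcongr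
      have e1 : ∫ θ in (0:ℝ)..T, g (θ + s) = ∫ θ in (s:ℝ)..(T + s), g θ := by
        rw [intervalIntegral.integral_comp_add_right, zero_add]
      have e2 : (∫ θ in (s:ℝ)..(T + s), g θ) - ∫ θ in (0:ℝ)..T, g θ
          = (∫ θ in T..(T + s), g θ) - ∫ θ in (0:ℝ)..s, g θ := by
        have i1 := intervalIntegral.integral_add_adjacent_intervals
          (hg.intervalIntegrable (μ := volume) 0 s) (hg.intervalIntegrable (μ := volume) s (T + s))
        have i2 := intervalIntegral.integral_add_adjacent_intervals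
          (hg.intervalIntegrable (μ := volume) 0 T) (hg.intervalIntegrable (μ := volume) T (T + s))
        rw [sub_eq_sub_iff_add_eq_add, add_comm _ (∫ θ in (0:ℝ)..s, g θ), i1,
          add_comm (∫ θ in T..(T + s), g θ), i2]
      rw [e1, e2]
      have n1 := intervalIntegral.norm_integral_le_of_norm_le_const (a := T) (b := T + s) (C := B)
        (f := g) (fun θ _ => hB θ)
      have n2 := intervalIntegral.norm_integral_le_of_norm_le_const (a := 0) (b := s) (C := B)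
        (f := g) (fun θ _ => hB θ)
      rw [add_sub_cancel_left] at n1
      rw [sub_zero] at n2
      calc _ ≤ ‖∫ θ in T..(T + s), g θ‖ + ‖∫ θ in (0:ℝ)..s, g θ‖ := norm_sub_le _ _
        _ ≤ B * |s| + B * |s| := add_le_add n1 n2
        _ = 2 * B * |s| := by ring
    · have h2 : Tendsto (fun T : ℝ => T⁻¹) ultraTop (𝓝 0) :=
        tendsto_inv_atTop_zero.mono_left ultraTop_le
      simpa using h2.mul_const (2 * B * |s|)
  have h2 := h1.add (tendsto_mean hB)
  rw [zero_add] at h2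
  refine h2.congr (fun T => ?_)
  rw [sub_add_cancel]

end Vale.Agent.P253.Mfd
end
end
end

section

section

open scoped ContDiff Topology
open Set Metric Filter

set_option maxSynthPendingDepth 3
set_option linter.unusedSectionVars false

noncomputable section

namespace Vale.Agent.P253.Mfd

variable {E F : Type*} [NormedAddCommGroup E] [NormedSpace ℂ E] [FiniteDimensional ℂ E]
    [NormedAddCommGroup F] [NormedSpace ℂ F] [FiniteDimensional ℂ F]

/-- The mean of a bounded family of holomorphic maps is holomorphic, with the mean derivative. -/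
theorem hasFDerivAt_mean [ProperSpace F] [ProperSpace (E →L[ℂ] F)] {U : Set E} (hU : IsOpen U)
    {k : ℝ → E → F} (hk : ∀ θ, DifferentiableOn ℂ (k θ) U) {B : ℝ}
    (hB : ∀ θ, ∀ y ∈ U, ‖k θ y‖ ≤ B) (hc : ∀ y ∈ U, Continuous fun θ => k θ y)
    (hc' : ∀ y ∈ U, Continuous fun θ => fderiv ℂ (k θ) y) {z : E} (hz : z ∈ U) :
    HasFDerivAt (fun y => mean fun θ => k θ y) (mean fun θ => fderiv ℂ (k θ) z) z := by
  have hCE : CompleteSpace F := FiniteDimensional.complete ℂ F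
  have hPE : ProperSpace E := FiniteDimensional.proper ℂ E
  obtain ⟨R, hR, hball⟩ := nhds_basis_closedBall.mem_iff.1 (hU.mem_nhds hz)
  have hB0 : 0 ≤ B := (norm_nonneg _).trans (hB 0 z hz)
  have hDb : ∀ θ, ‖fderiv ℂ (k θ) z‖ ≤ B / R := fun θ =>
    ContinuousLinearMap.opNorm_le_bound _ (by positivity)
      (norm_fderiv_apply_le hU (hk θ) hR hball (fun y hy => hB θ y (hball hy)))
  have key : ∀ h : E, ‖h‖ ≤ R / 4 →
      ‖(mean fun θ => k θ (z + h)) - (mean fun θ => k θ z) -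
        (mean fun θ => fderiv ℂ (k θ) z) h‖ ≤ 16 * B / R ^ 2 * ‖h‖ ^ 2 := by
    intro h hh
    have hzh : z + h ∈ U := hball (by
      rw [mem_closedBall, dist_eq_norm, add_sub_cancel_left]; linarith only [hR, hh])
    let A : (E →L[ℂ] F) →L[ℝ] F :=
      ((ContinuousLinearMap.apply ℂ F h : (E →L[ℂ] F) →L[ℂ] F)).restrictScalars ℝ
    have e1 : (mean fun θ => fderiv ℂ (k θ) z) h = mean fun θ => fderiv ℂ (k θ) z h :=
      (mean_clm (hc' z hz) hDb A).symm
    have e2 : (mean fun θ => k θ (z + h) - k θ z) =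
        (mean fun θ => k θ (z + h)) - mean fun θ => k θ z :=
      mean_sub (hc _ hzh) (hc z hz) (fun θ => hB θ _ hzh) (fun θ => hB θ z hz)
    have hcd : Continuous fun θ => fderiv ℂ (k θ) z h := A.continuous.comp (hc' z hz)
    have hbd : ∀ θ, ‖fderiv ℂ (k θ) z h‖ ≤ B / R * ‖h‖ := fun θ =>
      norm_fderiv_apply_le hU (hk θ) hR hball (fun y hy => hB θ y (hball hy)) h
    have e3 : (mean fun θ => k θ (z + h) - k θ z - fderiv ℂ (k θ) z h) =
        (mean fun θ => k θ (z + h) - k θ z) - mean fun θ => fderiv ℂ (k θ) z h :=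
      mean_sub ((hc _ hzh).sub (hc z hz)) hcd (B := B + B)
        (fun θ => (norm_sub_le _ _).trans (add_le_add (hB θ _ hzh) (hB θ z hz))) hbd
    rw [e1, ← e2, ← e3]
    exact norm_mean_le fun θ =>
      taylor_holo hU (hk θ) hR hball (fun y hy => hB θ y (hball hy)) hh
  rw [hasFDerivAt_iff_isLittleO_nhds_zero]
  refine Asymptotics.IsBigO.trans_isLittleO (g := fun h : E => ‖h‖ ^ 2) ?_ ?_
  · refine Asymptotics.IsBigO.of_bound (16 * B / R ^ 2) ?_
    filter_upwards [closedBall_mem_nhds (0:E) (show 0 < R / 4 by positivity)] with h hh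
    have := key h (by simpa using hh)
    simpa using this
  · have h1 : (fun h : E => ‖h‖ ^ 2) =o[𝓝 0] fun h : E => ‖h‖ := by
      have := Asymptotics.isLittleO_norm_pow_id (E' := E) (one_lt_two)
      exact this.norm_right
    exact h1.of_norm_right

end Vale.Agent.P253.Mfd
end
end
end

section

section

open scoped Manifold ContDiff Topology Bundle
open Set Metric Complex Filter Bundle IsManifold

set_option maxSynthPendingDepth 3
set_option linter.unusedSectionVars false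

noncomputable section

namespace Vale.Agent.P253.Mfd

variable {E : Type*} [NormedAddCommGroup E] [NormedSpace ℂ E] [FiniteDimensional ℂ E]
  {M : Type*} [TopologicalSpace M] [ChartedSpace E M] [IsManifold 𝓘(ℂ, E) 1 M]
  {ι : Type*} [Fintype ι]

/-- The expanding flow develops the linearizing chart to a chart onto the whole vector space. -/
theorem exists_global_chart {φ : E ≃L[ℂ] (ι → ℂ)} {m : ι → ℝ} (hm : ∀ j, 0 < m j)
    {e₀ : OpenPartialHomeomorph M E} (he₀ : e₀ ∈ maximalAtlas 𝓘(ℂ, E) 1 M) {δ : ℝ} (hδ : 0 < δ)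
    {p : M} (hp : p ∈ e₀.source) (hep : e₀ p = 0) (htgt : e₀.target = {z | ‖φ z‖ < δ})
    {Φ : ℝ → M → M} (hΦ0 : ∀ x, Φ 0 x = x) (hΦadd : ∀ s t x, Φ (s + t) x = Φ s (Φ t x))
    (hΦhol : ∀ t, MDifferentiable 𝓘(ℂ, E) 𝓘(ℂ, E) (Φ t))
    (hloc : ∀ t : ℝ, t ≤ 0 → ∀ x ∈ e₀.source, Φ t x ∈ e₀.source ∧ e₀ (Φ t x) = LE φ m t (e₀ x))
    {ρ : ℝ → M → M}
    (hequiv : ∀ θ : ℝ, ∀ x ∈ e₀.source, ρ θ x ∈ e₀.source ∧ e₀ (ρ θ x) = LE φ m (θ * I) (e₀ x))
    (hcomm : ∀ θ t x, ρ θ (Φ t x) = Φ t (ρ θ x)) :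
    ∃ e ∈ maximalAtlas 𝓘(ℂ, E) 1 M, e.target = univ ∧ p ∈ e.source ∧ e p = 0 ∧
      ∀ (θ : ℝ) (z : E), ρ θ (e.symm z) = e.symm (LE φ m (θ * I) z) := by
  classical
  have hcancel : ∀ s x, Φ s (Φ (-s) x) = x := fun s x => by rw [← hΦadd, add_neg_cancel, hΦ0]
  have hcancel' : ∀ s x, Φ (-s) (Φ s x) = x := fun s x => by rw [← hΦadd, neg_add_cancel, hΦ0]
  have hLcancel : ∀ (s : ℝ) (z : E), LE φ m (s : ℂ) (LE φ m ((-s : ℝ) : ℂ) z) = z := by
    intro s z
    rw [← LE_add]; push_cast; rw [add_neg_cancel, LE_zero]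
  have hLcancel' : ∀ (s : ℝ) (z : E), LE φ m ((-s : ℝ) : ℂ) (LE φ m (s : ℂ) z) = z := by
    intro s z
    rw [← LE_add]; push_cast; rw [neg_add_cancel, LE_zero]
  -- the local formula for the inverse chart
  have hlocs : ∀ s : ℝ, 0 ≤ s → ∀ w ∈ e₀.target, LE φ m ((-s : ℝ) : ℂ) w ∈ e₀.target ∧
      Φ s (e₀.symm (LE φ m ((-s : ℝ) : ℂ) w)) = e₀.symm w := by
    intro s hs w hw
    have h1 := hloc (-s) (by linarith only [hs]) (e₀.symm w) (e₀.map_target hw)
    rw [e₀.right_inv hw] at h1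
    have h2 : LE φ m ((-s : ℝ) : ℂ) w ∈ e₀.target := h1.2 ▸ e₀.map_source h1.1
    refine ⟨h2, ?_⟩
    rw [← h1.2, e₀.left_inv h1.1, hcancel]
  -- the developing maps
  set S : ℕ → Set M := fun n => Φ (-(n:ℝ)) ⁻¹' e₀.source with hS
  set D : ℕ → Set E := fun n => LE φ m ((-(n:ℝ) : ℝ) : ℂ) ⁻¹' e₀.target with hD
  set F : ℕ → M → E := fun n x => LE φ m (((n:ℝ) : ℝ) : ℂ) (e₀ (Φ (-(n:ℝ)) x)) with hF
  set H : ℕ → E → M := fun n z => Φ (n:ℝ) (e₀.symm (LE φ m ((-(n:ℝ) : ℝ) : ℂ) z)) with hH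
  have hSo : ∀ n, IsOpen (S n) := fun n => e₀.open_source.preimage (hΦhol _).continuous
  have hDo : ∀ n, IsOpen (D n) := fun n =>
    e₀.open_target.preimage (differentiable_LE_right _).continuous
  have hFmono : ∀ n k, n ≤ k → ∀ x ∈ S n, x ∈ S k ∧ F k x = F n x := by
    intro n k hnk x hx
    have hnk' : (n:ℝ) ≤ k := by exact_mod_cast hnk
    have h1 := hloc (-((k:ℝ) - n)) (by linarith only [hnk']) _ hx
    rw [← hΦadd] at h1
    have e1 : -((k:ℝ) - n) + -(n:ℝ) = -(k:ℝ) := by ring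
    rw [e1] at h1
    refine ⟨h1.1, ?_⟩
    simp only [hF]
    rw [h1.2, ← LE_add]
    congr 1
    push_cast; ring
  have hHmono : ∀ n k, n ≤ k → ∀ z ∈ D n, z ∈ D k ∧ H k z = H n z := by
    intro n k hnk z hz
    have hnk' : (n:ℝ) ≤ k := by exact_mod_cast hnk
    have h1 := hlocs ((k:ℝ) - n) (by linarith only [hnk']) _ hz
    rw [← LE_add] at h1
    have e1 : ((-((k:ℝ) - n) : ℝ) : ℂ) + ((-(n:ℝ) : ℝ) : ℂ) = ((-(k:ℝ) : ℝ) : ℂ) := by
      push_cast; ring
    rw [e1] at h1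
    refine ⟨h1.1, ?_⟩
    simp only [hH]
    rw [← h1.2, ← hΦadd]
    congr 1
    ring
  have hFeq : ∀ n k, ∀ x, x ∈ S n → x ∈ S k → F n x = F k x := by
    intro n k x hn hk
    rw [← (hFmono n (max n k) (le_max_left _ _) x hn).2,
      (hFmono k (max n k) (le_max_right _ _) x hk).2]
  have hHeq : ∀ n k, ∀ z, z ∈ D n → z ∈ D k → H n z = H k z := by
    intro n k z hn hk
    rw [← (hHmono n (max n k) (le_max_left _ _) z hn).2,
      (hHmono k (max n k) (le_max_right _ _) z hk).2]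
  have hDex : ∀ z : E, ∃ n, z ∈ D n := by
    intro z
    obtain ⟨c, hc, hcm⟩ := exists_minw hm
    have h1 : Tendsto (fun n : ℕ => Real.exp (c * -(n:ℝ)) * ‖φ z‖) atTop (𝓝 (0 * ‖φ z‖)) := by
      apply Tendsto.mul_const
      apply Real.tendsto_exp_atBot.comp
      have h2 : Tendsto (fun n : ℕ => c * (n:ℝ)) atTop atTop :=
        tendsto_natCast_atTop_atTop.const_mul_atTop hc
      have h3 := tendsto_neg_atTop_atBot.comp h2
      refine h3.congr (fun n => ?_)
      simp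
    rw [zero_mul] at h1
    obtain ⟨n, hn⟩ := (h1.eventually (gt_mem_nhds hδ)).exists
    refine ⟨n, ?_⟩
    change _ ∈ e₀.target
    rw [htgt]
    exact (norm_LE_nonpos hcm (by simp) z).trans_lt hn
  have hFD : ∀ n, ∀ x ∈ S n, F n x ∈ D n ∧ H n (F n x) = x := by
    intro n x hx
    have h1 : LE φ m ((-(n:ℝ) : ℝ) : ℂ) (F n x) = e₀ (Φ (-(n:ℝ)) x) := hLcancel' _ _
    refine ⟨?_, ?_⟩
    · change LE φ m ((-(n:ℝ) : ℝ) : ℂ) (F n x) ∈ e₀.target
      rw [h1]
      exact e₀.map_source hx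
    · change Φ (n:ℝ) (e₀.symm (LE φ m ((-(n:ℝ) : ℝ) : ℂ) (F n x))) = x
      rw [h1, e₀.left_inv hx, hcancel]
  have hHS : ∀ n, ∀ z ∈ D n, H n z ∈ S n ∧ F n (H n z) = z := by
    intro n z hz
    have h1 : Φ (-(n:ℝ)) (H n z) = e₀.symm (LE φ m ((-(n:ℝ) : ℝ) : ℂ) z) := hcancel' _ _
    refine ⟨?_, ?_⟩
    · change Φ (-(n:ℝ)) (H n z) ∈ e₀.source
      rw [h1]
      exact e₀.map_target hz
    · change LE φ m (((n:ℝ) : ℝ) : ℂ) (e₀ (Φ (-(n:ℝ)) (H n z))) = z
      rw [h1, e₀.right_inv hz, hLcancel]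
  have hFdiff : ∀ n, ∀ x ∈ S n, ContMDiffAt 𝓘(ℂ, E) 𝓘(ℂ, E) 1 (F n) x := by
    intro n x hx
    refine contMDiffAt_of_mdiff (hSo n) hx fun y hy => ?_
    have h1 : MDifferentiableAt 𝓘(ℂ, E) 𝓘(ℂ, E) (Φ (-(n:ℝ))) y := hΦhol _ y
    have h2 : MDifferentiableAt 𝓘(ℂ, E) 𝓘(ℂ, E) e₀ (Φ (-(n:ℝ)) y) :=
      ((contMDiffOn_of_mem_maximalAtlas he₀).contMDiffAt
        (e₀.open_source.mem_nhds hy)).mdifferentiableAt (by simp)
    have h3 : MDifferentiableAt 𝓘(ℂ, E) 𝓘(ℂ, E) (LE φ m (((n:ℝ) : ℝ) : ℂ)) (e₀ (Φ (-(n:ℝ)) y)) :=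
      (differentiable_LE_right _ _).mdifferentiableAt
    have h4 := h3.comp y (h2.comp y h1)
    exact h4
  have hHdiff : ∀ n, ∀ z ∈ D n, ContMDiffAt 𝓘(ℂ, E) 𝓘(ℂ, E) 1 (H n) z := by
    intro n z hz
    refine contMDiffAt_of_mdiff (hDo n) hz fun y hy => ?_
    have h1 : MDifferentiableAt 𝓘(ℂ, E) 𝓘(ℂ, E) (LE φ m ((-(n:ℝ) : ℝ) : ℂ)) y :=
      (differentiable_LE_right _ _).mdifferentiableAt
    have h2 : MDifferentiableAt 𝓘(ℂ, E) 𝓘(ℂ, E) e₀.symm (LE φ m ((-(n:ℝ) : ℝ) : ℂ) y) :=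
      ((contMDiffOn_symm_of_mem_maximalAtlas he₀).contMDiffAt
        (e₀.open_target.mem_nhds hy)).mdifferentiableAt (by simp)
    have h3 : MDifferentiableAt 𝓘(ℂ, E) 𝓘(ℂ, E) (Φ (n:ℝ))
      (e₀.symm (LE φ m ((-(n:ℝ) : ℝ) : ℂ) y)) := hΦhol _ _
    have h4 := h3.comp y (h2.comp y h1)
    exact h4
  -- the global maps
  set f : M → E := fun x => if h : ∃ n, x ∈ S n then F h.choose x else 0 with hf
  set g : E → M := fun z => H (hDex z).choose z with hg
  have hfF : ∀ n, ∀ x ∈ S n, f x = F n x := by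
    intro n x hx
    have h : ∃ n, x ∈ S n := ⟨n, hx⟩
    simp only [hf, dif_pos h]
    exact hFeq _ _ x h.choose_spec hx
  have hgH : ∀ n, ∀ z ∈ D n, g z = H n z := fun n z hz => hHeq _ _ z (hDex z).choose_spec hz
  have hfd : ∀ x, (∃ n, x ∈ S n) → ContMDiffAt 𝓘(ℂ, E) 𝓘(ℂ, E) 1 f x := by
    rintro x ⟨n, hx⟩
    refine (hFdiff n x hx).congr_of_eventuallyEq ?_
    filter_upwards [(hSo n).mem_nhds hx] with y hy
    exact hfF n y hy
  have hgd : ∀ z, ContMDiffAt 𝓘(ℂ, E) 𝓘(ℂ, E) 1 g z := by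
    intro z
    obtain ⟨n, hz⟩ := hDex z
    refine (hHdiff n z hz).congr_of_eventuallyEq ?_
    filter_upwards [(hDo n).mem_nhds hz] with y hy
    exact hgH n y hy
  have hsrc : {x : M | ∃ n, x ∈ S n} = ⋃ n, S n := by ext x; simp
  let e : OpenPartialHomeomorph M E :=
    { toFun := f
      invFun := g
      source := {x | ∃ n, x ∈ S n}
      target := univ
      map_source' := fun _ _ => mem_univ _
      map_target' := fun z _ => by
        obtain ⟨n, hz⟩ := hDex z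
        rw [hgH n z hz]
        exact ⟨n, (hHS n z hz).1⟩
      left_inv' := by
        rintro x ⟨n, hx⟩
        rw [hfF n x hx, hgH n _ (hFD n x hx).1]
        exact (hFD n x hx).2
      right_inv' := fun z _ => by
        obtain ⟨n, hz⟩ := hDex z
        rw [hgH n z hz, hfF n _ (hHS n z hz).1]
        exact (hHS n z hz).2
      open_source := by rw [hsrc]; exact isOpen_iUnion hSo
      open_target := isOpen_univ
      continuousOn_toFun := fun x hx => (hfd x hx).continuousAt.continuousWithinAt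
      continuousOn_invFun := fun z _ => (hgd z).continuousAt.continuousWithinAt }
  have hpS : p ∈ S 0 := by
    change Φ (-((0:ℕ):ℝ)) p ∈ e₀.source
    simpa [hΦ0] using hp
  refine ⟨e, ?_, rfl, ⟨0, hpS⟩, ?_, ?_⟩
  · exact OpenPartialHomeomorph.mem_maximalAtlas_of_contMDiffOn e
      (fun x hx => (hfd x hx).contMDiffWithinAt) (fun z _ => (hgd z).contMDiffWithinAt)
  · change f p = 0
    rw [hfF 0 p hpS]
    simp only [hF]
    simp [hΦ0, hep, LE_zero_right]
  · intro θ z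
    change ρ θ (g z) = g (LE φ m (θ * I) z)
    obtain ⟨n, hz⟩ := hDex z
    have hcomL : LE φ m ((-(n:ℝ) : ℝ) : ℂ) (LE φ m (θ * I) z)
        = LE φ m (θ * I) (LE φ m ((-(n:ℝ) : ℝ) : ℂ) z) := by
      rw [← LE_add, ← LE_add, add_comm]
    have h1 := hequiv θ _ (e₀.map_target hz)
    rw [e₀.right_inv hz] at h1
    have h2 : LE φ m (θ * I) z ∈ D n := by
      change LE φ m ((-(n:ℝ) : ℝ) : ℂ) (LE φ m (θ * I) z) ∈ e₀.target
      rw [hcomL, ← h1.2]
      exact e₀.map_source h1.1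
    rw [hgH n z hz, hgH n _ h2]
    simp only [hH]
    rw [hcomm, hcomL, ← h1.2, e₀.left_inv h1.1]

end Vale.Agent.P253.Mfd
end
end
end

section

section

open scoped Manifold ContDiff Topology Bundle ENNReal
open Set Metric Complex Filter Bundle IsManifold MeasureTheory Manifold

set_option maxSynthPendingDepth 3
set_option linter.unusedSectionVars false

noncomputable section

namespace Vale.Agent.P253.Mfd

variable {E : Type*} [NormedAddCommGroup E] [NormedSpace ℂ E] [FiniteDimensional ℂ E]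
  {M : Type*} [MetricSpace M] [ChartedSpace E M]
  [IsManifold 𝓘(ℂ, E) 1 M] [IsManifold 𝓘(ℝ, E) ∞ M]
  [RiemannianBundle (fun x : M => TangentSpace 𝓘(ℝ, E) x)]
  [IsContMDiffRiemannianBundle 𝓘(ℝ, E) ∞ E (fun x : M => TangentSpace 𝓘(ℝ, E) x)]
  [IsRiemannianManifold 𝓘(ℝ, E) M]

theorem norm_mfderiv_symm (e : OpenPartialHomeomorph M E) (z v : E) :
    ‖mfderiv 𝓘(ℝ, E) 𝓘(ℝ, E) e.symm z v‖ = √(chartG e z v v) := by
  rw [norm_eq_sqrt_real_inner]
  rfl

set_option backward.isDefEq.respectTransparency false in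
theorem enorm_mfderivWithin_comp {e : OpenPartialHomeomorph M E}
    (he : e ∈ maximalAtlas 𝓘(ℝ, E) ∞ M) {c : ℝ → E} {s : Set ℝ} {t : ℝ} {c' : E}
    (hs : UniqueDiffWithinAt ℝ s t)
    (hc : HasDerivWithinAt c c' s t) (hct : c t ∈ e.target) :
    ‖mfderivWithin 𝓘(ℝ, ℝ) 𝓘(ℝ, E) (e.symm ∘ c) s t 1‖ₑ
      = ENNReal.ofReal (√(chartG e (c t) c' c')) := by
  have h1 : mfderivWithin 𝓘(ℝ, ℝ) 𝓘(ℝ, E) (e.symm ∘ c) s t =
      (mfderiv 𝓘(ℝ, E) 𝓘(ℝ, E) e.symm (c t)).comp (mfderivWithin 𝓘(ℝ, ℝ) 𝓘(ℝ, E) c s t) := by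
    apply mfderiv_comp_mfderivWithin
    · exact ((contMDiffOn_symm_of_mem_maximalAtlas he).contMDiffAt
        (e.open_target.mem_nhds hct)).mdifferentiableAt (by simp)
    · exact hc.differentiableWithinAt.mdifferentiableWithinAt
    · rw [uniqueMDiffWithinAt_iff_uniqueDiffWithinAt]
      exact hs
  have h2 : mfderivWithin 𝓘(ℝ, ℝ) 𝓘(ℝ, E) (e.symm ∘ c) s t 1 =
      (mfderiv 𝓘(ℝ, E) 𝓘(ℝ, E) e.symm (c t)) (mfderivWithin 𝓘(ℝ, ℝ) 𝓘(ℝ, E) c s t 1) :=
    congr($h1 1)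
  have h3 : mfderivWithin 𝓘(ℝ, ℝ) 𝓘(ℝ, E) c s t 1 = c' := by
    rw [mfderivWithin_eq_fderivWithin, hc.hasFDerivWithinAt.fderivWithin hs]
    exact one_smul ℝ c'
  rw [h2, h3, ← norm_mfderiv_symm, ofReal_norm]

theorem dist_le_chart {e : OpenPartialHomeomorph M E}
    (he : e ∈ maximalAtlas 𝓘(ℝ, E) ∞ M) {c c' : ℝ → E} {a b : ℝ} (hab : a ≤ b)
    (hc : ∀ t ∈ Icc a b, HasDerivWithinAt c (c' t) (Icc a b) t)
    (hc' : ContinuousOn c' (Icc a b)) (hct : ∀ t ∈ Icc a b, c t ∈ e.target) :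
    dist (e.symm (c a)) (e.symm (c b)) ≤ ∫ t in a..b, √(chartG e (c t) (c' t) (c' t)) := by
  rcases hab.eq_or_lt with rfl | hlt
  · simp
  have hud : UniqueDiffOn ℝ (Icc a b) := uniqueDiffOn_Icc hlt
  have hcd : ContDiffOn ℝ 1 c (Icc a b) := by
    rw [contDiffOn_one_iff_derivWithin hud]
    refine ⟨fun t ht => (hc t ht).differentiableWithinAt, ?_⟩
    exact hc'.congr (fun t ht => (hc t ht).derivWithin (hud t ht))
  have hγ : ContMDiffOn 𝓘(ℝ, ℝ) 𝓘(ℝ, E) 1 (e.symm ∘ c) (Icc a b) :=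
    ((contMDiffOn_symm_of_mem_maximalAtlas he).of_le (by simp)).comp
      (contMDiffOn_iff_contDiffOn.2 hcd) hct
  have h1 := riemannianEDist_le_pathELength (I := 𝓘(ℝ, E)) hγ rfl rfl hab
  rw [← IsRiemannianManifold.out (I := 𝓘(ℝ, E)), pathELength_eq_lintegral_mfderivWithin_Icc] at h1
  have h2 : ∀ t ∈ Icc a b, ‖mfderivWithin 𝓘(ℝ, ℝ) 𝓘(ℝ, E) (e.symm ∘ c) (Icc a b) t 1‖ₑ
      = ENNReal.ofReal (√(chartG e (c t) (c' t) (c' t))) := by
    intro t ht
    exact enorm_mfderivWithin_comp he (hud t ht) (hc t ht) (hct t ht)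
  rw [setLIntegral_congr_fun measurableSet_Icc h2] at h1
  have hcont : ContinuousOn (fun t => √(chartG e (c t) (c' t) (c' t))) (Icc a b) := by
    have hcc : ContinuousOn c (Icc a b) := fun t ht => (hc t ht).continuousWithinAt
    have hG : ContinuousOn (fun t => chartG e (c t)) (Icc a b) :=
      (contDiffOn_chartG he).continuousOn.comp hcc hct
    exact ((hG.clm_apply hc').clm_apply hc').sqrt
  have hint : IntegrableOn (fun t => √(chartG e (c t) (c' t) (c' t))) (Icc a b) :=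
    hcont.integrableOn_Icc
  rw [← ofReal_integral_eq_lintegral_ofReal hint (ae_of_all _ fun t => Real.sqrt_nonneg _),
    edist_dist, ENNReal.ofReal_le_ofReal_iff (integral_nonneg fun t => Real.sqrt_nonneg _),
    integral_Icc_eq_integral_Ioc, ← intervalIntegral.integral_of_le hab] at h1
  exact h1

theorem pathELength_eq_chart {e : OpenPartialHomeomorph M E}
    (he : e ∈ maximalAtlas 𝓘(ℝ, E) ∞ M) {c c' : ℝ → E} {a b : ℝ} (hab : a < b)
    (hc : ∀ t ∈ Icc a b, HasDerivWithinAt c (c' t) (Icc a b) t)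
    (hc' : ContinuousOn c' (Icc a b)) (hct : ∀ t ∈ Icc a b, c t ∈ e.target) :
    pathELength 𝓘(ℝ, E) (e.symm ∘ c) a b
      = ENNReal.ofReal (∫ t in a..b, √(chartG e (c t) (c' t) (c' t))) := by
  have hud : UniqueDiffOn ℝ (Icc a b) := uniqueDiffOn_Icc hab
  rw [pathELength_eq_lintegral_mfderivWithin_Icc]
  have h2 : ∀ t ∈ Icc a b, ‖mfderivWithin 𝓘(ℝ, ℝ) 𝓘(ℝ, E) (e.symm ∘ c) (Icc a b) t 1‖ₑ
      = ENNReal.ofReal (√(chartG e (c t) (c' t) (c' t))) := by
    intro t ht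
    exact enorm_mfderivWithin_comp he (hud t ht) (hc t ht) (hct t ht)
  rw [setLIntegral_congr_fun measurableSet_Icc h2]
  have hcont : ContinuousOn (fun t => √(chartG e (c t) (c' t) (c' t))) (Icc a b) := by
    have hcc : ContinuousOn c (Icc a b) := fun t ht => (hc t ht).continuousWithinAt
    have hG : ContinuousOn (fun t => chartG e (c t)) (Icc a b) :=
      (contDiffOn_chartG he).continuousOn.comp hcc hct
    exact ((hG.clm_apply hc').clm_apply hc').sqrt
  have hint : IntegrableOn (fun t => √(chartG e (c t) (c' t) (c' t))) (Icc a b) :=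
    hcont.integrableOn_Icc
  rw [← ofReal_integral_eq_lintegral_ofReal hint (ae_of_all _ fun t => Real.sqrt_nonneg _),
    integral_Icc_eq_integral_Ioc, ← intervalIntegral.integral_of_le hab.le]

/-- Near-minimising curves, seen in a chart. -/
theorem exists_chart_curve {e : OpenPartialHomeomorph M E}
    (he : e ∈ maximalAtlas 𝓘(ℝ, E) ∞ M) {x y : M} {r ε : ℝ} (hball : ball x r ⊆ e.source)
    (hε : 0 < ε) (hr : dist x y + ε ≤ r) :
    ∃ c c' : ℝ → E, (∀ t ∈ Icc (0:ℝ) 1, HasDerivWithinAt c (c' t) (Icc 0 1) t) ∧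
      ContinuousOn c' (Icc 0 1) ∧ c 0 = e x ∧ c 1 = e y ∧
      (∀ t ∈ Icc (0:ℝ) 1, c t ∈ e.target ∧ dist x (e.symm (c t)) < dist x y + ε) ∧
      ∫ t in (0:ℝ)..1, √(chartG e (c t) (c' t) (c' t)) < dist x y + ε := by
  have hlt : riemannianEDist 𝓘(ℝ, E) x y < ENNReal.ofReal (dist x y + ε) := by
    rw [← IsRiemannianManifold.out (I := 𝓘(ℝ, E)), edist_dist]
    rw [ENNReal.ofReal_lt_ofReal_iff (by positivity)]
    linarith
  obtain ⟨γ, hγ0, hγ1, hγ, hlen⟩ := exists_lt_of_riemannianEDist_lt hlt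
  have hdist : ∀ t ∈ Icc (0:ℝ) 1, dist x (γ t) < dist x y + ε := by
    intro t ht
    have h1 := riemannianEDist_le_pathELength (I := 𝓘(ℝ, E))
      (hγ.mono (Icc_subset_Icc le_rfl ht.2)) hγ0 rfl ht.1
    have h2 : pathELength 𝓘(ℝ, E) γ 0 t ≤ pathELength 𝓘(ℝ, E) γ 0 1 :=
      pathELength_mono le_rfl ht.2
    have h3 := (h1.trans h2).trans_lt hlen
    rw [← IsRiemannianManifold.out (I := 𝓘(ℝ, E)), edist_dist,
      ENNReal.ofReal_lt_ofReal_iff (by positivity)] at h3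
    exact h3
  have hsrc : ∀ t ∈ Icc (0:ℝ) 1, γ t ∈ e.source := fun t ht => hball (by
    rw [mem_ball']; exact (hdist t ht).trans_le hr)
  have hcs : ContMDiffOn 𝓘(ℝ, ℝ) 𝓘(ℝ, E) 1 (e ∘ γ) (Icc 0 1) :=
    ((contMDiffOn_of_mem_maximalAtlas he).of_le (by simp)).comp hγ hsrc
  have hcd : ContDiffOn ℝ 1 (e ∘ γ) (Icc 0 1) := contMDiffOn_iff_contDiffOn.1 hcs
  have hud : UniqueDiffOn ℝ (Icc (0:ℝ) 1) := uniqueDiffOn_Icc one_pos
  have hd : ∀ t ∈ Icc (0:ℝ) 1, HasDerivWithinAt (e ∘ γ) (derivWithin (e ∘ γ) (Icc 0 1) t)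
      (Icc 0 1) t := fun t ht =>
    ((hcd.differentiableOn (by simp)) t ht).hasDerivWithinAt
  have hc' : ContinuousOn (derivWithin (e ∘ γ) (Icc 0 1)) (Icc 0 1) :=
    hcd.continuousOn_derivWithin hud (by simp)
  have hct : ∀ t ∈ Icc (0:ℝ) 1, (e ∘ γ) t ∈ e.target := fun t ht => e.map_source (hsrc t ht)
  refine ⟨e ∘ γ, derivWithin (e ∘ γ) (Icc 0 1), hd, hc', by simp [hγ0], by simp [hγ1],
    fun t ht => ⟨hct t ht, ?_⟩, ?_⟩
  · rw [Function.comp_apply, e.left_inv (hsrc t ht)]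
    exact hdist t ht
  · have h1 := pathELength_eq_chart he one_pos hd hc' hct
    have h2 : pathELength 𝓘(ℝ, E) (e.symm ∘ (e ∘ γ)) 0 1 = pathELength 𝓘(ℝ, E) γ 0 1 :=
      pathELength_congr (fun t ht => e.left_inv (hsrc t ht))
    rw [h2] at h1
    rw [h1, ENNReal.ofReal_lt_ofReal_iff (by positivity)] at hlen
    exact hlen

end Vale.Agent.P253.Mfd
end
end
end

section

section

open scoped Manifold ContDiff Topology Bundle ENNReal
open Set Metric Complex Filter Bundle IsManifold MeasureTheory Manifold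

set_option maxSynthPendingDepth 3
set_option linter.unusedSectionVars false

noncomputable section

namespace Vale.Agent.P253.Mfd

theorem approxMid_of_riemannian
    (E : Type*) [NormedAddCommGroup E] [NormedSpace ℂ E] [FiniteDimensional ℂ E]
    (M : Type*) [MetricSpace M] [ChartedSpace E M]
    [IsManifold 𝓘(ℂ, E) 1 M] [IsManifold 𝓘(ℝ, E) ∞ M]
    [RiemannianBundle (fun x : M => TangentSpace 𝓘(ℝ, E) x)]
    [IsContMDiffRiemannianBundle 𝓘(ℝ, E) ∞ E (fun x : M => TangentSpace 𝓘(ℝ, E) x)]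
    [IsRiemannianManifold 𝓘(ℝ, E) M] : ApproxMid M := by
  intro x y s hs hsd ε hε
  have hlt : riemannianEDist 𝓘(ℝ, E) x y < ENNReal.ofReal (dist x y + ε) := by
    rw [← IsRiemannianManifold.out (I := 𝓘(ℝ, E)), edist_dist]
    rw [ENNReal.ofReal_lt_ofReal_iff (by positivity)]
    linarith
  obtain ⟨γ, hγ0, hγ1, hγ, hlen⟩ := exists_lt_of_riemannianEDist_lt hlt
  have hγc : ContinuousOn γ (Icc 0 1) := hγ.continuousOn
  have hcont : ContinuousOn (fun t => dist x (γ t)) (Icc 0 1) := (continuous_const.dist continuous_id).comp_continuousOn hγc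
  obtain ⟨t, ht, hts⟩ : s ∈ (fun t => dist x (γ t)) '' Icc (0:ℝ) 1 := by
    apply intermediate_value_Icc zero_le_one hcont
    simp [hγ0, hγ1, hs, hsd]
  refine ⟨γ t, hts, ?_⟩
  have h1 := riemannianEDist_le_pathELength (I := 𝓘(ℝ, E))
    (hγ.mono (Icc_subset_Icc le_rfl ht.2)) hγ0 rfl ht.1
  have h2 := riemannianEDist_le_pathELength (I := 𝓘(ℝ, E))
    (hγ.mono (Icc_subset_Icc ht.1 le_rfl)) rfl hγ1 ht.2
  have h3 := (add_le_add h1 h2).trans_lt ((pathELength_add ht.1 ht.2).trans_lt hlen)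
  rw [← IsRiemannianManifold.out (I := 𝓘(ℝ, E)), ← IsRiemannianManifold.out (I := 𝓘(ℝ, E)),
    edist_dist, edist_dist, ← ENNReal.ofReal_add dist_nonneg dist_nonneg,
    ENNReal.ofReal_lt_ofReal_iff (by positivity)] at h3
  simp only at hts
  linarith only [hts, h3]

end Vale.Agent.P253.Mfd
end
end
end

section

section

open scoped Manifold ContDiff Topology Bundle
open Set Metric Complex Filter Bundle IsManifold

set_option maxSynthPendingDepth 3
set_option linter.unusedSectionVars false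

noncomputable section

namespace Vale.Agent.P253.Mfd

variable {E : Type*} [NormedAddCommGroup E] [NormedSpace ℂ E] [FiniteDimensional ℂ E]
  {M : Type*} [MetricSpace M] [ChartedSpace E M]
  [IsManifold 𝓘(ℂ, E) 1 M] [IsManifold 𝓘(ℝ, E) ∞ M]
  [RiemannianBundle (fun x : M => TangentSpace 𝓘(ℝ, E) x)]
  [IsContMDiffRiemannianBundle 𝓘(ℝ, E) ∞ E (fun x : M => TangentSpace 𝓘(ℝ, E) x)]

/-- the metric at a point, on the model space -/
def innerAt (x : M) (v w : E) : ℝ :=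
  inner ℝ (show TangentSpace 𝓘(ℝ, E) x from v) (show TangentSpace 𝓘(ℝ, E) x from w)

/-- derivative of the inverse chart as an endomorphism of the model space -/
def dsymm (e : OpenPartialHomeomorph M E) (z : E) : E →L[ℝ] E :=
  mfderiv 𝓘(ℝ, E) 𝓘(ℝ, E) e.symm z

omit [IsManifold 𝓘(ℂ, E) 1 M] [IsManifold 𝓘(ℝ, E) ∞ M]
  [IsContMDiffRiemannianBundle 𝓘(ℝ, E) ∞ E (fun x : M => TangentSpace 𝓘(ℝ, E) x)] in
theorem chartG_eq_innerAt (e : OpenPartialHomeomorph M E) (z v w : E) :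
    chartG e z v w = innerAt (e.symm z) (dsymm e z v) (dsymm e z w) := rfl

theorem chartG_change {e e' : OpenPartialHomeomorph M E}
    (he : e ∈ maximalAtlas 𝓘(ℂ, E) 1 M) (he' : e' ∈ maximalAtlas 𝓘(ℂ, E) 1 M) {x : M}
    (hx : x ∈ e.source) (hx' : x ∈ e'.source) (v w : E) :
    chartG e' (e' x) (fderiv ℝ (e' ∘ e.symm) (e x) v) (fderiv ℝ (e' ∘ e.symm) (e x) w)
      = chartG e (e x) v w := by
  have her := mem_maximalAtlas_real he
  have her' := mem_maximalAtlas_real he'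
  have hz : e x ∈ e.target := e.map_source hx
  have hzV : e x ∈ (e.symm ≫ₕ e').source := by simp [hx, hx']
  have h1 : e.symm =ᶠ[𝓝 (e x)] e'.symm ∘ (e' ∘ e.symm) := by
    filter_upwards [(e.symm ≫ₕ e').open_source.mem_nhds hzV] with y hy
    have : e.symm y ∈ e'.source := by simpa using hy.2
    simp [e'.left_inv this]
  have hd : DifferentiableAt ℝ (e' ∘ e.symm) (e x) :=
    (((transition_complex he he').restrict_scalars ℝ).contDiffAt
      ((e.symm ≫ₕ e').open_source.mem_nhds hzV)).differentiableAt (by simp)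
  have hpt : (e' ∘ e.symm) (e x) = e' x := by simp [e.left_inv hx]
  have h3 : MDifferentiableAt 𝓘(ℝ, E) 𝓘(ℝ, E) e'.symm ((e' ∘ e.symm) (e x)) := by
    rw [hpt]
    exact ((contMDiffOn_symm_of_mem_maximalAtlas her').contMDiffAt
      (e'.open_target.mem_nhds (e'.map_source hx'))).mdifferentiableAt (by simp)
  have h2 : dsymm e (e x) = (dsymm e' (e' x)).comp (fderiv ℝ (e' ∘ e.symm) (e x)) := by
    have h4 := mfderiv_comp (e x) h3 hd.mdifferentiableAt
    rw [hpt, mfderiv_eq_fderiv] at h4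
    exact (h1.mfderiv_eq).trans h4
  have hv : ∀ v : E, dsymm e (e x) v = dsymm e' (e' x) (fderiv ℝ (e' ∘ e.symm) (e x) v) := by
    intro v
    rw [h2]; rfl
  have hp : e.symm (e x) = e'.symm (e' x) := by rw [e.left_inv hx, e'.left_inv hx']
  rw [chartG_eq_innerAt, chartG_eq_innerAt, hv, hv, hp]

variable [IsRiemannianManifold 𝓘(ℝ, E) M]

/-- Second variation inequality along one segment contained in a chart. -/
theorem segment (hK : IsKahler E M) [ProperSpace M] {e : OpenPartialHomeomorph M E}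
    (he : e ∈ maximalAtlas 𝓘(ℂ, E) 1 M) {x x' : M} {R : ℝ} (hR : closedBall x R ⊆ e.source)
    (hx'R : dist x x' < R) (hne : x ≠ x') {κ : ℝ} (hκ : 0 ≤ κ)
    (hcurv : ∀ y ∈ closedBall x R, ∀ X a,
      κ * chartG e (e y) X X * chartG e (e y) a a ≤ Rc (chartG e) (e y) X a) (Y : E) :
    ∃ Y' : E, chartG e (e x') Y' Y' = chartG e (e x) Y Y ∧ ∀ φ₀ φ₁ : ℝ, 0 ≤ φ₀ → 0 ≤ φ₁ →
      ∀ a a' : ℝ → Fin 4 → M, Harm e x (φ₀ • Y) a → Harm e x' (φ₁ • Y') a' →
      ∀ η > 0, ∀ᶠ r in 𝓝[>] (0:ℝ), ∑ k, dist (a r k) (a' r k) ≤ 4 * dist x x'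
        + r ^ 2 * (2 * (φ₁ - φ₀) ^ 2 * chartG e (e x) Y Y / dist x x'
          - 2 * (min φ₀ φ₁) ^ 2 * κ * chartG e (e x) Y Y * dist x x' + η) := by
  have her := mem_maximalAtlas_real he
  have hLK := localKahler_chartG hK he
  set K : Set E := e '' closedBall x R with hKdef
  have hKc : IsCompact K := (isCompact_closedBall x R).image_of_continuousOn
    (e.continuousOn.mono hR)
  have hKt : K ⊆ e.target := by
    rintro _ ⟨y, hy, rfl⟩
    exact e.map_source (hR hy)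
  have hcurv' : ∀ z ∈ K, ∀ X a, κ * chartG e z X X * chartG e z a a ≤ Rc (chartG e) z X a := by
    rintro _ ⟨y, hy, rfl⟩ X a
    exact hcurv y hy X a
  have hxs : x ∈ e.source := hR (mem_closedBall_self (dist_nonneg.trans hx'R.le))
  have hx's : x' ∈ e.source := hR (by rw [mem_closedBall']; exact hx'R.le)
  have hD : 0 < dist x x' := dist_pos.2 hne
  obtain ⟨Y', hY', H⟩ := hLK.second_variation hKc hKt hκ hcurv'
    (d := fun z w => dist (e.symm z) (e.symm w))
    (fun c c' hc hc' hct => dist_le_chart her zero_le_one hc hc' hct)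
    (x := e x) (x' := e x') hD (by rw [e.left_inv hxs, e.left_inv hx's])
    (by
      intro ε hε
      obtain ⟨c, c', h1, h2, h3, h4, h5, h6⟩ := exists_chart_curve her (x := x) (y := x')
        (r := R) (ε := min ε (R - dist x x')) (ball_subset_closedBall.trans hR)
        (lt_min hε (by linarith only [hx'R])) (by linarith only [min_le_right ε (R - dist x x')])
      refine ⟨c, c', h1, h2, h3, h4, fun t ht => ?_, ?_⟩
      · obtain ⟨h7, h8⟩ := h5 t ht
        refine ⟨e.symm (c t), ?_, e.right_inv h7⟩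
        rw [mem_closedBall']
        linarith only [h8, min_le_right ε (R - dist x x')]
      · linarith [min_le_left ε (R - dist x x')]) Y
  refine ⟨Y', hY', fun φ₀ φ₁ hφ₀ hφ₁ a a' ha ha' η hη => ?_⟩
  have h1 := H φ₀ φ₁ hφ₀ hφ₁ (fun r k => e (a r k) - e x - r • (I ^ (k:ℕ) • (φ₀ • Y)))
    (fun r k => e (a' r k) - e x' - r • (I ^ (k:ℕ) • (φ₁ • Y'))) ha.2 ha'.2 η hη
  filter_upwards [h1, ha.1, ha'.1] with r hr hr1 hr2
  refine le_trans (le_of_eq ?_) hr
  apply Finset.sum_congr rfl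
  intro k _
  have e1 : e x + ((r * φ₀) • (I ^ (k:ℕ) • Y)
      + (e (a r k) - e x - r • (I ^ (k:ℕ) • (φ₀ • Y)))) = e (a r k) := by
    rw [smul_comm (I ^ (k:ℕ)) φ₀, smul_smul]; abel
  have e2 : e x' + ((r * φ₁) • (I ^ (k:ℕ) • Y')
      + (e (a' r k) - e x' - r • (I ^ (k:ℕ) • (φ₁ • Y')))) = e (a' r k) := by
    rw [smul_comm (I ^ (k:ℕ)) φ₁, smul_smul]; abel
  simp only [e1, e2]
  rw [e.left_inv (hr1 k), e.left_inv (hr2 k)]

/-- a harmonic family with zero error -/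
theorem exists_harm {e : OpenPartialHomeomorph M E} {x : M} (hx : x ∈ e.source) (Y : E) :
    ∃ a : ℝ → Fin 4 → M, Harm e x Y a := by
  refine ⟨fun r k => e.symm (e x + r • (I ^ (k:ℕ) • Y)), ?_⟩
  have hev : ∀ᶠ r in 𝓝[>] (0:ℝ), ∀ k : Fin 4, e x + r • (I ^ (k:ℕ) • Y) ∈ e.target := by
    apply eventually_all.2
    intro k
    have hc : Continuous (fun r : ℝ => e x + r • (I ^ (k:ℕ) • Y)) := continuous_const.add (continuous_id.smul continuous_const)
    have h0 : Tendsto (fun r : ℝ => e x + r • (I ^ (k:ℕ) • Y)) (𝓝[>] (0:ℝ)) (𝓝 (e x)) := by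
      have := (hc.tendsto 0).mono_left (nhdsWithin_le_nhds (s := Ioi (0:ℝ)))
      simpa using this
    exact h0.eventually (e.open_target.mem_nhds (e.map_source hx))
  refine ⟨?_, ?_⟩
  · filter_upwards [hev] with r hr k
    exact e.map_target (hr k)
  · refine isSmall_zero.congr ?_
    filter_upwards [hev] with r hr k
    rw [e.right_inv (hr k)]
    abel

/-- The complex Hessian comparison for the distance to `q` (in the sense of harmonic four point
families). -/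
def LeviBound (q x : M) (A : ℝ) : Prop :=
  ∀ e ∈ maximalAtlas 𝓘(ℂ, E) 1 M, x ∈ e.source → ∀ Y : E, ∀ a : ℝ → Fin 4 → M, Harm e x Y a →
    ∀ η > 0, ∀ᶠ r in 𝓝[>] (0:ℝ), ∑ k, dist (a r k) q ≤ 4 * dist x q
      + r ^ 2 * (A * chartG e (e x) Y Y + η)

theorem levi_step (hK : IsKahler E M) [ProperSpace M] {e : OpenPartialHomeomorph M E}
    (he : e ∈ maximalAtlas 𝓘(ℂ, E) 1 M) {x x' q : M} {R : ℝ} (hR : closedBall x R ⊆ e.source)
    (hx'R : dist x x' < R) (hne : x ≠ x') {κ : ℝ} (hκ : 0 ≤ κ)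
    (hcurv : ∀ y ∈ closedBall x R, ∀ X a,
      κ * chartG e (e y) X X * chartG e (e y) a a ≤ Rc (chartG e) (e y) X a)
    (hdist : dist x q = dist x x' + dist x' q) {A : ℝ} (hA : LeviBound (E := E) q x' A)
    {φ₁ : ℝ} (hφ₁ : 0 ≤ φ₁) :
    LeviBound (E := E) q x (2 * (φ₁ - 1) ^ 2 / dist x x' - 2 * (min 1 φ₁) ^ 2 * κ * dist x x'
      + A * φ₁ ^ 2) := by
  intro e₀ he₀ hxe₀ Y₀ a ha₀ η hη
  have hxs : x ∈ e.source := hR (mem_closedBall_self (dist_nonneg.trans hx'R.le))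
  have hx's : x' ∈ e.source := hR (by rw [mem_closedBall']; exact hx'R.le)
  have ha := ha₀.change he₀ he hxe₀ hxs
  have hNeq := chartG_change he₀ he hxe₀ hxs Y₀ Y₀
  set Y := fderiv ℝ (e ∘ e₀.symm) (e₀ x) Y₀ with hY
  obtain ⟨Y', hY', H⟩ := segment hK he hR hx'R hne hκ hcurv Y
  obtain ⟨a', ha'⟩ := exists_harm (e := e) hx's (φ₁ • Y')
  have h1 := H 1 φ₁ zero_le_one hφ₁ a a' (by rwa [one_smul]) ha' (η / 2) (half_pos hη)
  have h2 := hA e he hx's (φ₁ • Y') a' ha' (η / 2) (half_pos hη)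
  filter_upwards [h1, h2] with r hr1 hr2
  have htri : ∑ k, dist (a r k) q ≤ ∑ k, dist (a r k) (a' r k) + ∑ k, dist (a' r k) q := by
    rw [← Finset.sum_add_distrib]
    exact Finset.sum_le_sum fun k _ => dist_triangle _ _ _
  have e1 : chartG e (e x') (φ₁ • Y') (φ₁ • Y') = φ₁ ^ 2 * chartG e (e x) Y Y := by
    rw [map_smul, map_smul, smul_apply, smul_eq_mul, smul_eq_mul, hY']
    ring
  rw [e1] at hr2
  rw [hNeq] at hr1 hr2
  calc _ ≤ _ := htri
    _ ≤ _ := add_le_add hr1 hr2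
    _ = _ := by rw [hdist]; ring

theorem levi_base (hK : IsKahler E M) [ProperSpace M] {e : OpenPartialHomeomorph M E}
    (he : e ∈ maximalAtlas 𝓘(ℂ, E) 1 M) {x q : M} {R : ℝ} (hR : closedBall x R ⊆ e.source)
    (hqR : dist x q < R) (hne : x ≠ q)
    (hcurv : ∀ y ∈ closedBall x R, ∀ X a, 0 ≤ Rc (chartG e) (e y) X a) :
    LeviBound (E := E) q x (2 / dist x q) := by
  intro e₀ he₀ hxe₀ Y₀ a ha₀ η hη
  have hxs : x ∈ e.source := hR (mem_closedBall_self (dist_nonneg.trans hqR.le))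
  have hqs : q ∈ e.source := hR (by rw [mem_closedBall']; exact hqR.le)
  have ha := ha₀.change he₀ he hxe₀ hxs
  have hNeq := chartG_change he₀ he hxe₀ hxs Y₀ Y₀
  set Y := fderiv ℝ (e ∘ e₀.symm) (e₀ x) Y₀ with hY
  obtain ⟨Y', hY', H⟩ := segment hK he hR hqR hne le_rfl
    (fun y hy X a => by simpa using hcurv y hy X a) Y
  have ha' : Harm e q ((0:ℝ) • Y') (fun _ _ => q) := by
    refine ⟨Eventually.of_forall fun r k => hqs, isSmall_zero.congr (Eventually.of_forall ?_)⟩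
    intro r k
    simp
  have h1 := H 1 0 zero_le_one le_rfl a (fun _ _ => q) (by rwa [one_smul]) ha' η hη
  filter_upwards [h1] with r hr1
  rw [hNeq] at hr1
  refine hr1.trans (le_of_eq ?_)
  ring

theorem levi_bound (hK : IsKahler E M) [ProperSpace M]
    (hnn : ∀ x : M, NonnegBisectionalAt E x) {x q : M} (hne : x ≠ q) :
    LeviBound (E := E) q x (2 / dist x q) := by
  -- Lebesgue number
  obtain ⟨δ, hδ, hleb⟩ := lebesgue_number_lemma_of_metric (s := closedBall q (dist x q))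
    (c := fun y : M => (chartAt E y).source) (isCompact_closedBall _ _)
    (fun y => (chartAt E y).open_source)
    (fun y _ => mem_iUnion.2 ⟨y, mem_chart_source E y⟩)
  have hmain : ∀ n : ℕ, ∀ y : M, dist y q ≤ dist x q → dist y q ≤ (n + 1) * (δ / 4) → y ≠ q →
      LeviBound (E := E) q y (2 / dist y q) := by
    intro n
    induction n with
    | zero =>
      intro y hy1 hy2 hyq
      obtain ⟨i, hi⟩ := hleb y hy1
      have hR : closedBall y (δ / 2) ⊆ (chartAt E i).source :=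
        (closedBall_subset_ball (by linarith only [hδ])).trans hi
      refine levi_base hK (chart_mem_maximalAtlas i) hR ?_ hyq ?_
      · norm_num at hy2; linarith only [hδ, hy2]
      · intro w hw X a
        refine Rc_nonneg_chartG hK (chart_mem_maximalAtlas i)
          ((chartAt E i).map_source (hR hw)) (hnn _) X a
    | succ n ih =>
      intro y hy1 hy2 hyq
      obtain ⟨i, hi⟩ := hleb y hy1
      have hR : closedBall y (δ / 2) ⊆ (chartAt E i).source :=
        (closedBall_subset_ball (by linarith only [hδ])).trans hi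
      have hRc : ∀ w ∈ closedBall y (δ / 2), ∀ X a,
          0 ≤ Rc (chartG (chartAt E i)) (chartAt E i w) X a := fun w hw X a =>
        Rc_nonneg_chartG hK (chart_mem_maximalAtlas i)
          ((chartAt E i).map_source (hR hw)) (hnn _) X a
      by_cases hsmall : dist y q ≤ δ / 4
      · exact levi_base hK (chart_mem_maximalAtlas i) hR (by linarith only [hδ, hsmall]) hyq hRc
      · push Not at hsmall
        obtain ⟨y', hy'1, hy'2⟩ := exists_mid (approxMid_of_riemannian E M) y q (δ / 4)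
          (by positivity) hsmall.le
        have hd' : 0 < dist y' q := by rw [hy'2]; linarith only [hsmall]
        have hy'q : y' ≠ q := dist_pos.1 hd'
        have hyy' : y ≠ y' := by
          rw [← dist_pos, hy'1]; positivity
        have h1 := ih y' (by rw [hy'2]; linarith only [hδ, hy1]) (by
          rw [hy'2]; push_cast at hy2; linarith only [hy2]) hy'q
        have hDpos : 0 < dist y q := dist_pos.2 hyq
        have h2 := levi_step hK (chart_mem_maximalAtlas i) hR (by rw [hy'1]; linarith only [hδ]) hyy' le_rfl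
          (fun w hw X a => by simpa using hRc w hw X a) (by rw [hy'1, hy'2]; ring) h1
          (φ₁ := dist y' q / dist y q) (by positivity)
        convert! h2 using 1
        have e1 : dist y y' = dist y q - dist y' q := by rw [hy'1, hy'2]; ring
        have e2 : 0 < dist y q - dist y' q := by rw [← e1, hy'1]; positivity
        rw [e1]
        field_simp
        ring
  obtain ⟨n, hn⟩ := exists_nat_gt (dist x q / (δ / 4))
  refine hmain n x le_rfl ?_ hne
  rw [div_lt_iff₀ (by positivity)] at hn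
  nlinarith only [hδ, hn]

/-- strict version near a point of positive curvature -/
theorem levi_strict (hK : IsKahler E M) [ProperSpace M]
    (hnn : ∀ x : M, NonnegBisectionalAt E x) {p : M} (hpos : PosBisectionalAt E p) :
    ∃ ρ > 0, ∃ c > 0, ∃ L₀ > 0, ∀ x ∈ ball p ρ, ∀ q : M, L₀ ≤ dist x q →
      LeviBound (E := E) q x (-c) := by
  have hpe := mem_chart_source E p
  have he : chartAt E p ∈ maximalAtlas 𝓘(ℂ, E) 1 M := chart_mem_maximalAtlas p
  set e := chartAt E p with hedef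
  have hLK := localKahler_chartG hK he
  have hpt : e p ∈ e.target := e.map_source hpe
  obtain ⟨κ, hκ, δ, hδ, hball, hcurv⟩ := hLK.exists_kappa hpt (fun X a hX ha =>
    Rc_pos_chartG hK he hpt (by rwa [e.left_inv hpe]) X a hX ha)
  -- a metric ball on which the curvature bound holds
  have hnhds : e.source ∩ e ⁻¹' (closedBall (e p) δ) ∈ 𝓝 p :=
    inter_mem (e.open_source.mem_nhds hpe)
      ((e.continuousAt hpe).preimage_mem_nhds (closedBall_mem_nhds _ hδ))
  obtain ⟨ρ, hρ, hρball⟩ := Metric.mem_nhds_iff.1 hnhds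
  -- step length `d0 = ρ / 4`
  refine ⟨ρ / 4, by positivity, κ * (ρ / 4), by positivity, ρ / 4 + 2 / (κ * (ρ / 4)),
    by positivity, ?_⟩
  intro x hx q hxq
  have hx' : dist x p < ρ / 4 := hx
  have hR : closedBall x (ρ / 2) ⊆ e.source ∩ e ⁻¹' (closedBall (e p) δ) := by
    refine Subset.trans ?_ hρball
    intro y hy
    have : dist y x ≤ ρ / 2 := hy
    have := dist_triangle y x p
    rw [mem_ball]; linarith
  have hpos' : 0 < 2 / (κ * (ρ / 4)) := by positivity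
  obtain ⟨x₁, h1, h2⟩ := exists_mid (approxMid_of_riemannian E M) x q (ρ / 4)
    (by positivity) (by linarith only [hxq, hpos'])
  have hx1q : 0 < dist x₁ q := by rw [h2]; linarith only [hxq, hpos']
  have hb := levi_bound hK hnn (x := x₁) (q := q) (dist_pos.1 hx1q)
  have h3 := levi_step hK he (fun y hy => (hR hy).1) (by rw [h1]; linarith only [hρ])
    (by rw [← dist_pos, h1]; positivity) hκ.le
    (fun y hy X a => hcurv (e y) (hR hy).2 X a) (by rw [h1, h2]; ring) hb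
    (φ₁ := 1) zero_le_one
  -- compare the constants
  intro e₀ he₀ hxe₀ Y₀ a ha₀ η hη
  filter_upwards [h3 e₀ he₀ hxe₀ Y₀ a ha₀ η hη] with r hr
  refine hr.trans ?_
  have hN : 0 ≤ chartG e₀ (e₀ x) Y₀ Y₀ := by
    by_cases h0 : Y₀ = 0
    · simp [h0]
    · exact (chartG_pos (mem_maximalAtlas_real he₀) (e₀.map_source hxe₀) Y₀ h0).le
  have hcmp : 2 * ((1:ℝ) - 1) ^ 2 / dist x x₁ - 2 * (min 1 1) ^ 2 * κ * dist x x₁
      + 2 / dist x₁ q * 1 ^ 2 ≤ -(κ * (ρ / 4)) := by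
    have h4 : 2 / dist x₁ q ≤ κ * (ρ / 4) := by
      rw [div_le_iff₀ hx1q]
      have h5 : 2 / (κ * (ρ / 4)) ≤ dist x₁ q := by rw [h2]; linarith only [hxq]
      rw [div_le_iff₀ (by positivity)] at h5
      linarith only [h5]
    rw [h1, min_self]
    have h6 : 2 * ((1:ℝ) - 1) ^ 2 / (ρ / 4) = 0 := by norm_num
    rw [h6]
    linarith only [h4]
  gcongr

end Vale.Agent.P253.Mfd
end
end
end

section

section

open scoped Manifold ContDiff Topology Bundle
open Set Metric Complex Filter Bundle IsManifold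

set_option maxSynthPendingDepth 3
set_option linter.unusedSectionVars false

noncomputable section

namespace Vale.Agent.P253.Mfd

variable {E : Type*} [NormedAddCommGroup E] [NormedSpace ℂ E] [FiniteDimensional ℂ E]

/-- a real differentiable map whose derivative commutes with `I` is complex differentiable -/
theorem differentiableAt_complex_of_real {F F' : Type*} [NormedAddCommGroup F] [NormedSpace ℂ F]
    [NormedAddCommGroup F'] [NormedSpace ℂ F'] {f : F → F'} {z : F}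
    (hf : DifferentiableAt ℝ f z) (hI : ∀ v, fderiv ℝ f z (I • v) = I • fderiv ℝ f z v) :
    DifferentiableAt ℂ f z := by
  set T := fderiv ℝ f z with hT
  have hmap : ∀ (c : ℂ) (v : F), T (c • v) = c • T v := by
    intro c v
    have e1 : c • v = c.re • v + c.im • (I • v) := by
      conv_lhs => rw [← re_add_im c, add_smul, mul_smul]
      rfl
    have e2 : c • T v = c.re • T v + c.im • (I • T v) := by
      conv_lhs => rw [← re_add_im c, add_smul, mul_smul]
      rfl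
    rw [e1, e2, map_add, map_smul, map_smul, hI]
  let L : F →L[ℂ] F' := ⟨⟨⟨T, map_add T⟩, hmap⟩, T.continuous⟩
  have : HasFDerivAt f L z := hasFDerivAt_of_restrictScalars ℝ hf.hasFDerivAt (by ext v; rfl)
  exact this.differentiableAt

variable {M : Type*} [MetricSpace M] [ChartedSpace E M]

/-- the action in a chart -/
def HF (ρ : ℝ → M → M) (e e' : OpenPartialHomeomorph M E) (q : ℝ × E) : E :=
  e' (ρ q.1 (e.symm q.2))

/-- domain of the action in a chart -/
def HΩ (ρ : ℝ → M → M) (e e' : OpenPartialHomeomorph M E) : Set (ℝ × E) :=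
  {q | q.2 ∈ e.target ∧ ρ q.1 (e.symm q.2) ∈ e'.source}

/-- the generator of the action in a chart -/
def xF (ρ : ℝ → M → M) (e : OpenPartialHomeomorph M E) (z : E) : E :=
  deriv (fun t : ℝ => e (ρ t (e.symm z))) 0

/-- the holomorphic vector field `- J X` in a chart -/
def vF (ρ : ℝ → M → M) (e : OpenPartialHomeomorph M E) (z : E) : E :=
  -(I • xF ρ e z)

theorem I_smul_vF (ρ : ℝ → M → M) (e : OpenPartialHomeomorph M E) (z : E) :
    I • vF ρ e z = xF ρ e z := by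
  rw [vF, smul_neg, smul_smul, I_mul_I, neg_one_smul, neg_neg]

variable [IsManifold 𝓘(ℂ, E) 1 M] [IsManifold 𝓘(ℝ, E) ∞ M]
  [RiemannianBundle (fun x : M => TangentSpace 𝓘(ℝ, E) x)]
  [IsContMDiffRiemannianBundle 𝓘(ℝ, E) ∞ E (fun x : M => TangentSpace 𝓘(ℝ, E) x)]
  {ρ : ℝ → M → M} {e e' : OpenPartialHomeomorph M E}

theorem isOpen_HΩ (hρ : IsHolIsomFlow E ρ) : IsOpen (HΩ ρ e e') := by
  have hc : ContinuousOn (fun q : ℝ × E => ρ q.1 (e.symm q.2)) {q | q.2 ∈ e.target} := by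
    have h1 : ContinuousOn (fun q : ℝ × E => (q.1, e.symm q.2)) {q | q.2 ∈ e.target} :=
      continuousOn_fst.prodMk (e.continuousOn_symm.comp continuousOn_snd (fun q hq => hq))
    exact hρ.smooth.continuous.comp_continuousOn h1
  have ho : IsOpen {q : ℝ × E | q.2 ∈ e.target} := e.open_target.preimage continuous_snd
  exact hc.isOpen_inter_preimage ho e'.open_source

theorem contDiffOn_HF (hρ : IsHolIsomFlow E ρ) (he : e ∈ maximalAtlas 𝓘(ℂ, E) 1 M)
    (he' : e' ∈ maximalAtlas 𝓘(ℂ, E) 1 M) : ContDiffOn ℝ ∞ (HF ρ e e') (HΩ ρ e e') := by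
  have her := mem_maximalAtlas_real he
  have her' := mem_maximalAtlas_real he'
  have h1 : ContMDiffOn (𝓘(ℝ, ℝ).prod 𝓘(ℝ, E)) (𝓘(ℝ, ℝ).prod 𝓘(ℝ, E)) ∞
      (fun q : ℝ × E => (q.1, e.symm q.2)) (HΩ ρ e e') := by
    refine ContMDiffOn.prodMk contMDiffOn_fst ?_
    exact (contMDiffOn_symm_of_mem_maximalAtlas her).comp contMDiffOn_snd (fun q hq => hq.1)
  have h2 := hρ.smooth.comp_contMDiffOn h1
  have h3 := (contMDiffOn_of_mem_maximalAtlas her').comp h2 (fun q hq => hq.2)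
  have h4 : ContMDiffOn 𝓘(ℝ, ℝ × E) 𝓘(ℝ, E) ∞ (HF ρ e e') (HΩ ρ e e') := by
    rw [← modelWithCornersSelf_prod, chartedSpaceSelf_prod] at h3
    exact h3
  exact contMDiffOn_iff_contDiffOn.1 h4

theorem HΩ_slice_holo (hρ : IsHolIsomFlow E ρ) (he : e ∈ maximalAtlas 𝓘(ℂ, E) 1 M)
    (he' : e' ∈ maximalAtlas 𝓘(ℂ, E) 1 M) {t : ℝ} {z : E} (hz : (t, z) ∈ HΩ ρ e e') :
    DifferentiableAt ℂ (fun w => HF ρ e e' (t, w)) z := by
  have h1 : MDifferentiableAt 𝓘(ℂ, E) 𝓘(ℂ, E) e.symm z :=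
    ((contMDiffOn_symm_of_mem_maximalAtlas he).contMDiffAt
      (e.open_target.mem_nhds hz.1)).mdifferentiableAt (by simp)
  have h2 : MDifferentiableAt 𝓘(ℂ, E) 𝓘(ℂ, E) (ρ t) (e.symm z) := hρ.holo t _
  have h3 : MDifferentiableAt 𝓘(ℂ, E) 𝓘(ℂ, E) e' (ρ t (e.symm z)) :=
    ((contMDiffOn_of_mem_maximalAtlas he').contMDiffAt
      (e'.open_source.mem_nhds hz.2)).mdifferentiableAt (by simp)
  have h4 := h3.comp z (h2.comp z h1)
  exact h4.differentiableAt

theorem mem_HΩ_zero (hρ : IsHolIsomFlow E ρ) {z : E} (hz : z ∈ e.target) :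
    (0, z) ∈ HΩ ρ e e := by
  refine ⟨hz, ?_⟩
  simp only [hρ.zero]
  exact e.map_target hz

theorem differentiableAt_HF (hρ : IsHolIsomFlow E ρ)
    (he : e ∈ maximalAtlas 𝓘(ℂ, E) 1 M) (he' : e' ∈ maximalAtlas 𝓘(ℂ, E) 1 M) {q : ℝ × E}
    (hq : q ∈ HΩ ρ e e') : DifferentiableAt ℝ (HF ρ e e') q :=
  ((contDiffOn_HF hρ he he').contDiffAt ((isOpen_HΩ hρ).mem_nhds hq)).differentiableAt (by simp)

theorem contDiffOn_fderiv_HF (hρ : IsHolIsomFlow E ρ)
    (he : e ∈ maximalAtlas 𝓘(ℂ, E) 1 M) (he' : e' ∈ maximalAtlas 𝓘(ℂ, E) 1 M) :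
    ContDiffOn ℝ ∞ (fderiv ℝ (HF ρ e e')) (HΩ ρ e e') :=
  (contDiffOn_HF hρ he he').fderiv_of_isOpen (isOpen_HΩ hρ) (by simp)

theorem hasDerivAt_HF_left (hρ : IsHolIsomFlow E ρ)
    (he : e ∈ maximalAtlas 𝓘(ℂ, E) 1 M) (he' : e' ∈ maximalAtlas 𝓘(ℂ, E) 1 M) {t : ℝ} {z : E}
    (hq : (t, z) ∈ HΩ ρ e e') :
    HasDerivAt (fun s => HF ρ e e' (s, z)) (fderiv ℝ (HF ρ e e') (t, z) (1, 0)) t := by
  have h1 := (differentiableAt_HF hρ he he' hq).hasFDerivAt
  have h2 : HasDerivAt (fun s : ℝ => (s, z)) (1, 0) t :=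
    (hasDerivAt_id t).prodMk (hasDerivAt_const t z)
  exact h1.comp_hasDerivAt t h2

theorem hasFDerivAt_HF_right (hρ : IsHolIsomFlow E ρ)
    (he : e ∈ maximalAtlas 𝓘(ℂ, E) 1 M) (he' : e' ∈ maximalAtlas 𝓘(ℂ, E) 1 M) {t : ℝ} {z : E}
    (hq : (t, z) ∈ HΩ ρ e e') :
    HasFDerivAt (fun w => HF ρ e e' (t, w))
      ((fderiv ℝ (HF ρ e e') (t, z)).comp (ContinuousLinearMap.inr ℝ ℝ E)) z := by
  have h1 := (differentiableAt_HF hρ he he' hq).hasFDerivAt
  have h2 : HasFDerivAt (fun w : E => (t, w)) (ContinuousLinearMap.inr ℝ ℝ E) z :=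
    hasFDerivAt_prodMk_right t z
  exact h1.comp z h2

theorem xF_eq (hρ : IsHolIsomFlow E ρ) (he : e ∈ maximalAtlas 𝓘(ℂ, E) 1 M) {z : E}
    (hz : z ∈ e.target) : xF ρ e z = fderiv ℝ (HF ρ e e) (0, z) (1, 0) :=
  (hasDerivAt_HF_left hρ he he (mem_HΩ_zero hρ hz)).deriv

theorem contDiffOn_xF (hρ : IsHolIsomFlow E ρ) (he : e ∈ maximalAtlas 𝓘(ℂ, E) 1 M) :
    ContDiffOn ℝ ∞ (xF ρ e) e.target := by
  have h1 : ContDiffOn ℝ ∞ (fun z : E => fderiv ℝ (HF ρ e e) (0, z) (1, 0)) e.target := by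
    have h2 : ContDiffOn ℝ ∞ (fun z : E => fderiv ℝ (HF ρ e e) (0, z)) e.target :=
      (contDiffOn_fderiv_HF hρ he he).comp (contDiff_prodMk_right 0).contDiffOn
        (fun z hz => mem_HΩ_zero hρ hz)
    exact h2.clm_apply contDiffOn_const
  exact h1.congr (fun z hz => xF_eq hρ he hz)

/-- derivative of the generator -/
theorem fderiv_xF (hρ : IsHolIsomFlow E ρ) (he : e ∈ maximalAtlas 𝓘(ℂ, E) 1 M) {z : E}
    (hz : z ∈ e.target) (v : E) :
    fderiv ℝ (xF ρ e) z v = fderiv ℝ (fderiv ℝ (HF ρ e e)) (0, z) (1, 0) (0, v) := by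
  have hq := mem_HΩ_zero hρ hz
  have hd : HasFDerivAt (fderiv ℝ (HF ρ e e)) (fderiv ℝ (fderiv ℝ (HF ρ e e)) (0, z)) (0, z) :=
    (((contDiffOn_fderiv_HF hρ he he).contDiffAt
      ((isOpen_HΩ hρ).mem_nhds hq)).differentiableAt (by simp)).hasFDerivAt
  have h1 : HasFDerivAt (fun w : E => fderiv ℝ (HF ρ e e) (0, w))
      ((fderiv ℝ (fderiv ℝ (HF ρ e e)) (0, z)).comp (ContinuousLinearMap.inr ℝ ℝ E)) z :=
    hd.comp z (hasFDerivAt_prodMk_right (0:ℝ) z)
  have h2 := h1.clm_apply (hasFDerivAt_const ((1, 0) : ℝ × E) z)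
  have h3 : (xF ρ e) =ᶠ[𝓝 z] fun w => fderiv ℝ (HF ρ e e) (0, w) (1, 0) := by
    filter_upwards [e.open_target.mem_nhds hz] with w hw using xF_eq hρ he hw
  have h4 := (h2.congr_of_eventuallyEq h3).fderiv
  rw [h4]
  have hs : IsSymmSndFDerivAt ℝ (HF ρ e e) (0, z) :=
    ((contDiffOn_HF hρ he he).contDiffAt ((isOpen_HΩ hρ).mem_nhds hq)).isSymmSndFDerivAt
      (by simpa using! (WithTop.coe_le_coe.2 le_top : ((2 : ℕ∞) : WithTop ℕ∞) ≤ ((⊤ : ℕ∞) : WithTop ℕ∞)))
  rw [hs.eq (1, 0) (0, v)]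
  simp

/-- the derivative in the space direction along the time direction -/
theorem hasDerivAt_fderiv_HF (hρ : IsHolIsomFlow E ρ)
    (he : e ∈ maximalAtlas 𝓘(ℂ, E) 1 M) {z : E} (hz : z ∈ e.target) (v : E) :
    HasDerivAt (fun t : ℝ => fderiv ℝ (HF ρ e e) (t, z) (0, v)) (fderiv ℝ (xF ρ e) z v) 0 := by
  have hq := mem_HΩ_zero hρ hz
  have hd : HasFDerivAt (fderiv ℝ (HF ρ e e)) (fderiv ℝ (fderiv ℝ (HF ρ e e)) (0, z)) (0, z) :=
    (((contDiffOn_fderiv_HF hρ he he).contDiffAt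
      ((isOpen_HΩ hρ).mem_nhds hq)).differentiableAt (by simp)).hasFDerivAt
  have h2 : HasDerivAt (fun s : ℝ => (s, z)) (1, 0) 0 :=
    (hasDerivAt_id (0:ℝ)).prodMk (hasDerivAt_const 0 z)
  have h3 : HasDerivAt (fun t : ℝ => fderiv ℝ (HF ρ e e) (t, z))
      (fderiv ℝ (fderiv ℝ (HF ρ e e)) (0, z) (1, 0)) 0 := hd.comp_hasDerivAt (0:ℝ) h2
  have h4 := h3.clm_apply (hasDerivAt_const (0:ℝ) ((0, v) : ℝ × E))
  rw [fderiv_xF hρ he hz]
  simpa using h4

theorem fderiv_HF_I (hρ : IsHolIsomFlow E ρ)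
    (he : e ∈ maximalAtlas 𝓘(ℂ, E) 1 M) (he' : e' ∈ maximalAtlas 𝓘(ℂ, E) 1 M) {t : ℝ} {z : E}
    (hq : (t, z) ∈ HΩ ρ e e') (v : E) :
    fderiv ℝ (HF ρ e e') (t, z) (0, I • v) = I • fderiv ℝ (HF ρ e e') (t, z) (0, v) := by
  have h1 := (HΩ_slice_holo hρ he he' hq).hasFDerivAt.restrictScalars ℝ
  have h2 := (hasFDerivAt_HF_right hρ he he' hq).unique h1
  have h3 : ∀ w : E, fderiv ℝ (HF ρ e e') (t, z) (0, w) =
      fderiv ℂ (fun w => HF ρ e e' (t, w)) z w := fun w => congrArg (fun T : E →L[ℝ] E => T w) h2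
  rw [h3, h3, map_smul]

theorem differentiableOn_xF (hρ : IsHolIsomFlow E ρ)
    (he : e ∈ maximalAtlas 𝓘(ℂ, E) 1 M) : DifferentiableOn ℂ (xF ρ e) e.target := by
  intro z hz
  apply DifferentiableAt.differentiableWithinAt
  apply differentiableAt_complex_of_real
  · exact ((contDiffOn_xF hρ he).contDiffAt (e.open_target.mem_nhds hz)).differentiableAt (by simp)
  · intro v
    have h1 := hasDerivAt_fderiv_HF hρ he hz (I • v)
    have h2 := (hasDerivAt_fderiv_HF hρ he hz v).const_smul I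
    refine h1.unique (h2.congr_of_eventuallyEq ?_)
    have hopen : {t : ℝ | (t, z) ∈ HΩ ρ e e} ∈ 𝓝 (0:ℝ) :=
      ((isOpen_HΩ hρ).preimage (Continuous.prodMk continuous_id continuous_const : Continuous (fun t : ℝ => (t, z)))).mem_nhds
        (mem_HΩ_zero hρ hz)
    filter_upwards [hopen] with t ht
    exact fderiv_HF_I hρ he he ht v

theorem differentiableOn_vF (hρ : IsHolIsomFlow E ρ)
    (he : e ∈ maximalAtlas 𝓘(ℂ, E) 1 M) : DifferentiableOn ℂ (vF ρ e) e.target :=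
  ((differentiableOn_xF hρ he).const_smul I).neg

theorem contDiffOn_vF (hρ : IsHolIsomFlow E ρ)
    (he : e ∈ maximalAtlas 𝓘(ℂ, E) 1 M) : ContDiffOn ℂ ∞ (vF ρ e) e.target :=
  contDiffOn_of_differentiableOn_complex e.open_target (differentiableOn_vF hρ he)

/-- the generator is invariant and natural -/
theorem xF_change (hρ : IsHolIsomFlow E ρ) (he : e ∈ maximalAtlas 𝓘(ℂ, E) 1 M)
    (he' : e' ∈ maximalAtlas 𝓘(ℂ, E) 1 M) {s : ℝ} {z : E} (hz : (s, z) ∈ HΩ ρ e e') :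
    fderiv ℝ (fun w => HF ρ e e' (s, w)) z (xF ρ e z) = xF ρ e' (HF ρ e e' (s, z)) := by
  have h1 := hasDerivAt_HF_left hρ he he (mem_HΩ_zero hρ hz.1)
  rw [← xF_eq hρ he hz.1] at h1
  have h0 : HF ρ e e (0, z) = z := by simp [HF, hρ.zero, e.right_inv hz.1]
  have h2 := hasFDerivAt_HF_right hρ he he' hz
  rw [h2.fderiv]
  have h3 : HasFDerivAt (fun w => HF ρ e e' (s, w))
      ((fderiv ℝ (HF ρ e e') (s, z)).comp (ContinuousLinearMap.inr ℝ ℝ E)) (HF ρ e e (0, z)) := by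
    rw [h0]; exact h2
  have h4 := h3.comp_hasDerivAt (0:ℝ) h1
  have hz' : HF ρ e e' (s, z) ∈ e'.target := e'.map_source hz.2
  have h5 : (fun t : ℝ => e' (ρ t (e'.symm (HF ρ e e' (s, z))))) =ᶠ[𝓝 0]
      ((fun w => HF ρ e e' (s, w)) ∘ fun t => HF ρ e e (t, z)) := by
    have hopen : {t : ℝ | (t, z) ∈ HΩ ρ e e} ∈ 𝓝 (0:ℝ) :=
      ((isOpen_HΩ hρ).preimage (Continuous.prodMk continuous_id continuous_const : Continuous (fun t : ℝ => (t, z)))).mem_nhds
        (mem_HΩ_zero hρ hz.1)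
    filter_upwards [hopen] with t ht
    simp only [HF, Function.comp_apply]
    rw [e'.left_inv hz.2, e.left_inv ht.2, ← hρ.add, ← hρ.add, add_comm]
  have h6 := (h4.congr_of_eventuallyEq h5).deriv
  exact h6.symm

theorem vF_change (hρ : IsHolIsomFlow E ρ) (he : e ∈ maximalAtlas 𝓘(ℂ, E) 1 M)
    (he' : e' ∈ maximalAtlas 𝓘(ℂ, E) 1 M) {s : ℝ} {z : E} (hz : (s, z) ∈ HΩ ρ e e') :
    fderiv ℝ (fun w => HF ρ e e' (s, w)) z (vF ρ e z) = vF ρ e' (HF ρ e e' (s, z)) := by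
  rw [vF, vF, map_neg, ← xF_change hρ he he' hz]
  congr 1
  have h1 := (HΩ_slice_holo hρ he he' hz).hasFDerivAt.restrictScalars ℝ
  rw [h1.fderiv]
  exact map_smul (fderiv ℂ (fun w => HF ρ e e' (s, w)) z) I (xF ρ e z)

/-- the action preserves the metric, in charts -/
theorem chartG_HF (hρ : IsHolIsomFlow E ρ) (he : e ∈ maximalAtlas 𝓘(ℂ, E) 1 M)
    (he' : e' ∈ maximalAtlas 𝓘(ℂ, E) 1 M) {s : ℝ} {z : E} (hz : (s, z) ∈ HΩ ρ e e') (v w : E) :
    chartG e' (HF ρ e e' (s, z)) (fderiv ℝ (fun w => HF ρ e e' (s, w)) z v)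
      (fderiv ℝ (fun w => HF ρ e e' (s, w)) z w) = chartG e z v w := by
  have her := mem_maximalAtlas_real he
  have her' := mem_maximalAtlas_real he'
  have h1 : e'.symm ∘ (fun w => HF ρ e e' (s, w)) =ᶠ[𝓝 z] ρ s ∘ e.symm := by
    have hopen : {w : E | (s, w) ∈ HΩ ρ e e'} ∈ 𝓝 z :=
      ((isOpen_HΩ hρ).preimage (Continuous.prodMk continuous_const continuous_id : Continuous (fun w : E => (s, w)))).mem_nhds hz
    filter_upwards [hopen] with w hw
    simp only [HF, Function.comp_apply]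
    rw [e'.left_inv hw.2]
  have hd : DifferentiableAt ℝ (fun w => HF ρ e e' (s, w)) z :=
    (hasFDerivAt_HF_right hρ he he' hz).differentiableAt
  have h3 : MDifferentiableAt 𝓘(ℝ, E) 𝓘(ℝ, E) e'.symm (HF ρ e e' (s, z)) :=
    ((contMDiffOn_symm_of_mem_maximalAtlas her').contMDiffAt
      (e'.open_target.mem_nhds (e'.map_source hz.2))).mdifferentiableAt (by simp)
  have h4 : MDifferentiableAt 𝓘(ℝ, E) 𝓘(ℝ, E) e.symm z :=
    ((contMDiffOn_symm_of_mem_maximalAtlas her).contMDiffAt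
      (e.open_target.mem_nhds hz.1)).mdifferentiableAt (by simp)
  have h5 : MDifferentiableAt 𝓘(ℝ, E) 𝓘(ℝ, E) (ρ s) (e.symm z) := by
    have h6 : ContMDiff 𝓘(ℝ, E) (𝓘(ℝ, ℝ).prod 𝓘(ℝ, E)) ∞ (fun x : M => (s, x)) :=
      contMDiff_const.prodMk contMDiff_id
    exact ((hρ.smooth.comp h6) (e.symm z)).mdifferentiableAt (by simp)
  have h6 := mfderiv_comp z h3 hd.mdifferentiableAt
  have h7 := mfderiv_comp z h5 h4
  rw [h1.mfderiv_eq, h7, mfderiv_eq_fderiv] at h6
  have h8 : ∀ v : E, dsymm e' (HF ρ e e' (s, z)) (fderiv ℝ (fun w => HF ρ e e' (s, w)) z v) =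
      (mfderiv 𝓘(ℝ, E) 𝓘(ℝ, E) (ρ s) (e.symm z) : E → E) (dsymm e z v) := by
    intro v
    exact (congrArg (fun T : E →L[ℝ] E => T v) h6).symm
  have hp : e'.symm (HF ρ e e' (s, z)) = ρ s (e.symm z) := by
    simp only [HF]; rw [e'.left_inv hz.2]
  rw [chartG_eq_innerAt, chartG_eq_innerAt, h8, h8, hp]
  exact hρ.isom s (e.symm z) (dsymm e z v) (dsymm e z w)

/-- the Killing equation -/
theorem killing_vF (hρ : IsHolIsomFlow E ρ) (he : e ∈ maximalAtlas 𝓘(ℂ, E) 1 M) :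
    Killing (chartG e) (vF ρ e) e.target := by
  have her := mem_maximalAtlas_real he
  intro z hz a
  have hG : DifferentiableAt ℝ (chartG e) z :=
    ((contDiffOn_chartG her).contDiffAt (e.open_target.mem_nhds hz)).differentiableAt (by simp)
  have hq := mem_HΩ_zero hρ hz
  have h0 : HF ρ e e (0, z) = z := by simp [HF, hρ.zero, e.right_inv hz]
  have h1 := hasDerivAt_HF_left hρ he he hq
  rw [← xF_eq hρ he hz] at h1
  have hG' : HasFDerivAt (chartG e) (fderiv ℝ (chartG e) z) (HF ρ e e (0, z)) := by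
    rw [h0]; exact hG.hasFDerivAt
  have h2 : HasDerivAt (fun t => chartG e (HF ρ e e (t, z))) (fderiv ℝ (chartG e) z (xF ρ e z)) 0 :=
    HasFDerivAt.comp_hasDerivAt (f := fun s => HF ρ e e (s, z)) (0:ℝ) hG' h1
  have h3 := hasDerivAt_fderiv_HF hρ he hz a
  have hid : fderiv ℝ (HF ρ e e) (0, z) (0, a) = a := by
    have h4 := hasFDerivAt_HF_right hρ he he hq
    have h5 : (fun w => HF ρ e e (0, w)) =ᶠ[𝓝 z] id := by
      filter_upwards [e.open_target.mem_nhds hz] with w hw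
      simp [HF, hρ.zero, e.right_inv hw]
    have h6 := (h4.congr_of_eventuallyEq h5.symm).unique (hasFDerivAt_id z)
    exact congrArg (fun T : E →L[ℝ] E => T a) h6
  have h4 := (h2.clm_apply h3).clm_apply h3
  rw [h0, hid] at h4
  have h5 : (fun t : ℝ => chartG e (HF ρ e e (t, z)) (fderiv ℝ (HF ρ e e) (t, z) (0, a))
      (fderiv ℝ (HF ρ e e) (t, z) (0, a))) =ᶠ[𝓝 0] fun _ => chartG e z a a := by
    have hopen : {t : ℝ | (t, z) ∈ HΩ ρ e e} ∈ 𝓝 (0:ℝ) :=
      ((isOpen_HΩ hρ).preimage (Continuous.prodMk continuous_id continuous_const : Continuous (fun t : ℝ => (t, z)))).mem_nhds hq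
    filter_upwards [hopen] with t ht
    have h6 := chartG_HF hρ he he ht a a
    rw [(hasFDerivAt_HF_right hρ he he ht).fderiv] at h6
    exact h6
  have h6 := (h4.congr_of_eventuallyEq h5.symm).unique (hasDerivAt_const (0:ℝ) _)
  have h7 : I • vF ρ e z = xF ρ e z := I_smul_vF ρ e z
  have h8 : I • fderiv ℝ (vF ρ e) z a = fderiv ℝ (xF ρ e) z a := by
    have h9 : HasFDerivAt (vF ρ e) (-(I • fderiv ℝ (xF ρ e) z)) z := by
      have h10 : HasFDerivAt (xF ρ e) (fderiv ℝ (xF ρ e) z) z :=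
        (((contDiffOn_xF hρ he).contDiffAt (e.open_target.mem_nhds hz)).differentiableAt
          (by simp)).hasFDerivAt
      exact (h10.const_smul I).neg
    rw [h9.fderiv]
    simp only [neg_apply, smul_apply]
    rw [smul_neg, smul_smul, I_mul_I, neg_one_smul, neg_neg]
  rw [h7, h8]
  rw [chartG_symm e z a] at h6
  simp only [add_apply] at h6
  linarith only [h6]

end Vale.Agent.P253.Mfd
end
end
end

section

section

open scoped Manifold ContDiff Topology Bundle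
open Set Metric Complex Filter Bundle IsManifold Manifold

set_option maxSynthPendingDepth 3
set_option linter.unusedSectionVars false

noncomputable section

namespace Vale.Agent.P253.Mfd

variable {E : Type*} [NormedAddCommGroup E] [NormedSpace ℂ E] [FiniteDimensional ℂ E]
variable {M : Type*} [MetricSpace M] [ChartedSpace E M]

/-- the vector field `-JX`, with values in the model space -/
def WE (ρ : ℝ → M → M) (x : M) : E := vF (E := E) ρ (chartAt E x) (chartAt E x x)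

/-- the vector field `-JX` as a section of the tangent bundle -/
def W (ρ : ℝ → M → M) (x : M) : TangentSpace 𝓘(ℝ, E) x := WE (E := E) ρ x

variable [IsManifold 𝓘(ℂ, E) 1 M] [IsManifold 𝓘(ℝ, E) ∞ M]
  [RiemannianBundle (fun x : M => TangentSpace 𝓘(ℝ, E) x)]
  [IsContMDiffRiemannianBundle 𝓘(ℝ, E) ∞ E (fun x : M => TangentSpace 𝓘(ℝ, E) x)]
  {ρ : ℝ → M → M} {e e' : OpenPartialHomeomorph M E}

omit [IsManifold 𝓘(ℂ, E) 1 M] [IsManifold 𝓘(ℝ, E) ∞ M]
  [RiemannianBundle (fun x : M => TangentSpace 𝓘(ℝ, E) x)]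
  [IsContMDiffRiemannianBundle 𝓘(ℝ, E) ∞ E (fun x : M => TangentSpace 𝓘(ℝ, E) x)] in
theorem hasFDerivAt_dsymm (her : e ∈ maximalAtlas 𝓘(ℝ, E) ∞ M) {z : E} (hz : z ∈ e.target) :
    HasFDerivAt (chartAt E (e.symm z) ∘ e.symm) (dsymm e z) z := by
  have hmd : MDifferentiableAt 𝓘(ℝ, E) 𝓘(ℝ, E) e.symm z :=
    ((contMDiffOn_symm_of_mem_maximalAtlas her).contMDiffAt
      (e.open_target.mem_nhds hz)).mdifferentiableAt (by simp)
  have h1 : HasFDerivWithinAt (chartAt E (e.symm z) ∘ e.symm) (dsymm e z)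
      (range 𝓘(ℝ, E)) z := hmd.hasMFDerivAt.2
  rw [modelWithCornersSelf_coe, range_id, hasFDerivWithinAt_univ] at h1
  exact h1

/-- derivative of a chart as an endomorphism of the model space -/
def dchart (e : OpenPartialHomeomorph M E) (x : M) : E →L[ℝ] E :=
  mfderiv 𝓘(ℝ, E) 𝓘(ℝ, E) e x

theorem dsymm_vF (hρ : IsHolIsomFlow E ρ) (he : e ∈ maximalAtlas 𝓘(ℂ, E) 1 M) {x : M}
    (hx : x ∈ e.source) : dsymm e (e x) (vF ρ e (e x)) = WE ρ x := by
  have her := mem_maximalAtlas_real he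
  have hz : e x ∈ e.target := e.map_source hx
  have h1 := (hasFDerivAt_dsymm her hz).fderiv
  have hq : (0, e x) ∈ HΩ ρ e (chartAt E x) := by
    refine ⟨hz, ?_⟩
    simp only [hρ.zero, e.left_inv hx]
    exact mem_chart_source E x
  have h2 := vF_change hρ he (chart_mem_maximalAtlas x) hq
  have h3 : (fun w => HF ρ e (chartAt E x) (0, w)) = chartAt E x ∘ e.symm := by
    funext w; simp [HF, hρ.zero]
  rw [h3] at h2
  have h4 : HF ρ e (chartAt E x) (0, e x) = chartAt E x x := by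
    simp [HF, hρ.zero, e.left_inv hx]
  rw [h4] at h2
  rw [e.left_inv hx] at h1
  rw [← h1, h2]
  rfl

theorem mfderiv_W (hρ : IsHolIsomFlow E ρ) (he : e ∈ maximalAtlas 𝓘(ℂ, E) 1 M) {x : M}
    (hx : x ∈ e.source) :
    dchart e x (WE ρ x) = vF ρ e (e x) := by
  have her := mem_maximalAtlas_real he
  have hz : e x ∈ e.target := e.map_source hx
  have h1 := (mdifferentiable_chart her).comp_symm_deriv hz
  rw [← dsymm_vF hρ he hx]
  rw [e.left_inv hx] at h1
  exact congrArg (fun T : E →L[ℝ] E => T (vF ρ e (e x))) h1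

theorem IntegralCurve.hasDerivWithinAt (hρ : IsHolIsomFlow E ρ)
    (he : e ∈ maximalAtlas 𝓘(ℂ, E) 1 M) {γ : ℝ → M} {s : Set ℝ}
    (hγ : IsMIntegralCurveOn (I := 𝓘(ℝ, E)) γ (W ρ) s) {t : ℝ} (ht : t ∈ s)
    (hsrc : γ t ∈ e.source) : HasDerivWithinAt (e ∘ γ) (vF ρ e (e (γ t))) s t := by
  have her := mem_maximalAtlas_real he
  have h1 := hγ t ht
  have h2 : HasMFDerivAt 𝓘(ℝ, E) 𝓘(ℝ, E) e (γ t) (mfderiv 𝓘(ℝ, E) 𝓘(ℝ, E) e (γ t)) :=
    (((contMDiffOn_of_mem_maximalAtlas her).contMDiffAt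
      (e.open_source.mem_nhds hsrc)).mdifferentiableAt (by simp)).hasMFDerivAt
  have h3 := h2.comp_hasMFDerivWithinAt t h1
  have h4 : HasFDerivWithinAt (e ∘ γ)
      ((dchart e (γ t)).comp ((1 : ℝ →L[ℝ] ℝ).smulRight (WE ρ (γ t)))) s t := by
    have h5 := h3.2
    have h6 : HasFDerivWithinAt (e ∘ γ)
      ((dchart e (γ t)).comp ((1 : ℝ →L[ℝ] ℝ).smulRight (WE ρ (γ t))))
      ((extChartAt 𝓘(ℝ, ℝ) t).symm ⁻¹' s ∩ range 𝓘(ℝ, ℝ)) t := h5
    rw [modelWithCornersSelf_coe, range_id, inter_univ] at h6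
    exact h6
  have h5 := h4.hasDerivWithinAt
  rw [← mfderiv_W hρ he hsrc]
  refine HasDerivWithinAt.congr_deriv h5 ?_
  simp

theorem IntegralCurve.hasDerivAt (hρ : IsHolIsomFlow E ρ)
    (he : e ∈ maximalAtlas 𝓘(ℂ, E) 1 M) {γ : ℝ → M} {s : Set ℝ}
    (hγ : IsMIntegralCurveOn (I := 𝓘(ℝ, E)) γ (W ρ) s) {t : ℝ} (ht : s ∈ 𝓝 t)
    (hsrc : γ t ∈ e.source) : HasDerivAt (e ∘ γ) (vF ρ e (e (γ t))) t :=
  (IntegralCurve.hasDerivWithinAt hρ he hγ (mem_of_mem_nhds ht) hsrc).hasDerivAt ht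

theorem IntegralCurve.of_chart (hρ : IsHolIsomFlow E ρ)
    (he : e ∈ maximalAtlas 𝓘(ℂ, E) 1 M) {y : ℝ → E} {t : ℝ}
    (hy : HasDerivAt y (vF ρ e (y t)) t) (hyt : y t ∈ e.target) :
    HasMFDerivAt 𝓘(ℝ, ℝ) 𝓘(ℝ, E) (e.symm ∘ y) t
      ((1 : ℝ →L[ℝ] ℝ).smulRight (W ρ (e.symm (y t)))) := by
  have her := mem_maximalAtlas_real he
  have h1 : HasMFDerivAt 𝓘(ℝ, E) 𝓘(ℝ, E) e.symm (y t) (mfderiv 𝓘(ℝ, E) 𝓘(ℝ, E) e.symm (y t)) :=
    (((contMDiffOn_symm_of_mem_maximalAtlas her).contMDiffAt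
      (e.open_target.mem_nhds hyt)).mdifferentiableAt (by simp)).hasMFDerivAt
  have h2 := h1.comp t hy.hasFDerivAt.hasMFDerivAt
  have h3 := dsymm_vF hρ he (e.map_target hyt)
  rw [e.right_inv hyt] at h3
  have h4 : ((1 : ℝ →L[ℝ] ℝ).smulRight (WE ρ (e.symm (y t)))) =
      (dsymm e (y t)).comp (ContinuousLinearMap.toSpanSingleton ℝ (vF ρ e (y t))) := by
    ext
    simp [h3]
  have key : ∀ (L L' : ℝ →L[ℝ] E), L = L' →
      HasMFDerivAt 𝓘(ℝ, ℝ) 𝓘(ℝ, E) (e.symm ∘ y) t L →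
      HasMFDerivAt 𝓘(ℝ, ℝ) 𝓘(ℝ, E) (e.symm ∘ y) t L' := by
    rintro L _ rfl h; exact h
  exact key _ _ h4.symm h2

/-- `vF` as a section of the tangent bundle of the model space -/
def vFT (ρ : ℝ → M → M) (e : OpenPartialHomeomorph M E) (z : E) : TangentSpace 𝓘(ℝ, E) z :=
  vF (E := E) ρ e z

set_option backward.isDefEq.respectTransparency false in
/-- the vector field is smooth -/
theorem contMDiff_W (hρ : IsHolIsomFlow E ρ) :
    ContMDiff 𝓘(ℝ, E) 𝓘(ℝ, E).tangent 1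
      (fun x : M => (⟨x, W ρ x⟩ : TangentBundle 𝓘(ℝ, E) M)) := by
  intro x₀
  set e := chartAt E x₀ with hedef
  have he : e ∈ maximalAtlas 𝓘(ℂ, E) 1 M := chart_mem_maximalAtlas x₀
  have her := mem_maximalAtlas_real he
  have hx₀ : x₀ ∈ e.source := mem_chart_source E x₀
  have h1 : ContMDiffOn 𝓘(ℝ, E) 𝓘(ℝ, E) ∞ e.symm e.target :=
    contMDiffOn_symm_of_mem_maximalAtlas her
  have h2 : ContMDiffOn 𝓘(ℝ, E).tangent 𝓘(ℝ, E).tangent 1
      (tangentMapWithin 𝓘(ℝ, E) 𝓘(ℝ, E) e.symm e.target) (Bundle.TotalSpace.proj ⁻¹' e.target) :=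
    h1.contMDiffOn_tangentMapWithin (by
      simpa using! (WithTop.coe_le_coe.2 le_top : ((2 : ℕ∞) : WithTop ℕ∞) ≤ ((⊤ : ℕ∞) : WithTop ℕ∞)))
      e.open_target.uniqueMDiffOn
  have hvr : ContDiffOn ℝ 1 (vF ρ e) e.target :=
    ((contDiffOn_vF hρ he).restrict_scalars ℝ).of_le (by simp)
  have h3 : ContMDiffOn 𝓘(ℝ, E) 𝓘(ℝ, E).tangent 1
      (fun z : E => (⟨z, vFT ρ e z⟩ : TangentBundle 𝓘(ℝ, E) E)) e.target :=
    (contMDiffOn_vectorSpace_iff_contDiffOn (V := fun z : E => vFT ρ e z)).2 hvr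
  have h4 := h2.comp h3 (fun z hz => hz)
  have h5 : ContMDiffOn 𝓘(ℝ, E) 𝓘(ℝ, E) 1 e e.source :=
    (contMDiffOn_of_mem_maximalAtlas her).of_le (by simp)
  have h6 := h4.comp h5 (fun x hx => e.map_source hx)
  refine (h6.congr (fun x hx => ?_)).contMDiffAt (e.open_source.mem_nhds hx₀)
  simp only [Function.comp, tangentMapWithin]
  rw [mfderivWithin_of_isOpen e.open_target (e.map_source hx)]
  have h7 := dsymm_vF hρ he hx
  apply Bundle.TotalSpace.ext
  · exact (e.left_inv hx).symm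
  · apply heq_of_eq
    exact h7.symm

end Vale.Agent.P253.Mfd
end
end
end

section

section

open scoped Manifold ContDiff Topology Bundle
open Set Metric Complex Filter Bundle IsManifold

set_option maxSynthPendingDepth 3
set_option linter.unusedSectionVars false

noncomputable section

namespace Vale.Agent.P253.Mfd

variable {E : Type*} [NormedAddCommGroup E] [NormedSpace ℂ E] [FiniteDimensional ℂ E]
  {M : Type*} [MetricSpace M] [ChartedSpace E M]

/-- holomorphic curves give harmonic four point families -/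
theorem harm_of_holo {e : OpenPartialHomeomorph M E} {w : ℂ → E} (hw : Differentiable ℂ w)
    (hwt : ∀ ζ, w ζ ∈ e.target) (ζ₀ : ℂ) :
    Harm e (e.symm (w ζ₀)) (deriv w ζ₀) (fun r k => e.symm (w (ζ₀ + r * I ^ (k:ℕ)))) := by
  refine ⟨Eventually.of_forall fun r k => e.map_target (hwt _), ?_⟩
  have h1 := isSmall_map (E := E) isOpen_univ (hw.differentiableOn (s := univ)) (mem_univ ζ₀) (1:ℂ)
    (isSmall_zero (E := ℂ))
  refine h1.congr (Eventually.of_forall fun r k => ?_)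
  have hd : fderiv ℝ w ζ₀ 1 = deriv w ζ₀ := by
    rw [((hw ζ₀).hasFDerivAt.restrictScalars ℝ).fderiv]
    simp
  rw [hd, e.right_inv (hwt _), e.right_inv (hwt _)]
  simp

variable [IsManifold 𝓘(ℂ, E) 1 M] [IsManifold 𝓘(ℝ, E) ∞ M]
  [RiemannianBundle (fun x : M => TangentSpace 𝓘(ℝ, E) x)]
  [IsContMDiffRiemannianBundle 𝓘(ℝ, E) ∞ E (fun x : M => TangentSpace 𝓘(ℝ, E) x)]
  [IsRiemannianManifold 𝓘(ℝ, E) M]

/-- the closure of the orbit of `q` -/
def orb (ρ : ℝ → M → M) (q : M) : Set M := closure (range (fun θ => ρ θ q))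

theorem mem_orb {ρ : ℝ → M → M} (q : M) (θ : ℝ) : ρ θ q ∈ orb ρ q := subset_closure ⟨θ, rfl⟩

theorem dist_orb {ρ : ℝ → M → M} (hρ : IsHolIsomFlow E ρ) {p : M} (hp : ∀ θ, ρ θ p = p) (q : M)
    {y : M} (hy : y ∈ orb ρ q) : dist p y = dist p q := by
  have hc : IsClosed {y : M | dist p y = dist p q} :=
    isClosed_eq (continuous_const.dist continuous_id) continuous_const
  refine closure_minimal ?_ hc hy
  rintro _ ⟨θ, rfl⟩
  simp only [mem_setOf_eq]
  conv_lhs => rw [← hp θ]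
  exact hρ.dist_eq θ p q

theorem isCompact_orb [ProperSpace M] {ρ : ℝ → M → M} (hρ : IsHolIsomFlow E ρ) {p : M}
    (hp : ∀ θ, ρ θ p = p) (q : M) : IsCompact (orb ρ q) := by
  refine (isCompact_closedBall p (dist p q)).of_isClosed_subset isClosed_closure ?_
  intro y hy
  rw [mem_closedBall']
  exact (dist_orb hρ hp q hy).le

theorem orb_invariant {ρ : ℝ → M → M} (hρ : IsHolIsomFlow E ρ) (q : M) (θ : ℝ) {y : M}
    (hy : y ∈ orb ρ q) : ρ θ y ∈ orb ρ q := by
  have hc : Continuous (ρ θ) := (hρ.contMDiff θ).continuous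
  have h1 : ρ θ y ∈ closure (ρ θ '' range (fun θ => ρ θ q)) :=
    image_closure_subset_closure_image hc ⟨y, hy, rfl⟩
  refine closure_mono ?_ h1
  rintro _ ⟨_, ⟨s, rfl⟩, rfl⟩
  exact ⟨θ + s, hρ.add θ s q⟩

theorem infDist_orb [ProperSpace M] {ρ : ℝ → M → M} (hρ : IsHolIsomFlow E ρ) {p : M}
    (hp : ∀ θ, ρ θ p = p) (q x : M) (θ : ℝ) :
    infDist (ρ θ x) (orb ρ q) = infDist x (orb ρ q) := by
  have key : ∀ x θ, infDist (ρ θ x) (orb ρ q) ≤ infDist x (orb ρ q) := by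
    intro x θ
    obtain ⟨y, hyo, hy⟩ := (isCompact_orb hρ hp q).exists_infDist_eq_dist ⟨_, mem_orb q 0⟩ x
    rw [hy]
    exact (infDist_le_dist_of_mem (orb_invariant hρ q θ hyo)).trans (hρ.dist_eq θ x y).le
  refine le_antisymm (key x θ) ?_
  have h1 := key (ρ θ x) (-θ)
  rwa [← hρ.add, neg_add_cancel, hρ.zero] at h1

/-- second difference bound for the distance to an orbit -/
theorem second_diff [ProperSpace M] {ρ : ℝ → M → M} (hρ : IsHolIsomFlow E ρ) {p : M}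
    (hp : ∀ θ, ρ θ p = p)
    {e : OpenPartialHomeomorph M E} (he : e ∈ maximalAtlas 𝓘(ℂ, E) 1 M) {w : ℂ → E}
    (hw : Differentiable ℂ w) (hwt : ∀ ζ, w ζ ∈ e.target)
    (heq : ∀ (θ : ℝ) (ζ : ℂ), ρ θ (e.symm (w ζ)) = e.symm (w (ζ + θ * I))) (q : M) (t : ℝ) {A : ℝ}
    (hA : ∀ y ∈ orb ρ q, LeviBound (E := E) y (e.symm (w t)) A) {η : ℝ} (hη : 0 < η) :
    ∀ᶠ r in 𝓝[>] (0:ℝ), (-A * chartG e (w t) (deriv w t) (deriv w t) - η) * r ^ 2 ≤
      -infDist (e.symm (w ((t + r : ℝ) : ℂ))) (orb ρ q)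
        + -infDist (e.symm (w ((t - r : ℝ) : ℂ))) (orb ρ q)
        - 2 * -infDist (e.symm (w (t : ℂ))) (orb ρ q) := by
  obtain ⟨y, hyo, hy⟩ := (isCompact_orb hρ hp q).exists_infDist_eq_dist ⟨_, mem_orb q 0⟩
    (e.symm (w (t : ℂ)))
  have h1 := hA y hyo e he (e.map_target (hwt _)) (deriv w t) _ (harm_of_holo hw hwt (t:ℂ)) η hη
  filter_upwards [h1] with r hr
  rw [e.right_inv (hwt _)] at hr
  rw [Fin.sum_univ_four] at hr
  have h3 : (I : ℂ) ^ 3 = -I := by rw [pow_succ, I_sq]; ring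
  simp only [Fin.val_zero, Fin.val_one, Fin.val_two, pow_zero, pow_one, I_sq,
    show ((3 : Fin 4) : ℕ) = 3 from rfl, h3, mul_one, mul_neg] at hr
  have e1 : infDist (e.symm (w ((t + r : ℝ) : ℂ))) (orb ρ q) ≤ dist (e.symm (w (t + r))) y := by
    have := infDist_le_dist_of_mem (x := e.symm (w ((t + r : ℝ) : ℂ))) hyo
    push_cast at this ⊢
    exact this
  have e2 : infDist (e.symm (w ((t - r : ℝ) : ℂ))) (orb ρ q) ≤ dist (e.symm (w (t + -r))) y := by
    have := infDist_le_dist_of_mem (x := e.symm (w ((t - r : ℝ) : ℂ))) hyo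
    push_cast at this ⊢
    rwa [← sub_eq_add_neg]
  have e3 : infDist (e.symm (w (t : ℂ))) (orb ρ q) ≤ dist (e.symm (w (t + r * I))) y := by
    rw [← infDist_orb hρ hp q _ r, heq]
    exact infDist_le_dist_of_mem hyo
  have e4 : infDist (e.symm (w (t : ℂ))) (orb ρ q) ≤ dist (e.symm (w (t + -(r * I)))) y := by
    rw [← infDist_orb hρ hp q _ (-r), heq]
    have : ((-r : ℝ) : ℂ) * I = -(r * I) := by push_cast; ring
    rw [this]
    exact infDist_le_dist_of_mem hyo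
  rw [← hy] at hr
  linarith only [hr, e1, e2, e3, e4]

omit [FiniteDimensional ℂ E] in
theorem slope_lemma {f : ℝ → ℝ} {c₁ D : ℝ} (hD : 0 ≤ D)
    (hconv : ∀ a < 0, ConvexOn ℝ (Icc a 0) f)
    (hbound : ∀ a ≤ 0, ∀ b ≤ 0, f a - f b ≤ D)
    (hstrict : ConvexOn ℝ (Icc (-1) 0) (fun t => f t - c₁ * t ^ 2 / 2)) {μ T : ℝ} (hT : 0 < T)
    (hμ : ConvexOn ℝ (Icc (-1) T) (fun t => f t + μ * t ^ 2 / 2)) :
    c₁ * T / 2 - μ * T / 4 - μ * T ^ 2 / 2 ≤ f T - f 0 := by
  -- monotonicity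
  have h1 : 0 ≤ f (-1/2) - f (-1) := by
    by_contra hneg
    push Not at hneg
    set ε := -(f (-1/2) - f (-1)) with hε
    have hε0 : 0 < ε := by linarith only [hneg, hε]
    set L := (D + 1) / ε with hL
    have hL0 : 0 < L := by positivity
    have h2 := (hconv (-1 - L) (by linarith only [hL0])).slope_mono_adjacent (x := -1 - L) (y := -1)
      (z := -1/2) ⟨le_rfl, by linarith only [hL0]⟩ ⟨by linarith only [hL0], by norm_num⟩ (by linarith only [hL0]) (by norm_num)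
    have h3 := hbound (-1 - L) (by linarith only [hL0]) (-1) (by norm_num)
    have e1 : (-1 : ℝ) - (-1 - L) = L := by ring
    have e2 : (-1/2 : ℝ) - (-1) = 1/2 := by norm_num
    rw [e1, e2, div_le_iff₀ hL0] at h2
    have e3 : (f (-1/2) - f (-1)) / (1/2) * L = -(2 * (D + 1)) := by
      have : f (-1/2) - f (-1) = -ε := by rw [hε]; ring
      rw [this, hL]
      field_simp
    rw [e3] at h2
    linarith only [hD, h2, h3]
  have h2 := hstrict.slope_mono_adjacent (x := -1) (y := -1/2) (z := 0)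
    ⟨le_rfl, by norm_num⟩ ⟨by norm_num, le_rfl⟩ (by norm_num) (by norm_num)
  norm_num at h2
  have h3 := hμ.slope_mono_adjacent (x := -1/2) (y := 0) (z := T)
    ⟨by norm_num, by linarith only [hT]⟩ ⟨by linarith only [hT], le_rfl⟩ (by norm_num) hT
  have e1 : (0 : ℝ) - (-1/2) = 1/2 := by norm_num
  rw [e1, sub_zero, le_div_iff₀ hT] at h3
  norm_num at h3
  have h1' : 0 ≤ f (-(1/2)) - f (-1) := by
    have : (-1/2 : ℝ) = -(1/2) := by ring
    rwa [this] at h1
  have h4 : c₁ / 4 ≤ f 0 - f (-(1/2)) := by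
    linarith only [h1, h2]
  have h5 : 2 * (c₁ / 4 - μ / 8) * T ≤ 2 * (f 0 - f (-(1/2)) - μ / 8) * T := by
    gcongr
  nlinarith only [h3, h5]

theorem LeviBound.mono {q x : M} {A A' : ℝ} (h : LeviBound (E := E) q x A) (hAA' : A ≤ A') :
    LeviBound (E := E) q x A' := by
  intro e he hx Y a ha η hη
  filter_upwards [h e he hx Y a ha η hη] with r hr
  refine hr.trans ?_
  have hN : 0 ≤ chartG e (e x) Y Y := by
    by_cases h0 : Y = 0
    · simp [h0]
    · exact (chartG_pos (mem_maximalAtlas_real he) (e.map_source hx) Y h0).le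
  gcongr

theorem growth (hK : IsKahler E M) [ProperSpace M] (hnn : ∀ x : M, NonnegBisectionalAt E x)
    {ρ : ℝ → M → M} (hρ : IsHolIsomFlow E ρ) {p : M} (hp : ∀ θ, ρ θ p = p)
    (hunb : ∀ R : ℝ, ∃ q : M, R < dist p q) {ρ₀ c L₀ : ℝ} (hρ₀ : 0 < ρ₀) (hc : 0 < c)
    (hstr : ∀ x ∈ ball p ρ₀, ∀ q : M, L₀ ≤ dist x q → LeviBound (E := E) q x (-c))
    {e : OpenPartialHomeomorph M E} (he : e ∈ maximalAtlas 𝓘(ℂ, E) 1 M) {w : ℂ → E}
    (hw : Differentiable ℂ w) (hwt : ∀ ζ, w ζ ∈ e.target)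
    (heq : ∀ (θ : ℝ) (ζ : ℂ), ρ θ (e.symm (w ζ)) = e.symm (w (ζ + θ * I)))
    (hneg : ∀ t : ℝ, t ≤ 0 → e.symm (w t) ∈ ball p ρ₀) {N₀ : ℝ}
    (hNlow : ∀ t : ℝ, t ∈ Icc (-1:ℝ) 0 → N₀ ≤ chartG e (w t) (deriv w t) (deriv w t))
    {T : ℝ} (hT : 0 ≤ T) :
    c * N₀ * T / 2 ≤ dist (e.symm (w 0)) (e.symm (w T)) := by
  rcases hT.eq_or_lt with rfl | hT
  · simp
  have her := mem_maximalAtlas_real he
  set u : ℝ → M := fun t => e.symm (w (t:ℂ)) with hu
  have huc : Continuous u := by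
    have h1 : Continuous (fun t : ℝ => w (t:ℂ)) := hw.continuous.comp continuous_ofReal
    exact e.continuousOn_symm.comp_continuous h1 (fun t => hwt _)
  set N : ℝ → ℝ := fun t => chartG e (w t) (deriv w t) (deriv w t) with hN
  have hdw : Continuous (fun t : ℝ => deriv w (t:ℂ)) := by
    have h1 : Continuous (deriv w) := by
      have : ContDiff ℂ 1 w := by
        have := contDiffOn_of_differentiableOn_complex isOpen_univ (hw.differentiableOn (s := univ))
        exact (contDiffOn_univ.1 this).of_le (by simp)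
      exact this.continuous_deriv le_rfl
    exact h1.comp continuous_ofReal
  have hNc : Continuous N := by
    have h1 : Continuous (fun t : ℝ => w (t:ℂ)) := hw.continuous.comp continuous_ofReal
    have h2 : Continuous (fun t : ℝ => chartG e (w t)) :=
      (contDiffOn_chartG her).continuousOn.comp_continuous h1 (fun t => hwt _)
    exact (h2.clm_apply hdw).clm_apply hdw
  have hN0 : ∀ t, 0 ≤ N t := by
    intro t
    by_cases h0 : deriv w (t:ℂ) = 0
    · simp [hN, h0]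
    · exact (chartG_pos her (hwt _) _ h0).le
  obtain ⟨B, hB⟩ := (isCompact_Icc (a := (-1:ℝ)) (b := T)).exists_bound_of_continuousOn
    hNc.continuousOn
  have hB0 : 0 ≤ B := (norm_nonneg _).trans (hB 0 ⟨by norm_num, hT.le⟩)
  obtain ⟨CT, hCT⟩ := (isCompact_Icc (a := (-1:ℝ)) (b := T)).exists_bound_of_continuousOn
    (f := fun t => dist p (u t)) (continuous_const.dist huc).continuousOn
  have hCT' : ∀ t ∈ Icc (-1:ℝ) T, dist p (u t) ≤ CT := fun t ht =>
    (le_abs_self _).trans (hCT t ht)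
  have hCT0 : 0 ≤ CT := dist_nonneg.trans (hCT' 0 ⟨by norm_num, hT.le⟩)
  set Δ := dist (e.symm (w 0)) (e.symm (w T)) with hΔ
  by_contra hcon
  push Not at hcon
  set μ := (c * N₀ * T / 2 - Δ) / (T / 4 + T ^ 2 / 2) / 2 with hμ
  have hμ0 : 0 < μ := by
    have : 0 < c * N₀ * T / 2 - Δ := by linarith only [hcon]
    positivity
  obtain ⟨q, hq⟩ := hunb (max (|L₀| + ρ₀) (CT + 2 * (B + 1) / μ))
  have hq1 : |L₀| + ρ₀ < dist p q := (le_max_left _ _).trans_lt hq
  have hq2 : CT + 2 * (B + 1) / μ < dist p q := (le_max_right _ _).trans_lt hq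
  have hyq : ∀ y ∈ orb ρ q, dist p y = dist p q := fun y hy => dist_orb hρ hp q hy
  set f : ℝ → ℝ := fun t => -infDist (u t) (orb ρ q) with hf
  have hfc : Continuous f := ((continuous_infDist_pt _).comp huc).neg
  have hflip : ∀ a b, f a - f b ≤ dist (u b) (u a) := by
    intro a b
    simp only [hf]
    have := infDist_le_infDist_add_dist (s := orb ρ q) (x := u b) (y := u a)
    linarith only [this]
  -- second differences
  have hsd_neg : ∀ t ≤ 0, ∀ η > 0, ∀ᶠ r in 𝓝[>] (0:ℝ),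
      (c * N t - η) * r ^ 2 ≤ f (t + r) + f (t - r) - 2 * f t := by
    intro t ht η hη
    have hA : ∀ y ∈ orb ρ q, LeviBound (E := E) y (e.symm (w t)) (-c) := by
      intro y hy
      apply hstr _ (hneg t ht)
      have h1 := hyq y hy
      have h2 : dist (e.symm (w t)) p < ρ₀ := hneg t ht
      have h3 := dist_triangle_left p y (e.symm (w t))
      have h4 := le_abs_self L₀
      linarith only [hq1, h1, h2, h3, h4]
    have := second_diff hρ hp he hw hwt heq q t hA hη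
    filter_upwards [this] with r hr
    have e1 : -(-c) * chartG e (w t) (deriv w t) (deriv w t) = c * N t := by
      simp only [hN]; ring
    rw [e1] at hr
    exact hr
  have hsd_all : ∀ t ∈ Icc (-1:ℝ) T, ∀ η > 0, ∀ᶠ r in 𝓝[>] (0:ℝ),
      (-μ - η) * r ^ 2 ≤ f (t + r) + f (t - r) - 2 * f t := by
    intro t ht η hη
    have hA : ∀ y ∈ orb ρ q, LeviBound (E := E) y (e.symm (w t)) (μ / (B + 1)) := by
      intro y hy
      have h1 := hyq y hy
      have h2 := hCT' t ht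
      have h3 := dist_triangle p (u t) y
      have h4 : 2 * (B + 1) / μ ≤ dist (u t) y := by linarith only [hq2, h1, h2, h3]
      have h5 : 0 < 2 * (B + 1) / μ := by positivity
      have h6 : 0 < dist (u t) y := h5.trans_le h4
      refine (levi_bound hK hnn (dist_pos.1 h6)).mono ?_
      rw [div_le_div_iff₀ h6 (by positivity)]
      rw [div_le_iff₀ hμ0] at h4
      linarith only [h4]
    have := second_diff hρ hp he hw hwt heq q t hA hη
    filter_upwards [this] with r hr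
    refine le_trans ?_ hr
    have h1 : N t ≤ B := (le_abs_self _).trans (hB t ht)
    have h2 : μ / (B + 1) * N t ≤ μ := by
      calc _ ≤ μ / (B + 1) * (B + 1) := by
            gcongr
            linarith only [h1]
        _ = μ := by field_simp
    have h3 : -(μ / (B + 1)) * chartG e (w t) (deriv w t) (deriv w t) = -(μ / (B + 1) * N t) := by
      simp only [hN]; ring
    rw [h3]
    gcongr
  have hc1 : ∀ a < 0, ConvexOn ℝ (Icc a 0) f := by
    intro a ha
    have := convexOn_of_second_diff (f := f) (a := a) (b := 0) (m := 0) hfc.continuousOn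
      (fun t ht η hη => by
        filter_upwards [hsd_neg t ht.2.le η hη] with r hr
        refine le_trans ?_ hr
        have := mul_nonneg hc.le (hN0 t)
        gcongr)
    simpa using this
  have hc2 : ConvexOn ℝ (Icc (-1) 0) (fun t => f t - c * N₀ * t ^ 2 / 2) := by
    refine convexOn_of_second_diff (f := f) (a := -1) (b := 0) (m := c * N₀) hfc.continuousOn
      (fun t ht η hη => ?_)
    filter_upwards [hsd_neg t ht.2.le η hη] with r hr
    refine le_trans ?_ hr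
    have := hNlow t ⟨ht.1.le, ht.2.le⟩
    gcongr
  have hc3 : ConvexOn ℝ (Icc (-1) T) (fun t => f t + μ * t ^ 2 / 2) := by
    have := convexOn_of_second_diff (f := f) (a := -1) (b := T) (m := -μ) hfc.continuousOn
      (fun t ht η hη => hsd_all t ⟨ht.1.le, ht.2.le⟩ η hη)
    refine this.congr (fun t _ => ?_)
    simp only
    ring
  have hfin := slope_lemma (f := f) (c₁ := c * N₀) (D := 2 * ρ₀) (by positivity) hc1
    (fun a ha b hb => by
      refine (hflip a b).trans ?_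
      have h1 : dist (u a) p < ρ₀ := hneg a ha
      have h2 : dist (u b) p < ρ₀ := hneg b hb
      have h3 := dist_triangle_right (u b) (u a) p
      linarith only [h1, h2, h3]) hc2 hT hc3
  have h7 := hflip T 0
  have h8 : dist (u 0) (u T) = Δ := by simp only [hu, hΔ, ofReal_zero]
  have h9 : μ * (T / 4 + T ^ 2 / 2) = (c * N₀ * T / 2 - Δ) / 2 := by
    rw [hμ]; field_simp
  nlinarith only [hcon, hfin, h7, h8, h9]

end Vale.Agent.P253.Mfd
end
end
end

section

section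

open scoped Manifold ContDiff Topology Bundle
open Set Metric Complex Filter Bundle IsManifold

set_option maxSynthPendingDepth 3
set_option linter.unusedSectionVars false

noncomputable section

namespace Vale.Agent.P253.Mfd

theorem properSpace_riemannian (E : Type*) [NormedAddCommGroup E] [NormedSpace ℂ E]
    [FiniteDimensional ℂ E] (M : Type*) [MetricSpace M] [ChartedSpace E M]
    [IsManifold 𝓘(ℂ, E) 1 M] [IsManifold 𝓘(ℝ, E) ∞ M]
    [RiemannianBundle (fun x : M => TangentSpace 𝓘(ℝ, E) x)]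
    [IsContMDiffRiemannianBundle 𝓘(ℝ, E) ∞ E (fun x : M => TangentSpace 𝓘(ℝ, E) x)]
    [IsRiemannianManifold 𝓘(ℝ, E) M] [CompleteSpace M] : ProperSpace M := by
  have : ProperSpace E := FiniteDimensional.proper ℂ E
  have : LocallyCompactSpace M := ChartedSpace.locallyCompactSpace E M
  exact properSpace_of_complete_of_approxMid (approxMid_of_riemannian E M)

theorem exists_far {M : Type*} [MetricSpace M] [ProperSpace M] [NoncompactSpace M] (p : M)
    (R : ℝ) : ∃ q : M, R < dist p q := by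
  by_contra hcon
  push Not at hcon
  have : (univ : Set M) = closedBall p R := by
    symm
    rw [eq_univ_iff_forall]
    intro q
    rw [mem_closedBall']
    exact hcon q
  exact noncompact_univ M (this ▸ isCompact_closedBall p R)

variable {E : Type*} [NormedAddCommGroup E] [NormedSpace ℂ E] [FiniteDimensional ℂ E]
  {M : Type*} [MetricSpace M] [ChartedSpace E M]
  [IsManifold 𝓘(ℂ, E) 1 M] [IsManifold 𝓘(ℝ, E) ∞ M]
  [RiemannianBundle (fun x : M => TangentSpace 𝓘(ℝ, E) x)]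
  [IsContMDiffRiemannianBundle 𝓘(ℝ, E) ∞ E (fun x : M => TangentSpace 𝓘(ℝ, E) x)]
  [IsRiemannianManifold 𝓘(ℝ, E) M]
  {ι : Type*} [Fintype ι]

/-- An equivariant global holomorphic chart onto the model space is defined on all of `M`. -/
theorem source_eq_univ (hK : IsKahler E M) [CompleteSpace M]
    [NoncompactSpace M] [ConnectedSpace M]
    (hnn : ∀ x : M, NonnegBisectionalAt E x) {p : M} (hpos : PosBisectionalAt E p)
    {ρ : ℝ → M → M} (hρ : IsHolIsomFlow E ρ)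
    (hp : ∀ θ, ρ θ p = p) {e : OpenPartialHomeomorph M E}
    (he : e ∈ maximalAtlas 𝓘(ℂ, E) 1 M) (htgt : e.target = univ)
    (hps : p ∈ e.source) (hep : e p = 0) {φ : E ≃L[ℂ] (ι → ℂ)} {m : ι → ℝ} (hm : ∀ j, 0 < m j)
    (heq : ∀ (θ : ℝ) (z : E), ρ θ (e.symm z) = e.symm (LE φ m (θ * I) z)) :
    e.source = univ := by
  have hprop : ProperSpace M := properSpace_riemannian E M
  have her := mem_maximalAtlas_real he
  obtain ⟨ρ₀, hρ₀, c, hc, L₀, hL₀, hstr⟩ := levi_strict hK hnn hpos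
  have hesc : Continuous e.symm := by
    rw [← continuousOn_univ, ← htgt]
    exact e.continuousOn_symm
  have hes0 : e.symm 0 = p := by rw [← hep, e.left_inv hps]
  have hφ0 : Continuous (fun z : E => ‖φ z‖) := φ.continuous.norm
  obtain ⟨δ, hδ, hball⟩ : ∃ δ > 0, ∀ z : E, ‖φ z‖ ≤ δ → e.symm z ∈ ball p ρ₀ := by
    have h1 : φ.symm ⁻¹' (e.symm ⁻¹' (ball p ρ₀)) ∈ 𝓝 (0 : ι → ℂ) := by
      apply (hesc.comp φ.symm.continuous).continuousAt.preimage_mem_nhds
      simp only [Function.comp_apply, map_zero, hes0]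
      exact ball_mem_nhds p hρ₀
    obtain ⟨δ, hδ, h2⟩ := Metric.nhds_basis_closedBall.mem_iff.1 h1
    refine ⟨δ, hδ, fun z hz => ?_⟩
    have h3 := h2 (show φ z ∈ closedBall 0 δ by simpa using hz)
    simpa using h3
  -- lower bound for the speed
  set Mm : ℝ := ∑ j, m j with hMm
  obtain ⟨N₀, hN₀, hNlow⟩ : ∃ N₀ > 0, ∀ z : E,
      Real.exp (-Mm) * δ ≤ ‖φ z‖ → ‖φ z‖ ≤ δ → N₀ ≤ chartG e z (AE φ m z) (AE φ m z) := by
    set P : Set E := {z | ‖φ z‖ ≤ δ} ∩ {z | Real.exp (-Mm) * δ ≤ ‖φ z‖}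
      with hP
    have hPc : IsCompact P := (isCompact_coordBall φ δ).inter_right
      (isClosed_le continuous_const hφ0)
    have hcont : Continuous (fun z => chartG e z (AE φ m z) (AE φ m z)) := by
      have h1 : Continuous (chartG e) := by
        rw [← continuousOn_univ, ← htgt]
        exact (contDiffOn_chartG her).continuousOn
      exact (h1.clm_apply continuous_AE).clm_apply continuous_AE
    rcases P.eq_empty_or_nonempty with hemp | hne
    · refine ⟨1, one_pos, fun z h1 h2 => ?_⟩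
      have : z ∈ P := ⟨h2, h1⟩
      simp [hemp] at this
    · obtain ⟨z₀, hz₀, hmin⟩ := hPc.exists_isMinOn hne hcont.continuousOn
      refine ⟨chartG e z₀ (AE φ m z₀) (AE φ m z₀), ?_, fun z h1 h2 => hmin ⟨h2, h1⟩⟩
      apply chartG_pos her (htgt ▸ mem_univ _)
      apply AE_ne_zero hm
      intro h0
      have h1 : Real.exp (-Mm) * δ ≤ ‖φ z₀‖ := hz₀.2
      rw [h0, map_zero, norm_zero] at h1
      have : 0 < Real.exp (-Mm) * δ := by positivity
      linarith only [h1, this]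
  -- growth along the rays
  have hgrow : ∀ z : E, ‖φ z‖ = δ → ∀ T : ℝ, 0 ≤ T →
      c * N₀ * T / 2 ≤ dist (e.symm z) (e.symm (LE φ m T z)) := by
    intro z hz T hT
    have h1 := growth hK hnn hρ hp (exists_far p) hρ₀ hc hstr he (w := fun ζ => LE φ m ζ z)
      (differentiable_LE z) (fun ζ => htgt ▸ mem_univ _)
      (fun θ ζ => by rw [heq, ← LE_add, add_comm])
      (fun t ht => hball _ ((norm_LE_nonpos' hm ht z).trans hz.le)) (N₀ := N₀)
      (fun t ht => by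
        rw [deriv_LE]
        apply hNlow
        · -- lower bound of the norm
          have h2 : z = LE φ m ((-t : ℝ) : ℂ) (LE φ m (t:ℂ) z) := by
            rw [← LE_add]; push_cast; rw [neg_add_cancel, LE_zero]
          have h3 : ‖φ z‖ ≤ Real.exp ((-t) * Mm) * ‖φ (LE φ m (t:ℂ) z)‖ := by
            conv_lhs => rw [h2]
            exact norm_LE_nonneg hm (by linarith only [ht, ht.2]) _
          have h4 : Real.exp ((-t) * Mm) ≤ Real.exp Mm := by
            apply Real.exp_le_exp.2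
            have hMm0 : 0 ≤ Mm := Finset.sum_nonneg fun j _ => (hm j).le
            nlinarith only [ht, hMm0, ht.1]
          have h5 : δ ≤ Real.exp Mm * ‖φ (LE φ m (t:ℂ) z)‖ := by
            rw [← hz]
            exact h3.trans (by gcongr)
          calc Real.exp (-Mm) * δ ≤ Real.exp (-Mm) * (Real.exp Mm * ‖φ (LE φ m (t:ℂ) z)‖) := by
                gcongr
            _ = ‖φ (LE φ m (t:ℂ) z)‖ := by
              rw [← mul_assoc, ← Real.exp_add, neg_add_cancel, Real.exp_zero, one_mul]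
        · exact (norm_LE_nonpos' hm ht.2 z).trans hz.le) hT
    simpa [LE_zero] using h1
  -- bounded subsets of the source are relatively compact in it
  have hbdd : ∀ R : ℝ, ∃ R' : ℝ, e.source ∩ closedBall p R ⊆ e.symm '' {z | ‖φ z‖ ≤ R'} := by
    intro R
    set T₁ := 2 * (|R| + ρ₀) / (c * N₀) with hT₁
    have hT₁0 : 0 ≤ T₁ := by positivity
    have hMm0 : 0 ≤ Mm := Finset.sum_nonneg fun j _ => (hm j).le
    refine ⟨Real.exp (T₁ * Mm) * δ, ?_⟩
    rintro x ⟨hxs, hxR⟩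
    refine ⟨e x, ?_, e.left_inv hxs⟩
    change ‖φ (e x)‖ ≤ _
    by_cases hsmall : ‖φ (e x)‖ ≤ δ
    · refine hsmall.trans ?_
      have : 1 ≤ Real.exp (T₁ * Mm) := Real.one_le_exp (by positivity)
      nlinarith only [hδ, this]
    · push Not at hsmall
      obtain ⟨T, hT, hTn⟩ := exists_LE_norm_eq hm hδ hsmall
      set z := LE φ m ((-T : ℝ) : ℂ) (e x) with hz
      have hback : LE φ m (T:ℂ) z = e x := by
        rw [hz, ← LE_add]; push_cast; rw [add_neg_cancel, LE_zero]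
      have h1 := hgrow z hTn T hT
      rw [hback, e.left_inv hxs] at h1
      have h2 : dist (e.symm z) p < ρ₀ := hball z hTn.le
      have h3 : dist x p ≤ R := hxR
      have h4 : dist (e.symm z) x ≤ |R| + ρ₀ := by
        have := dist_triangle_right (e.symm z) x p
        have := le_abs_self R
        linarith
      have h5 : T ≤ T₁ := by
        rw [hT₁, le_div_iff₀ (by positivity)]
        linarith only [h1, h4]
      rw [← hback]
      refine (norm_LE_nonneg hm hT z).trans ?_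
      rw [hTn]
      gcongr
  have hclosed : IsClosed e.source := by
    rw [← closure_subset_iff_isClosed]
    intro y hy
    obtain ⟨R', hR'⟩ := hbdd (dist y p + 1)
    have hKc : IsClosed (e.symm '' {z | ‖φ z‖ ≤ R'}) :=
      ((isCompact_coordBall φ R').image hesc).isClosed
    have hKs : e.symm '' {z | ‖φ z‖ ≤ R'} ⊆ e.source := by
      rintro _ ⟨z, -, rfl⟩
      exact e.map_target (htgt ▸ mem_univ _)
    apply hKs
    by_contra hyK
    have hopen : (e.symm '' {z | ‖φ z‖ ≤ R'})ᶜ ∩ ball y 1 ∈ 𝓝 y :=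
      inter_mem (hKc.isOpen_compl.mem_nhds hyK) (ball_mem_nhds y one_pos)
    obtain ⟨x, ⟨hx1, hx2⟩, hx3⟩ := mem_closure_iff_nhds.1 hy _ hopen
    apply hx1
    apply hR'
    refine ⟨hx3, ?_⟩
    have h1 : dist x y < 1 := hx2
    have h2 := dist_triangle x y p
    rw [mem_closedBall]
    linarith only [h1, h2]
  exact IsClopen.eq_univ ⟨hclosed, e.open_source⟩ ⟨p, hps⟩

end Vale.Agent.P253.Mfd
end
end
end

section

section

open scoped Manifold ContDiff Topology Bundle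
open Set Metric Complex Filter Bundle IsManifold Manifold

set_option maxSynthPendingDepth 3
set_option linter.unusedSectionVars false

noncomputable section

namespace Vale.Agent.P253.Mfd

variable {E : Type*} [NormedAddCommGroup E] [NormedSpace ℂ E] [FiniteDimensional ℂ E]
  {M : Type*} [MetricSpace M] [ChartedSpace E M]
  [IsManifold 𝓘(ℂ, E) 1 M] [IsManifold 𝓘(ℝ, E) ∞ M]
  [RiemannianBundle (fun x : M => TangentSpace 𝓘(ℝ, E) x)]
  [IsContMDiffRiemannianBundle 𝓘(ℝ, E) ∞ E (fun x : M => TangentSpace 𝓘(ℝ, E) x)]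
  {ρ : ℝ → M → M} {e e' : OpenPartialHomeomorph M E}

/-- squared speed of the vector field -/
def nW (ρ : ℝ → M → M) (x : M) : ℝ := innerAt (E := E) x (WE ρ x) (WE ρ x)

theorem nW_eq (hρ : IsHolIsomFlow E ρ) (he : e ∈ maximalAtlas 𝓘(ℂ, E) 1 M) {x : M}
    (hx : x ∈ e.source) :
    nW (E := E) ρ x = chartG e (e x) (vF ρ e (e x)) (vF ρ e (e x)) := by
  rw [chartG_eq_innerAt, dsymm_vF hρ he hx, e.left_inv hx]; rfl

theorem nW_nonneg (hρ : IsHolIsomFlow E ρ) (x : M) : 0 ≤ nW (E := E) ρ x := by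
  rw [nW_eq hρ (chart_mem_maximalAtlas x) (mem_chart_source E x)]
  by_cases h0 : vF ρ (chartAt E x) (chartAt E x x) = 0
  · simp [h0]
  · exact (chartG_pos (mem_maximalAtlas_real (chart_mem_maximalAtlas x))
      ((chartAt E x).map_source (mem_chart_source E x)) _ h0).le

/-- upper bound for the eigenvalues of the Lie derivative of the metric -/
def TopLE (ρ : ℝ → M → M) (Λ : ℝ) (x : M) : Prop :=
  ∀ e ∈ maximalAtlas 𝓘(ℂ, E) 1 M, x ∈ e.source → ∀ a,
    Sfun (chartG e) (vF ρ e) (e x) a ≤ Λ * chartG e (e x) a a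

theorem Sfun_chart (hρ : IsHolIsomFlow E ρ) (he : e ∈ maximalAtlas 𝓘(ℂ, E) 1 M)
    (he' : e' ∈ maximalAtlas 𝓘(ℂ, E) 1 M) {x : M} (hx : x ∈ e.source) (hx' : x ∈ e'.source)
    (a : E) :
    Sfun (chartG e') (vF ρ e') (e' x) (fderiv ℝ (e' ∘ e.symm) (e x) a)
      = Sfun (chartG e) (vF ρ e) (e x) a := by
  have her := mem_maximalAtlas_real he
  have her' := mem_maximalAtlas_real he'
  have hzV : e x ∈ (e.symm ≫ₕ e').source := by simp [hx, hx']
  have hpt : (e' ∘ e.symm) (e x) = e' x := by simp [e.left_inv hx]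
  have hsrc : ∀ w ∈ (e.symm ≫ₕ e').source, w ∈ e.target ∧ e.symm w ∈ e'.source := by
    intro w hw
    simpa using hw
  have hfun : (fun w => HF ρ e e' (0, w)) = e' ∘ e.symm := by
    funext w; simp [HF, hρ.zero]
  have h := Sfun_natural (G := chartG e) (G' := chartG e') (v := vF ρ e) (v' := vF ρ e')
    (τ := e' ∘ e.symm) (z := e x) (e.symm ≫ₕ e').open_source hzV
    ((transition_complex he he').restrict_scalars ℝ)
    (((contDiffOn_chartG her).contDiffAt
      (e.open_target.mem_nhds (e.map_source hx))).differentiableAt (by simp))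
    (by
      rw [hpt]
      exact ((contDiffOn_chartG her').contDiffAt
        (e'.open_target.mem_nhds (e'.map_source hx'))).differentiableAt (by simp))
    (((((contDiffOn_vF hρ he).restrict_scalars ℝ).contDiffAt
      (e.open_target.mem_nhds (e.map_source hx)))).differentiableAt (by simp))
    (by
      rw [hpt]
      exact ((((contDiffOn_vF hρ he').restrict_scalars ℝ).contDiffAt
        (e'.open_target.mem_nhds (e'.map_source hx')))).differentiableAt (by simp))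
    (chartG_symm e _) (chartG_symm e' _)
    (fun w hw a => by
      obtain ⟨h1, h2⟩ := hsrc w hw
      have h3 := chartG_change he he' (e.map_target h1) h2 a a
      rw [e.right_inv h1] at h3
      exact h3)
    (fun w hw => by
      obtain ⟨h1, h2⟩ := hsrc w hw
      have hq : (0, w) ∈ HΩ ρ e e' := ⟨h1, by simpa only [hρ.zero] using h2⟩
      have h3 := vF_change hρ he he' hq
      rw [hfun] at h3
      rw [h3]
      simp [HF, hρ.zero]) a
  rw [hpt] at h
  exact h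

theorem TopLE.of_chart (hρ : IsHolIsomFlow E ρ) (he : e ∈ maximalAtlas 𝓘(ℂ, E) 1 M)
    {x : M} (hx : x ∈ e.source) {Λ : ℝ}
    (h : ∀ a, Sfun (chartG e) (vF ρ e) (e x) a ≤ Λ * chartG e (e x) a a) :
    TopLE (E := E) ρ Λ x := by
  intro e' he' hx' a
  rw [← Sfun_chart hρ he' he hx' hx a, ← chartG_change he' he hx' hx a a]
  exact h _

theorem exists_TopLE (hρ : IsHolIsomFlow E ρ) (hK : IsKahler E M) (x : M) :
    ∃ Λ ≥ 0, TopLE (E := E) ρ Λ x := by
  have he : chartAt E x ∈ maximalAtlas 𝓘(ℂ, E) 1 M := chart_mem_maximalAtlas x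
  set e := chartAt E x with hedef
  have hx : x ∈ e.source := mem_chart_source E x
  have hLK := localKahler_chartG hK he
  obtain ⟨m, hm, hlow⟩ := hLK.exists_lower (isCompact_singleton (x := e x))
    (singleton_subset_iff.2 (e.map_source hx))
  set C := (‖fderiv ℝ (chartG e) (e x) (vF ρ e (e x))‖
    + 2 * (‖chartG e (e x)‖ * ‖fderiv ℝ (vF ρ e) (e x)‖)) / 2 with hC
  have hC0 : 0 ≤ C := by positivity
  refine ⟨C / m, by positivity, TopLE.of_chart hρ he hx fun a => ?_⟩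
  have h1 : Sfun (chartG e) (vF ρ e) (e x) a ≤ C * ‖a‖ ^ 2 := by
    have h2 : fderiv ℝ (chartG e) (e x) (vF ρ e (e x)) a a ≤
        ‖fderiv ℝ (chartG e) (e x) (vF ρ e (e x))‖ * ‖a‖ * ‖a‖ :=
      (Real.le_norm_self _).trans (ContinuousLinearMap.le_opNorm₂ _ _ _)
    have h3 : chartG e (e x) (fderiv ℝ (vF ρ e) (e x) a) a ≤
        ‖chartG e (e x)‖ * (‖fderiv ℝ (vF ρ e) (e x)‖ * ‖a‖) * ‖a‖ := by
      refine (Real.le_norm_self _).trans ((ContinuousLinearMap.le_opNorm₂ _ _ _).trans ?_)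
      gcongr
      exact ContinuousLinearMap.le_opNorm _ _
    rw [Sfun, hC]
    nlinarith only [h2, h3]
  refine h1.trans ?_
  have h4 := hlow (e x) rfl a
  calc C * ‖a‖ ^ 2 = C / m * (m * ‖a‖ ^ 2) := by field_simp
    _ ≤ _ := by gcongr

/-- local description of an integral curve near an interior time -/
theorem curve_local {γ : ℝ → M} {a b : ℝ} {V : (x : M) → TangentSpace 𝓘(ℝ, E) x}
    (hγ : IsMIntegralCurveOn (I := 𝓘(ℝ, E)) γ V (Ioo a b)) {t : ℝ} (ht : t ∈ Ioo a b) :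
    ∃ ε > 0, ∀ s, |s - t| < ε → s ∈ Ioo a b ∧ γ s ∈ (chartAt E (γ t)).source := by
  have h1 : ∀ᶠ s in 𝓝 t, s ∈ Ioo a b := Ioo_mem_nhds ht.1 ht.2
  have h2 : ContinuousAt γ t := (hγ.continuousWithinAt ht).continuousAt (Ioo_mem_nhds ht.1 ht.2)
  have h3 : ∀ᶠ s in 𝓝 t, γ s ∈ (chartAt E (γ t)).source :=
    h2.eventually ((chartAt E (γ t)).open_source.mem_nhds (mem_chart_source E (γ t)))
  obtain ⟨ε, hε, h4⟩ := Metric.eventually_nhds_iff.1 (h1.and h3)
  exact ⟨ε, hε, fun s hs => h4 (by rwa [Real.dist_eq])⟩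

theorem TopLE.step (hK : IsKahler E M) (hnn : ∀ x : M, NonnegBisectionalAt E x)
    (hρ : IsHolIsomFlow E ρ) {γ : ℝ → M} {a b : ℝ}
    (hγ : IsMIntegralCurveOn (I := 𝓘(ℝ, E)) γ (W ρ) (Ioo a b)) {t₀ t₁ : ℝ} (h01 : t₀ ≤ t₁)
    (ht₀ : t₀ ∈ Ioo a b) (ht₁ : t₁ ∈ Ioo a b) {Λ : ℝ} (hΛ : TopLE (E := E) ρ Λ (γ t₀)) :
    TopLE (E := E) ρ Λ (γ t₁) := by
  have hsub : Icc t₀ t₁ ⊆ Ioo a b := fun s hs => ⟨ht₀.1.trans_le hs.1, hs.2.trans_lt ht₁.2⟩
  refine interval_propagate (P := fun t => TopLE (E := E) ρ Λ (γ t)) h01 (fun t ht => ?_) hΛ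
  obtain ⟨ε, hε, hloc⟩ := curve_local hγ (hsub ht)
  refine ⟨ε, hε, fun s hs s' hs' hst hs't hss' hPs => ?_⟩
  have he : chartAt E (γ t) ∈ maximalAtlas 𝓘(ℂ, E) 1 M := chart_mem_maximalAtlas (γ t)
  set e := chartAt E (γ t) with hedef
  have hint : ∀ r ∈ Icc s s', |r - t| < ε := by
    intro r hr
    rw [abs_lt] at hst hs't ⊢
    exact ⟨by linarith only [hst, hr, hr.1], by linarith only [hs't, hr, hr.2]⟩
  have hLK := localKahler_chartG hK he
  refine TopLE.of_chart hρ he (hloc s' hs't).2 fun w => ?_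
  have h1 := top_eigenvalue_step hLK (contDiffOn_vF hρ he) (killing_vF hρ he)
    (fun z hz X a => Rc_nonneg_chartG hK he hz (hnn _) X a) (y := e ∘ γ) hss'
    (fun r hr => ((IntegralCurve.hasDerivAt hρ he hγ
      (Ioo_mem_nhds (hloc r (hint r hr)).1.1 (hloc r (hint r hr)).1.2)
      (hloc r (hint r hr)).2).hasDerivWithinAt))
    (fun r hr => e.map_source (hloc r (hint r hr)).2) (Λ := Λ)
    (fun w => hPs e he (hloc s hst).2 w) w
  exact h1

theorem hasDerivAt_nW (hρ : IsHolIsomFlow E ρ) {γ : ℝ → M} {a b : ℝ}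
    (hγ : IsMIntegralCurveOn (I := 𝓘(ℝ, E)) γ (W ρ) (Ioo a b)) {t : ℝ} (ht : t ∈ Ioo a b) :
    HasDerivAt (fun s => nW (E := E) ρ (γ s))
      (2 * Sfun (chartG (chartAt E (γ t))) (vF ρ (chartAt E (γ t))) (chartAt E (γ t) (γ t))
        (vF ρ (chartAt E (γ t)) (chartAt E (γ t) (γ t)))) t := by
  have he : chartAt E (γ t) ∈ maximalAtlas 𝓘(ℂ, E) 1 M := chart_mem_maximalAtlas (γ t)
  obtain ⟨ε, hε, hloc⟩ := curve_local hγ ht
  set e := chartAt E (γ t) with hedef
  have her := mem_maximalAtlas_real he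
  have hx : γ t ∈ e.source := mem_chart_source E (γ t)
  have hy := IntegralCurve.hasDerivAt hρ he hγ (Ioo_mem_nhds ht.1 ht.2) hx
  have hvd : HasFDerivAt (vF ρ e) (fderiv ℝ (vF ρ e) (e (γ t))) (e (γ t)) :=
    (((((contDiffOn_vF hρ he).restrict_scalars ℝ).contDiffAt
      (e.open_target.mem_nhds (e.map_source hx)))).differentiableAt (by simp)).hasFDerivAt
  have hα : HasDerivAt (fun s => vF ρ e ((e ∘ γ) s))
      (fderiv ℝ (vF ρ e) (e (γ t)) (vF ρ e (e (γ t)))) t :=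
    HasFDerivAt.comp_hasDerivAt (f := e ∘ γ) t hvd hy
  have h1 := hasDerivAt_energy (G := chartG e) (v := vF ρ e) (z := e (γ t))
    (((contDiffOn_chartG her).contDiffAt
      (e.open_target.mem_nhds (e.map_source hx))).differentiableAt (by simp))
    (chartG_symm e _) hy rfl hα rfl
  refine h1.congr_of_eventuallyEq ?_
  filter_upwards [Metric.ball_mem_nhds t hε] with s hs
  have hs' : |s - t| < ε := by rwa [mem_ball, Real.dist_eq] at hs
  exact nW_eq hρ he (hloc s hs').2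

theorem speed_bound (hK : IsKahler E M) (hnn : ∀ x : M, NonnegBisectionalAt E x)
    (hρ : IsHolIsomFlow E ρ) {γ : ℝ → M} {a b : ℝ}
    (hγ : IsMIntegralCurveOn (I := 𝓘(ℝ, E)) γ (W ρ) (Ioo a b)) {t₀ t₁ : ℝ} (h01 : t₀ ≤ t₁)
    (ht₀ : t₀ ∈ Ioo a b) (ht₁ : t₁ ∈ Ioo a b) {Λ : ℝ} (hΛ : TopLE (E := E) ρ Λ (γ t₀)) :
    nW (E := E) ρ (γ t₁) ≤ Real.exp (2 * Λ * (t₁ - t₀)) * nW (E := E) ρ (γ t₀) := by
  have hsub : Icc t₀ t₁ ⊆ Ioo a b := fun s hs => ⟨ht₀.1.trans_le hs.1, hs.2.trans_lt ht₁.2⟩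
  have hder : ∀ t ∈ Icc t₀ t₁, HasDerivAt
      (fun t => Real.exp (-(2 * Λ) * (t - t₀)) * nW (E := E) ρ (γ t))
      (-(2 * Λ) * Real.exp (-(2 * Λ) * (t - t₀)) * nW (E := E) ρ (γ t)
        + Real.exp (-(2 * Λ) * (t - t₀)) *
        (2 * Sfun (chartG (chartAt E (γ t))) (vF ρ (chartAt E (γ t))) (chartAt E (γ t) (γ t))
        (vF ρ (chartAt E (γ t)) (chartAt E (γ t) (γ t))))) t := by
    intro t ht
    have h1 := hasDerivAt_nW hρ hγ (hsub ht)
    have h2 : HasDerivAt (fun t => Real.exp (-(2 * Λ) * (t - t₀)))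
        (-(2 * Λ) * Real.exp (-(2 * Λ) * (t - t₀))) t := by
      have h3 : HasDerivAt (fun t => -(2 * Λ) * (t - t₀)) (-(2 * Λ)) t := by
        simpa using ((hasDerivAt_id t).sub_const t₀).const_mul (-(2 * Λ))
      exact h3.exp.congr_deriv (mul_comm _ _)
    exact h2.mul h1
  have hanti : AntitoneOn (fun t => Real.exp (-(2 * Λ) * (t - t₀)) * nW (E := E) ρ (γ t))
      (Icc t₀ t₁) := by
    apply antitoneOn_of_deriv_nonpos (convex_Icc t₀ t₁)
    · exact fun t ht => (hder t ht).continuousAt.continuousWithinAt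
    · intro t ht
      exact (hder t (interior_subset ht)).differentiableAt.differentiableWithinAt
    · intro t ht
      rw [(hder t (interior_subset ht)).deriv]
      have ht' : t ∈ Icc t₀ t₁ := interior_subset ht
      have h1 := TopLE.step hK hnn hρ hγ ht'.1 ht₀ (hsub ht') hΛ
      have h2 := h1 _ (chart_mem_maximalAtlas (γ t)) (mem_chart_source E (γ t))
        (vF ρ (chartAt E (γ t)) (chartAt E (γ t) (γ t)))
      rw [← nW_eq hρ (chart_mem_maximalAtlas (γ t)) (mem_chart_source E (γ t))] at h2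
      have h3 := Real.exp_pos (-(2 * Λ) * (t - t₀))
      nlinarith only [h2, h3]
  have h1 := hanti (left_mem_Icc.2 h01) (right_mem_Icc.2 h01) h01
  simp only [sub_self, mul_zero, Real.exp_zero, one_mul] at h1
  have h2 : nW (E := E) ρ (γ t₁) = Real.exp (2 * Λ * (t₁ - t₀)) *
      (Real.exp (-(2 * Λ) * (t₁ - t₀)) * nW (E := E) ρ (γ t₁)) := by
    rw [← mul_assoc, ← Real.exp_add]
    have : 2 * Λ * (t₁ - t₀) + -(2 * Λ) * (t₁ - t₀) = 0 := by ring
    rw [this, Real.exp_zero, one_mul]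
  rw [h2]
  gcongr

variable [IsRiemannianManifold 𝓘(ℝ, E) M]

theorem dist_bound (hρ : IsHolIsomFlow E ρ) {γ : ℝ → M} {a b : ℝ}
    (hγ : IsMIntegralCurveOn (I := 𝓘(ℝ, E)) γ (W ρ) (Ioo a b)) {t₀ t₁ : ℝ} (h01 : t₀ ≤ t₁)
    (ht₀ : t₀ ∈ Ioo a b) (ht₁ : t₁ ∈ Ioo a b) {C : ℝ} (hC : 0 ≤ C)
    (hsp : ∀ t ∈ Icc t₀ t₁, nW (E := E) ρ (γ t) ≤ C ^ 2) :
    dist (γ t₀) (γ t₁) ≤ C * (t₁ - t₀) := by
  have hsub : Icc t₀ t₁ ⊆ Ioo a b := fun s hs => ⟨ht₀.1.trans_le hs.1, hs.2.trans_lt ht₁.2⟩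
  refine interval_propagate (P := fun t => dist (γ t₀) (γ t) ≤ C * (t - t₀)) h01
    (fun t ht => ?_) (by simp)
  obtain ⟨ε, hε, hloc⟩ := curve_local hγ (hsub ht)
  refine ⟨ε, hε, fun s hs s' hs' hst hs't hss' hPs => ?_⟩
  have he : chartAt E (γ t) ∈ maximalAtlas 𝓘(ℂ, E) 1 M := chart_mem_maximalAtlas (γ t)
  set e := chartAt E (γ t) with hedef
  have her := mem_maximalAtlas_real he
  have hint : ∀ r ∈ Icc s s', |r - t| < ε := by
    intro r hr
    rw [abs_lt] at hst hs't ⊢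
    exact ⟨by linarith only [hst, hr, hr.1], by linarith only [hs't, hr, hr.2]⟩
  have hder : ∀ r ∈ Icc s s', HasDerivWithinAt (e ∘ γ) (vF ρ e (e (γ r))) (Icc s s') r :=
    fun r hr => ((IntegralCurve.hasDerivAt hρ he hγ
      (Ioo_mem_nhds (hloc r (hint r hr)).1.1 (hloc r (hint r hr)).1.2)
      (hloc r (hint r hr)).2).hasDerivWithinAt)
  have htgt : ∀ r ∈ Icc s s', e (γ r) ∈ e.target := fun r hr =>
    e.map_source (hloc r (hint r hr)).2
  have hcc : ContinuousOn (e ∘ γ) (Icc s s') := fun r hr => (hder r hr).continuousWithinAt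
  have hcv : ContinuousOn (fun r => vF ρ e (e (γ r))) (Icc s s') :=
    ((contDiffOn_vF hρ he).continuousOn).comp hcc htgt
  have h1 := dist_le_chart her hss' hder hcv htgt
  have h2 : ∫ r in s..s', √(chartG e ((e ∘ γ) r) (vF ρ e (e (γ r))) (vF ρ e (e (γ r))))
      ≤ ∫ r in s..s', C := by
    apply intervalIntegral.integral_mono_on hss'
    · apply ContinuousOn.intervalIntegrable_of_Icc hss'
      have hG : ContinuousOn (fun r => chartG e ((e ∘ γ) r)) (Icc s s') :=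
        (contDiffOn_chartG her).continuousOn.comp hcc htgt
      exact ((hG.clm_apply hcv).clm_apply hcv).sqrt
    · exact _root_.intervalIntegrable_const
    · intro r hr
      have h3 : chartG e ((e ∘ γ) r) (vF ρ e (e (γ r))) (vF ρ e (e (γ r)))
          = nW (E := E) ρ (γ r) := (nW_eq hρ he (hloc r (hint r hr)).2).symm
      rw [h3]
      apply Real.sqrt_le_iff.2
      refine ⟨hC, hsp r ⟨hs.1.trans hr.1, hr.2.trans hs'.2⟩⟩
  rw [intervalIntegral.integral_const, smul_eq_mul] at h2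
  have e1 : e.symm ((e ∘ γ) s) = γ s := e.left_inv (hloc s hst).2
  have e2 : e.symm ((e ∘ γ) s') = γ s' := e.left_inv (hloc s' hs't).2
  rw [e1, e2] at h1
  have h3 := dist_triangle (γ t₀) (γ s) (γ s')
  nlinarith only [hPs, h1, h2, h3]

/-- local existence with locally uniform time -/
theorem exists_local_curve (hρ : IsHolIsomFlow E ρ) (x₀ : M) :
    ∃ ε > 0, ∃ V ∈ 𝓝 x₀, ∀ x ∈ V, ∃ γ : ℝ → M, γ 0 = x ∧
      IsMIntegralCurveOn (I := 𝓘(ℝ, E)) γ (W ρ) (Ioo (-ε) ε) := by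
  have he : chartAt E x₀ ∈ maximalAtlas 𝓘(ℂ, E) 1 M := chart_mem_maximalAtlas x₀
  set e := chartAt E x₀ with hedef
  have hx₀ : x₀ ∈ e.source := mem_chart_source E x₀
  obtain ⟨ε, hε, r, hr, Y, hball, hY, -, -⟩ := exists_holoFlow e.open_target
    (differentiableOn_vF hρ he) (e.map_source hx₀)
  refine ⟨ε, hε, e.source ∩ e ⁻¹' (ball (e x₀) r), inter_mem (e.open_source.mem_nhds hx₀)
    ((e.continuousAt hx₀).preimage_mem_nhds (ball_mem_nhds _ hr)), fun x hx => ?_⟩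
  obtain ⟨h0, h1⟩ := hY (e x) hx.2
  refine ⟨fun t => e.symm (Y t (e x)), by simp only [h0, e.left_inv hx.1], fun t ht => ?_⟩
  obtain ⟨h2, h3⟩ := h1 t ht
  exact (IntegralCurve.of_chart hρ he h3 h2).hasMFDerivWithinAt

theorem exists_uniform_time (hρ : IsHolIsomFlow E ρ) {K : Set M} (hK : IsCompact K) :
    ∃ ε > 0, ∀ x ∈ K, ∃ γ : ℝ → M, γ 0 = x ∧
      IsMIntegralCurveOn (I := 𝓘(ℝ, E)) γ (W ρ) (Ioo (-ε) ε) := by
  choose ε hε V hV hcurve using fun x₀ : M => exists_local_curve (E := E) hρ x₀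
  obtain ⟨T, hTK, hT⟩ := hK.elim_nhds_subcover V (fun x _ => hV x)
  rcases T.eq_empty_or_nonempty with rfl | hne
  · refine ⟨1, one_pos, fun x hx => ?_⟩
    have := hT hx
    simp at this
  refine ⟨T.inf' hne ε, (Finset.lt_inf'_iff hne).2 fun x _ => hε x, fun x hx => ?_⟩
  obtain ⟨x₀, hx₀, hxx₀⟩ := mem_iUnion₂.1 (hT hx)
  obtain ⟨γ, h0, h1⟩ := hcurve x₀ x hxx₀
  have h2 : T.inf' hne ε ≤ ε x₀ := Finset.inf'_le _ hx₀
  exact ⟨γ, h0, h1.mono (Ioo_subset_Ioo (by linarith only [hne, h2]) h2)⟩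

theorem forward_curve (hK : IsKahler E M) (hnn : ∀ x : M, NonnegBisectionalAt E x)
    [CompleteSpace M] (hρ : IsHolIsomFlow E ρ) (x : M) (a : ℝ) :
    ∃ ε > 0, ∃ γ : ℝ → M, γ 0 = x ∧
      IsMIntegralCurveOn (I := 𝓘(ℝ, E)) γ (W ρ) (Ioo (-ε) a) := by
  have hprop : ProperSpace M := properSpace_riemannian E M
  have hT2 : T2Space M := inferInstance
  obtain ⟨Λ, hΛ0, hΛ⟩ := exists_TopLE (E := E) hρ hK x
  set A := max a 1 with hA
  have hA0 : 0 < A := lt_of_lt_of_le one_pos (le_max_right _ _)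
  set C := Real.exp (Λ * A) * √(nW (E := E) ρ x) with hC
  have hC0 : 0 ≤ C := by positivity
  obtain ⟨ε, hε, hunif⟩ := exists_uniform_time (E := E) hρ (isCompact_closedBall x (C * A))
  -- a priori bound
  have hapriori : ∀ (γ : ℝ → M) (T : ℝ), γ 0 = x → T ≤ A →
      IsMIntegralCurveOn (I := 𝓘(ℝ, E)) γ (W ρ) (Ioo (-ε) T) → ∀ t, 0 ≤ t → t < T →
      γ t ∈ closedBall x (C * A) := by
    intro γ T hγ0 hTA hγ t ht0 htT
    have h0 : (0:ℝ) ∈ Ioo (-ε) T := ⟨by linarith only [hε], by linarith only [ht0, htT]⟩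
    have ht : t ∈ Ioo (-ε) T := ⟨by linarith, htT⟩
    have h1 := dist_bound hρ hγ ht0 h0 ht hC0 (fun s hs => by
      have hs' : s ∈ Ioo (-ε) T := ⟨by linarith [hs.1], by linarith [hs.2]⟩
      have h2 := speed_bound hK hnn hρ hγ hs.1 h0 hs' (Λ := Λ) (by rw [hγ0]; exact hΛ)
      rw [hγ0, sub_zero] at h2
      refine h2.trans ?_
      rw [hC, mul_pow, Real.sq_sqrt (nW_nonneg hρ x), ← Real.exp_nat_mul]
      have h3 : Real.exp (2 * Λ * s) ≤ Real.exp ((2:ℕ) * (Λ * A)) := by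
        apply Real.exp_le_exp.2
        have hsA : s ≤ A := by linarith only [hTA, htT, hs, hs.2]
        have := mul_le_mul_of_nonneg_left hsA hΛ0
        push_cast
        linarith only [this]
      exact mul_le_mul_of_nonneg_right h3 (nW_nonneg hρ x))
    rw [mem_closedBall']
    rw [hγ0, sub_zero] at h1
    refine h1.trans ?_
    gcongr
    linarith only [hTA, htT]
  have hmain : ∀ k : ℕ, ∃ γ : ℝ → M, γ 0 = x ∧
      IsMIntegralCurveOn (I := 𝓘(ℝ, E)) γ (W ρ) (Ioo (-ε) (min ((k + 1) * (ε / 2)) A)) := by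
    intro k
    induction k with
    | zero =>
      obtain ⟨γ, h0, h1⟩ := hunif x (mem_closedBall_self (by positivity))
      refine ⟨γ, h0, h1.mono (Ioo_subset_Ioo le_rfl ((min_le_left _ _).trans ?_))⟩
      push_cast
      linarith only [hε]
    | succ k ih =>
      obtain ⟨γ, h0, h1⟩ := ih
      by_cases hAT : A ≤ (k + 1) * (ε / 2)
      · refine ⟨γ, h0, h1.mono (Ioo_subset_Ioo le_rfl ?_)⟩
        rw [min_eq_right hAT]
        exact min_le_right _ _
      · push Not at hAT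
        rw [min_eq_left hAT.le] at h1
        set T := ((k:ℝ) + 1) * (ε / 2) with hT
        have hTε : ε / 2 ≤ T := by
          rw [hT]
          have : (0:ℝ) ≤ k := Nat.cast_nonneg k
          nlinarith only [hε]
        set t₁ := T - ε / 4 with ht₁
        have ht₁0 : 0 < t₁ := by linarith only [hε, hTε, ht₁]
        have h2 := hapriori γ T h0 hAT.le h1 t₁ ht₁0.le (by linarith only [hε, ht₁])
        obtain ⟨γ₁, h3, h4⟩ := hunif _ h2
        have h5 : IsMIntegralCurveOn (I := 𝓘(ℝ, E)) (γ₁ ∘ (· + (-t₁))) (W ρ)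
            (Ioo (t₁ - ε) (t₁ + ε)) := by
          refine (h4.comp_add (-t₁)).mono ?_
          intro s hs
          simp only [mem_setOf_eq, mem_Ioo]
          exact ⟨by linarith only [hs, hs.1], by linarith only [hs, hs.2]⟩
        have ht₁m : t₁ ∈ Ioo (-ε) T ∩ Ioo (t₁ - ε) (t₁ + ε) :=
          ⟨⟨by linarith only [hε, ht₁0], by linarith only [hε, ht₁]⟩, ⟨by linarith only [hε], by linarith only [hε]⟩⟩
        have h6 := isMIntegralCurveOn_piecewise (contMDiff_W hρ) h1 h5 ht₁m (by simp [h3])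
        refine ⟨_, ?_, h6.mono ?_⟩
        · rw [Set.piecewise_eq_of_mem _ _ _ (show (0:ℝ) ∈ Ioo (-ε) T from
            ⟨by linarith only [hε], by linarith only [hε, hTε]⟩)]
          exact h0
        · intro s hs
          have hs2 : s < (((k + 1 : ℕ) : ℝ) + 1) * (ε / 2) := hs.2.trans_le (min_le_left _ _)
          push_cast at hs2
          by_cases hsT : s < T
          · exact Or.inl ⟨hs.1, hsT⟩
          · push Not at hsT
            right
            constructor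
            · linarith only [hε, ht₁, hsT]
            · rw [ht₁, hT]
              linarith only [hε, hs2]
  obtain ⟨N, hN⟩ := exists_nat_gt (A / (ε / 2))
  obtain ⟨γ, h0, h1⟩ := hmain N
  refine ⟨ε, hε, γ, h0, h1.mono (Ioo_subset_Ioo le_rfl (le_min ?_ (le_max_left _ _)))⟩
  rw [div_lt_iff₀ (by positivity)] at hN
  have : a ≤ A := le_max_left _ _
  nlinarith only [hε, hN, this]

end Vale.Agent.P253.Mfd
end
end
end

section

section

open scoped Manifold ContDiff Topology Bundle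
open Set Metric Complex Filter Bundle IsManifold Manifold

set_option maxSynthPendingDepth 3
set_option linter.unusedSectionVars false

noncomputable section

namespace Vale.Agent.P253.Mfd

variable {E : Type*} [NormedAddCommGroup E] [NormedSpace ℂ E] [FiniteDimensional ℂ E]
  {M : Type*} [MetricSpace M] [ChartedSpace E M]
  [IsManifold 𝓘(ℂ, E) 1 M] [IsManifold 𝓘(ℝ, E) ∞ M]
  [RiemannianBundle (fun x : M => TangentSpace 𝓘(ℝ, E) x)]
  [IsContMDiffRiemannianBundle 𝓘(ℝ, E) ∞ E (fun x : M => TangentSpace 𝓘(ℝ, E) x)]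
  {ρ : ℝ → M → M} {e e' : OpenPartialHomeomorph M E}

/-- the reversed action -/
theorem IsHolIsomFlow.rev (hρ : IsHolIsomFlow E ρ) :
    IsHolIsomFlow E (fun t => ρ (-t)) where
  zero x := by simp [hρ.zero]
  add s t x := by simp only [neg_add]; rw [hρ.add]
  smooth := by
    have h1 : ContMDiff (𝓘(ℝ, ℝ).prod 𝓘(ℝ, E)) (𝓘(ℝ, ℝ).prod 𝓘(ℝ, E)) ∞
        (fun q : ℝ × M => (-q.1, q.2)) :=
      ((contDiff_neg.contMDiff).comp contMDiff_fst).prodMk contMDiff_snd
    exact hρ.smooth.comp h1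
  holo t := hρ.holo (-t)
  isom t := hρ.isom (-t)

omit [FiniteDimensional ℂ E] [IsManifold 𝓘(ℂ, E) 1 M] [IsManifold 𝓘(ℝ, E) ∞ M]
  [RiemannianBundle (fun x : M => TangentSpace 𝓘(ℝ, E) x)]
  [IsContMDiffRiemannianBundle 𝓘(ℝ, E) ∞ E (fun x : M => TangentSpace 𝓘(ℝ, E) x)] in
theorem WE_rev (x : M) : WE (E := E) (fun t => ρ (-t)) x = -WE (E := E) ρ x := by
  have h1 : xF (E := E) (fun t => ρ (-t)) (chartAt E x) (chartAt E x x)
      = -xF (E := E) ρ (chartAt E x) (chartAt E x x) := by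
    simp only [xF]
    rw [deriv_comp_neg (fun t => chartAt E x (ρ t ((chartAt E x).symm (chartAt E x x))))]
    simp
  simp only [WE, vF]
  rw [h1, smul_neg]

variable [IsRiemannianManifold 𝓘(ℝ, E) M]

theorem backward_curve (hK : IsKahler E M) (hnn : ∀ x : M, NonnegBisectionalAt E x)
    [CompleteSpace M] (hρ : IsHolIsomFlow E ρ) (x : M) (a : ℝ) :
    ∃ ε > 0, ∃ γ : ℝ → M, γ 0 = x ∧
      IsMIntegralCurveOn (I := 𝓘(ℝ, E)) γ (W ρ) (Ioo (-a) ε) := by
  obtain ⟨ε, hε, γ, h0, h1⟩ := forward_curve (E := E) hK hnn hρ.rev x a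
  refine ⟨ε, hε, γ ∘ (· * (-1)), by simp [h0], ?_⟩
  have h2 := h1.comp_mul (-1)
  have h3 : ((-1 : ℝ) • W (E := E) (fun t => ρ (-t)) : (x : M) → TangentSpace 𝓘(ℝ, E) x)
      = W (E := E) ρ := by
    funext y
    change (-1 : ℝ) • WE (E := E) (fun t => ρ (-t)) y = WE (E := E) ρ y
    rw [WE_rev]
    simp
  rw [h3] at h2
  refine h2.mono ?_
  intro s hs
  simp only [mem_ofPred_eq, mem_Ioo]
  exact ⟨by linarith only [hs, hs.2], by linarith only [hs, hs.1]⟩

theorem exists_global_curve (hK : IsKahler E M) (hnn : ∀ x : M, NonnegBisectionalAt E x)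
    [CompleteSpace M] (hρ : IsHolIsomFlow E ρ) (x : M) :
    ∃ γ : ℝ → M, γ 0 = x ∧ IsMIntegralCurve (I := 𝓘(ℝ, E)) γ (W ρ) := by
  rw [exists_isMIntegralCurve_iff_exists_isMIntegralCurveOn_Ioo (contMDiff_W hρ)]
  intro a
  obtain ⟨ε, hε, γ, h0, h1⟩ := forward_curve (E := E) hK hnn hρ x (max a 1)
  obtain ⟨ε', hε', γ', h0', h1'⟩ := backward_curve (E := E) hK hnn hρ x (max a 1)
  have hm1 : (1:ℝ) ≤ max a 1 := le_max_right _ _
  have hma : a ≤ max a 1 := le_max_left _ _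
  have hmem : (0:ℝ) ∈ Ioo (-ε) (max a 1) ∩ Ioo (-(max a 1)) ε' :=
    ⟨⟨by linarith only [hε], by linarith only [hm1]⟩, ⟨by linarith, by linarith⟩⟩
  have h2 := isMIntegralCurveOn_piecewise (contMDiff_W hρ) h1 h1' hmem (by rw [h0, h0'])
  refine ⟨_, ?_, h2.mono ?_⟩
  · rw [Set.piecewise_eq_of_mem _ _ _ hmem.1]
    exact h0
  · intro s hs
    by_cases hs0 : -ε < s
    · exact Or.inl ⟨hs0, by linarith only [hma, hs, hs.2]⟩
    · push Not at hs0
      exact Or.inr ⟨by linarith only [hma, hs, hs.1], by linarith⟩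

/-- the action maps integral curves to integral curves -/
theorem IntegralCurve.comp_action (hρ : IsHolIsomFlow E ρ) {γ : ℝ → M}
    (hγ : IsMIntegralCurve (I := 𝓘(ℝ, E)) γ (W ρ)) (θ : ℝ) :
    IsMIntegralCurve (I := 𝓘(ℝ, E)) (fun t => ρ θ (γ t)) (W ρ) := by
  intro t
  have he : chartAt E (γ t) ∈ maximalAtlas 𝓘(ℂ, E) 1 M := chart_mem_maximalAtlas (γ t)
  have he' : chartAt E (ρ θ (γ t)) ∈ maximalAtlas 𝓘(ℂ, E) 1 M := chart_mem_maximalAtlas _
  set e := chartAt E (γ t) with hedef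
  set e' := chartAt E (ρ θ (γ t)) with he'def
  have hx : γ t ∈ e.source := mem_chart_source E (γ t)
  have hx' : ρ θ (γ t) ∈ e'.source := mem_chart_source E _
  have hq : (θ, e (γ t)) ∈ HΩ ρ e e' := ⟨e.map_source hx, by simpa only [e.left_inv hx] using hx'⟩
  have h1 := IntegralCurve.hasDerivAt hρ he (hγ.isMIntegralCurveOn univ) univ_mem hx
  have h2 := hasFDerivAt_HF_right hρ he he' hq
  have h3 : HasDerivAt (fun s => HF ρ e e' (θ, (e ∘ γ) s)) (vF ρ e' (HF ρ e e' (θ, e (γ t)))) t := by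
    have h4 := HasFDerivAt.comp_hasDerivAt (f := e ∘ γ) t h2 h1
    rw [← h2.fderiv, vF_change hρ he he' hq] at h4
    exact h4
  have h5 := IntegralCurve.of_chart hρ he' h3 (e'.map_source hq.2)
  have hev : (fun s => ρ θ (γ s)) =ᶠ[𝓝 t] e'.symm ∘ (fun s => HF ρ e e' (θ, (e ∘ γ) s)) := by
    have hc : Continuous γ := hγ.continuous
    have hρc : Continuous (ρ θ) := (hρ.contMDiff θ).continuous
    have m1 : ∀ᶠ s in 𝓝 t, γ s ∈ e.source :=
      hc.continuousAt.eventually (e.open_source.mem_nhds hx)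
    have m2 : ∀ᶠ s in 𝓝 t, ρ θ (γ s) ∈ e'.source :=
      (hρc.comp hc).continuousAt.eventually (e'.open_source.mem_nhds hx')
    filter_upwards [m1, m2] with s hs1 hs2
    simp only [Function.comp_apply, HF]
    rw [e.left_inv hs1, e'.left_inv hs2]
  have h6 := h5.congr_of_eventuallyEq hev
  have h7 : e'.symm (HF ρ e e' (θ, (e ∘ γ) t)) = ρ θ (γ t) := by
    simp only [HF, Function.comp_apply]
    rw [e.left_inv hx, e'.left_inv hx']
  rw [h7] at h6
  exact h6

/-- The global flow of `-JX`. -/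
theorem exists_flow (hK : IsKahler E M) (hnn : ∀ x : M, NonnegBisectionalAt E x)
    [CompleteSpace M] (hρ : IsHolIsomFlow E ρ) :
    ∃ Φ : ℝ → M → M, (∀ x, Φ 0 x = x) ∧ (∀ s t x, Φ (s + t) x = Φ s (Φ t x)) ∧
      (∀ x, IsMIntegralCurve (I := 𝓘(ℝ, E)) (fun t => Φ t x) (W ρ)) ∧
      (∀ θ t x, ρ θ (Φ t x) = Φ t (ρ θ x)) := by
  choose γ hγ0 hγ using exists_global_curve (E := E) hK hnn hρ
  refine ⟨fun t x => γ x t, hγ0, ?_, hγ, ?_⟩
  · intro s t x
    have h1 : IsMIntegralCurve (I := 𝓘(ℝ, E)) (γ x ∘ (· + t)) (W ρ) := (hγ x).comp_add t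
    have h2 := isMIntegralCurve_Ioo_eq_of_contMDiff_boundaryless (t₀ := 0) (contMDiff_W hρ) h1
      (hγ (γ x t)) (by simp [hγ0])
    exact congrFun h2 s
  · intro θ t x
    have h2 := isMIntegralCurve_Ioo_eq_of_contMDiff_boundaryless (t₀ := 0) (contMDiff_W hρ)
      (IntegralCurve.comp_action hρ (hγ x) θ) (hγ (ρ θ x)) (by simp [hγ0])
    exact congrFun h2 t

/-- the flow is holomorphic for small times -/
theorem flow_holo_local (hρ : IsHolIsomFlow E ρ) {Φ : ℝ → M → M} (hΦ0 : ∀ x, Φ 0 x = x)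
    (hΦ : ∀ x, IsMIntegralCurve (I := 𝓘(ℝ, E)) (fun t => Φ t x) (W ρ)) (x₀ : M) :
    ∃ ε > 0, ∃ V ∈ 𝓝 x₀, ∀ x ∈ V, ∀ t, |t| < ε →
      MDifferentiableAt 𝓘(ℂ, E) 𝓘(ℂ, E) (Φ t) x := by
  have he : chartAt E x₀ ∈ maximalAtlas 𝓘(ℂ, E) 1 M := chart_mem_maximalAtlas x₀
  set e := chartAt E x₀ with hedef
  have hx₀ : x₀ ∈ e.source := mem_chart_source E x₀
  obtain ⟨ε, hε, r, hr, Y, hball, hY, hYd, -⟩ := exists_holoFlow e.open_target
    (differentiableOn_vF hρ he) (e.map_source hx₀)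
  set V := e.source ∩ e ⁻¹' (ball (e x₀) r) with hV
  have hVo : IsOpen V := e.continuousOn.isOpen_inter_preimage e.open_source isOpen_ball
  -- formula for the flow
  have hform : ∀ x ∈ V, ∀ t ∈ Ioo (-ε) ε, Φ t x = e.symm (Y t (e x)) := by
    intro x hx t ht
    obtain ⟨h0, h1⟩ := hY (e x) hx.2
    have h2 : IsMIntegralCurveOn (I := 𝓘(ℝ, E)) (fun t => e.symm (Y t (e x))) (W ρ)
        (Ioo (-ε) ε) := by
      intro t ht
      obtain ⟨h2, h3⟩ := h1 t ht
      exact (IntegralCurve.of_chart hρ he h3 h2).hasMFDerivWithinAt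
    exact isMIntegralCurveOn_Ioo_eqOn_of_contMDiff_boundaryless (t₀ := 0)
      ⟨by linarith only [hε], by linarith only [hε]⟩ (contMDiff_W hρ) ((hΦ x).isMIntegralCurveOn _) h2
      (by simp only [hΦ0, h0, e.left_inv hx.1]) ht
  refine ⟨ε, hε, V, hVo.mem_nhds ⟨hx₀, mem_ball_self hr⟩, fun x hx t ht => ?_⟩
  have ht' : t ∈ Ioo (-ε) ε := abs_lt.1 ht
  have h1 : MDifferentiableAt 𝓘(ℂ, E) 𝓘(ℂ, E) e x :=
    ((contMDiffOn_of_mem_maximalAtlas he).contMDiffAt
      (e.open_source.mem_nhds hx.1)).mdifferentiableAt (by simp)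
  have h2 : MDifferentiableAt 𝓘(ℂ, E) 𝓘(ℂ, E) (Y t) (e x) :=
    (((hYd t ht') (e x) hx.2).differentiableAt (isOpen_ball.mem_nhds hx.2)).mdifferentiableAt
  have h3 : MDifferentiableAt 𝓘(ℂ, E) 𝓘(ℂ, E) e.symm (Y t (e x)) :=
    ((contMDiffOn_symm_of_mem_maximalAtlas he).contMDiffAt
      (e.open_target.mem_nhds ((hY (e x) hx.2).2 t ht').1)).mdifferentiableAt (by simp)
  have h4 := h3.comp x (h2.comp x h1)
  refine h4.congr_of_eventuallyEq ?_
  filter_upwards [hVo.mem_nhds hx] with y hy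
  exact hform y hy t ht'

theorem flow_holo (hρ : IsHolIsomFlow E ρ) {Φ : ℝ → M → M} (hΦ0 : ∀ x, Φ 0 x = x)
    (hΦadd : ∀ s t x, Φ (s + t) x = Φ s (Φ t x))
    (hΦ : ∀ x, IsMIntegralCurve (I := 𝓘(ℝ, E)) (fun t => Φ t x) (W ρ)) (T : ℝ) :
    MDifferentiable 𝓘(ℂ, E) 𝓘(ℂ, E) (Φ T) := by
  intro x₀
  choose ε hε V hV hloc using fun x : M => flow_holo_local hρ hΦ0 hΦ x
  -- uniform time along the orbit segment
  set K : Set M := (fun t => Φ t x₀) '' (Icc (-|T|) |T|) with hK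
  have hKc : IsCompact K := isCompact_Icc.image (hΦ x₀).continuous
  obtain ⟨S, hSK, hS⟩ := hKc.elim_nhds_subcover V (fun x _ => hV x)
  obtain ⟨δ, hδ, hδloc⟩ : ∃ δ > 0, ∀ x ∈ K, ∀ t, |t| < δ →
      MDifferentiableAt 𝓘(ℂ, E) 𝓘(ℂ, E) (Φ t) x := by
    rcases S.eq_empty_or_nonempty with rfl | hne
    · refine ⟨1, one_pos, fun x hx => ?_⟩
      have := hS hx
      simp at this
    refine ⟨S.inf' hne ε, (Finset.lt_inf'_iff hne).2 fun x _ => hε x, fun x hx t ht => ?_⟩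
    obtain ⟨y, hy, hxy⟩ := mem_iUnion₂.1 (hS hx)
    exact hloc y x hxy t (ht.trans_le (Finset.inf'_le _ hy))
  obtain ⟨N, hN⟩ := exists_nat_gt (|T| / δ)
  have hN0 : (0:ℝ) < N := by
    have : 0 ≤ |T| / δ := by positivity
    linarith only [hN, this]
  have hstep : |T / N| < δ := by
    rw [abs_div, abs_of_pos hN0, div_lt_iff₀ hN0]
    rw [div_lt_iff₀ hδ] at hN
    linarith only [hN]
  have hmem : ∀ k : ℕ, k ≤ N → Φ (k * (T / N)) x₀ ∈ K := by
    intro k hk
    refine ⟨k * (T / N), ?_, rfl⟩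
    rw [mem_Icc, ← abs_le, abs_mul, abs_div, abs_of_pos hN0, abs_of_nonneg (Nat.cast_nonneg k)]
    have hk' : (k:ℝ) ≤ N := by exact_mod_cast hk
    calc (k:ℝ) * (|T| / N) ≤ N * (|T| / N) := by gcongr
      _ = |T| := by field_simp
  have key : ∀ k : ℕ, k ≤ N → MDifferentiableAt 𝓘(ℂ, E) 𝓘(ℂ, E) (Φ (k * (T / N))) x₀ := by
    intro k
    induction k with
    | zero =>
      intro _
      have : Φ (((0:ℕ):ℝ) * (T / N)) = id := by
        funext x; simp [hΦ0]
      rw [this]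
      exact mdifferentiableAt_id
    | succ k ih =>
      intro hk
      have h1 := ih (Nat.le_of_succ_le hk)
      have h2 := hδloc _ (hmem k (Nat.le_of_succ_le hk)) (T / N) hstep
      have h3 : Φ (((k + 1 : ℕ) : ℝ) * (T / N)) = Φ (T / N) ∘ Φ (k * (T / N)) := by
        funext x
        have : (((k + 1 : ℕ) : ℝ)) * (T / N) = T / N + k * (T / N) := by push_cast; ring
        rw [this, hΦadd]
        rfl
      rw [h3]
      exact h2.comp x₀ h1
  have h1 := key N le_rfl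
  have h2 : (N:ℝ) * (T / N) = T := by field_simp
  rwa [h2] at h1

end Vale.Agent.P253.Mfd
end
end
end

section

section

open scoped Manifold ContDiff Topology Bundle
open Set Metric Complex Filter Bundle IsManifold

set_option maxSynthPendingDepth 3
set_option linter.unusedSectionVars false

noncomputable section

namespace Vale.Agent.P253.Mfd

/-- the linear action as a continuous linear map -/
def LEL {ι : Type*} [Fintype ι] {E : Type*} [NormedAddCommGroup E] [NormedSpace ℂ E]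
    (φ : E ≃L[ℂ] (ι → ℂ)) (m : ι → ℝ) (ζ : ℂ) : E →L[ℂ] E :=
  (φ.symm : (ι → ℂ) →L[ℂ] E).comp ((ContinuousLinearMap.pi fun j =>
    Complex.exp (ζ * m j) • (ContinuousLinearMap.proj j : (ι → ℂ) →L[ℂ] ℂ)).comp
      (φ : E →L[ℂ] (ι → ℂ)))

variable {E : Type*} [NormedAddCommGroup E] [NormedSpace ℂ E] [FiniteDimensional ℂ E]
  {M : Type*} [MetricSpace M] [ChartedSpace E M]
  [IsManifold 𝓘(ℂ, E) 1 M] [IsManifold 𝓘(ℝ, E) ∞ M]
  [RiemannianBundle (fun x : M => TangentSpace 𝓘(ℝ, E) x)]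
  [IsContMDiffRiemannianBundle 𝓘(ℝ, E) ∞ E (fun x : M => TangentSpace 𝓘(ℝ, E) x)]
  {ι : Type*} [Fintype ι]

/-- complex and real derivatives of the action in a chart -/
theorem fderiv_complex_HF {ρ : ℝ → M → M} (hρ : IsHolIsomFlow E ρ)
    {e e' : OpenPartialHomeomorph M E} (he : e ∈ maximalAtlas 𝓘(ℂ, E) 1 M)
    (he' : e' ∈ maximalAtlas 𝓘(ℂ, E) 1 M) {t : ℝ} {z : E} (hq : (t, z) ∈ HΩ ρ e e') (v : E) :
    fderiv ℂ (fun w => HF ρ e e' (t, w)) z v = fderiv ℝ (HF ρ e e') (t, z) (0, v) := by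
  have h1 := (HΩ_slice_holo hρ he he' hq).hasFDerivAt.restrictScalars ℝ
  have h2 := hasFDerivAt_HF_right hρ he he' hq
  have h3 := congrArg (fun T : E →L[ℝ] E => T v) (h1.unique h2)
  simpa using h3

/-- A fixed point of a flow has small invariant coordinate balls. -/
theorem exists_inverse_chart {U : Set E} (hU : IsOpen U) {ψ : E → E}
    (hψ : DifferentiableOn ℂ ψ U) {z₀ : E} (hz₀ : z₀ ∈ U)
    (hd : HasFDerivAt ψ (ContinuousLinearMap.id ℂ E) z₀) :
    ∃ Ψ : OpenPartialHomeomorph E E, z₀ ∈ Ψ.source ∧ Ψ.source ⊆ U ∧ (∀ z, Ψ z = ψ z) ∧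
      ∀ w ∈ Ψ.target, ContDiffAt ℂ ∞ Ψ.symm w := by
  have hCE : CompleteSpace E := FiniteDimensional.complete ℂ E
  have hsm := contDiffOn_of_differentiableOn_complex hU hψ
  have hd' : HasFDerivAt ψ ((ContinuousLinearEquiv.refl ℂ E : E ≃L[ℂ] E) : E →L[ℂ] E) z₀ := hd
  have h0 : ContDiffAt ℂ ∞ ψ z₀ := hsm.contDiffAt (hU.mem_nhds hz₀)
  set Ψ₀ := h0.toOpenPartialHomeomorph ψ hd' (by simp) with hΨ₀
  have hV₁ : IsOpen (U ∩ fderiv ℂ ψ ⁻¹' range ((↑) : (E ≃L[ℂ] E) → E →L[ℂ] E)) :=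
    (fderiv_continuousOn hU hψ).isOpen_inter_preimage hU ContinuousLinearEquiv.isOpen
  set V₁ := U ∩ fderiv ℂ ψ ⁻¹' range ((↑) : (E ≃L[ℂ] E) → E →L[ℂ] E) with hV₁def
  have hz₁ : z₀ ∈ V₁ := ⟨hz₀, ⟨ContinuousLinearEquiv.refl ℂ E, hd'.fderiv.symm⟩⟩
  refine ⟨Ψ₀.restrOpen V₁ hV₁, ?_, ?_, fun z => rfl, ?_⟩
  · rw [OpenPartialHomeomorph.restrOpen_source]
    exact ⟨ContDiffAt.mem_toOpenPartialHomeomorph_source h0 hd' (by simp), hz₁⟩
  · rw [OpenPartialHomeomorph.restrOpen_source]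
    exact fun z hz => hz.2.1
  · intro w hw
    have h1 := (Ψ₀.restrOpen V₁ hV₁).map_target hw
    rw [OpenPartialHomeomorph.restrOpen_source] at h1
    obtain ⟨T, hT⟩ := h1.2.2
    refine OpenPartialHomeomorph.contDiffAt_symm (Ψ₀.restrOpen V₁ hV₁) (f₀' := T) hw ?_ ?_
    · rw [hT]
      exact (hψ.differentiableAt (hU.mem_nhds h1.2.1)).hasFDerivAt
    · exact hsm.contDiffAt (hU.mem_nhds h1.2.1)

/-- Averaged linearization of a one-parameter group of bounded holomorphic maps. -/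
theorem exists_linearization [ProperSpace E] [ProperSpace (E →L[ℂ] E)] {U : Set E}
    (hUo : IsOpen U) {z₀ : E} (hz₀U : z₀ ∈ U)
    {f : ℝ → E → E} (hfn : ∀ (θ : ℝ), ∀ z ∈ U, ‖f θ z - z₀‖ ≤ 1) (hfz₀ : ∀ θ, f θ z₀ = z₀)
    (hfadd : ∀ (θ s : ℝ), ∀ z ∈ U, f θ (f s z) = f (θ + s) z)
    (hfc : ∀ z ∈ U, Continuous fun θ => f θ z)
    (hfdc : ∀ z ∈ U, ∀ v : E, Continuous fun θ => fderiv ℂ (f θ) z v)
    (hfd : ∀ θ, DifferentiableOn ℂ (f θ) U) (φ : E ≃L[ℂ] (ι → ℂ)) (m : ι → ℝ)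
    (hwc : ∀ (t : ℝ) (v : E), fderiv ℂ (f t) z₀ v = LE φ m (t * I) v) :
    ∃ ψ : E → E, DifferentiableOn ℂ ψ U ∧ ψ z₀ = 0 ∧
      HasFDerivAt ψ (ContinuousLinearMap.id ℂ E) z₀ ∧
      ∀ (s : ℝ), ∀ z ∈ U, ψ (f s z) = LE φ m (s * I) (ψ z) := by
  -- the family to be averaged
  let k : ℝ → E → E := fun θ z => LE φ m (((-θ : ℝ) : ℂ) * I) (f θ z - z₀)
  set B : ℝ := ‖(φ.symm : (ι → ℂ) →L[ℂ] E)‖ * ‖(φ : E →L[ℂ] (ι → ℂ))‖ with hB
  have hkB : ∀ θ, ∀ z ∈ U, ‖k θ z‖ ≤ B := by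
    intro θ z hz
    have h1 : k θ z = φ.symm (φ (k θ z)) := by simp
    have h2 : ‖φ (k θ z)‖ = ‖φ (f θ z - z₀)‖ := norm_LE_I (-θ) _
    rw [h1]
    calc ‖φ.symm (φ (k θ z))‖ ≤ ‖(φ.symm : (ι → ℂ) →L[ℂ] E)‖ * ‖φ (k θ z)‖ :=
          (φ.symm : (ι → ℂ) →L[ℂ] E).le_opNorm _
      _ ≤ ‖(φ.symm : (ι → ℂ) →L[ℂ] E)‖ * (‖(φ : E →L[ℂ] (ι → ℂ))‖ * 1) := by
          rw [h2]
          gcongr
          exact ((φ : E →L[ℂ] (ι → ℂ)).le_opNorm _).trans (by gcongr; exact hfn θ z hz)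
      _ = B := by rw [mul_one]
  have hkd : ∀ θ, DifferentiableOn ℂ (k θ) U := fun θ =>
    (differentiable_LE_right (((-θ : ℝ) : ℂ) * I)).comp_differentiableOn
      ((hfd θ).sub_const z₀)
  have hLc : Continuous fun q : ℝ × E => LE φ m (((-q.1 : ℝ) : ℂ) * I) q.2 := by
    have h1 : Continuous fun q : ℝ × E => (((-q.1 : ℝ) : ℂ) * I, q.2) := by fun_prop
    exact continuous_LE.comp h1
  have hkc : ∀ z ∈ U, Continuous fun θ => k θ z := by
    intro z hz
    have h1 : Continuous fun θ : ℝ => (θ, f θ z - z₀) :=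
      continuous_id.prodMk ((hfc z hz).sub continuous_const)
    have h2 := hLc.comp h1
    exact h2
  have hkfd : ∀ θ, ∀ z ∈ U, ∀ v, fderiv ℂ (k θ) z v =
      LE φ m (((-θ : ℝ) : ℂ) * I) (fderiv ℂ (f θ) z v) := by
    intro θ z hz v
    have h1 : HasFDerivAt (f θ) (fderiv ℂ (f θ) z) z :=
      ((hfd θ).differentiableAt (hUo.mem_nhds hz)).hasFDerivAt
    have h2 := (LEL φ m (((-θ : ℝ) : ℂ) * I)).hasFDerivAt.comp z (h1.sub_const z₀)
    have h3 : fderiv ℂ (k θ) z = (LEL φ m (((-θ : ℝ) : ℂ) * I)).comp (fderiv ℂ (f θ) z) :=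
      h2.fderiv
    rw [h3]
    rfl
  have hkfc : ∀ z ∈ U, Continuous fun θ => fderiv ℂ (k θ) z := by
    intro z hz
    rw [continuous_clm_apply]
    intro v
    have h1 : Continuous fun θ : ℝ => (θ, fderiv ℂ (f θ) z v) :=
      continuous_id.prodMk (hfdc z hz v)
    refine (hLc.comp h1).congr (fun θ => ?_)
    exact (hkfd θ z hz v).symm
  set ψ : E → E := fun z => mean fun θ => k θ z with hψ
  have hψd : ∀ z ∈ U, HasFDerivAt ψ (mean fun θ => fderiv ℂ (k θ) z) z := fun z hz =>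
    hasFDerivAt_mean hUo hkd hkB hkc hkfc hz
  have hψdiff : DifferentiableOn ℂ ψ U := fun z hz =>
    (hψd z hz).differentiableAt.differentiableWithinAt
  have hψ0 : ψ z₀ = 0 := by
    have : (fun θ => k θ z₀) = fun _ => (0:E) := by
      funext θ
      simp only [k, hfz₀, sub_self, LE_zero_right]
    simp only [hψ]
    rw [this, mean_const]
  have hψ' : HasFDerivAt ψ (ContinuousLinearMap.id ℂ E) z₀ := by
    have : (fun θ => fderiv ℂ (k θ) z₀) = fun _ => ContinuousLinearMap.id ℂ E := by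
      funext θ
      ext v
      rw [hkfd θ z₀ hz₀U v]
      have h1 : fderiv ℂ (f θ) z₀ v = LE φ m (θ * I) v := hwc θ v
      rw [h1, ← LE_add]
      have : ((-θ : ℝ) : ℂ) * I + θ * I = 0 := by push_cast; ring
      rw [this, LE_zero]
      rfl
    have h1 := hψd z₀ hz₀U
    rw [this, mean_const] at h1
    exact h1
  have hψeq : ∀ (s : ℝ), ∀ z ∈ U, ψ (f s z) = LE φ m (s * I) (ψ z) := by
    intro s z hz
    have h1 : (fun θ => k θ (f s z)) = fun θ => LE φ m (s * I) (k (θ + s) z) := by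
      funext θ
      simp only [k]
      rw [hfadd θ s z hz, ← LE_add]
      congr 1
      push_cast; ring
    have h2 : Continuous fun θ => k (θ + s) z :=
      (hkc z hz).comp (continuous_id.add continuous_const)
    simp only [hψ]
    rw [h1]
    have h3 := mean_clm h2 (fun θ => hkB (θ + s) z hz) ((LEL φ m (s * I)).restrictScalars ℝ)
    have h4 : (mean fun θ => LE φ m (s * I) (k (θ + s) z)) =
        LE φ m (s * I) (mean fun θ => k (θ + s) z) := h3
    rw [h4, mean_translate (hkc z hz) (fun θ => hkB θ z hz) s]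
  exact ⟨ψ, hψdiff, hψ0, hψ', hψeq⟩

variable [IsRiemannianManifold 𝓘(ℝ, E) M]

/-- Linearization of a flow of holomorphic isometries near a fixed point. -/
theorem exists_linearizing_chart {ρ : ℝ → M → M} (hρ : IsHolIsomFlow E ρ) {p : M}
    (hp : ∀ t, ρ t p = p) (φ : E ≃L[ℂ] (ι → ℂ)) (m : ι → ℝ)
    (hw : ∀ (t : ℝ) (v : E), (mfderiv 𝓘(ℂ, E) 𝓘(ℂ, E) (ρ t) p : E → E) v = LE φ m (t * I) v) :
    ∃ e₀ ∈ maximalAtlas 𝓘(ℂ, E) 1 M, ∃ δ > 0, p ∈ e₀.source ∧ e₀ p = 0 ∧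
      e₀.target = {z | ‖φ z‖ < δ} ∧
      ∀ θ : ℝ, ∀ x ∈ e₀.source, ρ θ x ∈ e₀.source ∧ e₀ (ρ θ x) = LE φ m (θ * I) (e₀ x) := by
  have hCE : CompleteSpace E := FiniteDimensional.complete ℂ E
  have hPE : ProperSpace E := FiniteDimensional.proper ℂ E
  have hPEE : ProperSpace (E →L[ℂ] E) := FiniteDimensional.proper ℂ _
  have hc : chartAt E p ∈ maximalAtlas 𝓘(ℂ, E) 1 M := chart_mem_maximalAtlas p
  have hpc : p ∈ (chartAt E p).source := mem_chart_source E p
  -- the derivative at the fixed point in the chart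
  have hwc : ∀ (t : ℝ) (v : E),
      fderiv ℂ (fun z => chartAt E p (ρ t ((chartAt E p).symm z))) (chartAt E p p) v
        = LE φ m (t * I) v := by
    intro t v
    have hmd : MDifferentiableAt 𝓘(ℂ, E) 𝓘(ℂ, E) (ρ t) p := hρ.holo t p
    have h0 : (mfderiv 𝓘(ℂ, E) 𝓘(ℂ, E) (ρ t) p : E →L[ℂ] E) =
        fderivWithin ℂ (writtenInExtChartAt 𝓘(ℂ, E) 𝓘(ℂ, E) p (ρ t)) (range 𝓘(ℂ, E))
          (extChartAt 𝓘(ℂ, E) p p) := hmd.mfderiv
    have h1 : (mfderiv 𝓘(ℂ, E) 𝓘(ℂ, E) (ρ t) p : E →L[ℂ] E) v = LE φ m (t * I) v := hw t v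
    rw [h0] at h1
    simp only [writtenInExtChartAt, hp t, extChartAt, mfld_simps, fderivWithin_univ] at h1
    exact h1
  set c := chartAt E p with hcdef
  set z₀ := c p with hz₀def
  -- a small ball
  obtain ⟨r, hr, hball⟩ : ∃ r > 0, ∀ x ∈ ball p r, x ∈ c.source ∧ ‖c x - z₀‖ < 1 := by
    have h1 : ∀ᶠ x in 𝓝 p, x ∈ c.source := c.open_source.mem_nhds hpc
    have h2 : ∀ᶠ x in 𝓝 p, ‖c x - z₀‖ < 1 := by
      have := (c.continuousAt hpc).eventually (ball_mem_nhds z₀ one_pos)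
      filter_upwards [this] with x hx
      rwa [dist_eq_norm] at hx
    obtain ⟨r, hr, h3⟩ := Metric.eventually_nhds_iff_ball.1 (h1.and h2)
    exact ⟨r, hr, h3⟩
  have hUo : IsOpen (c.target ∩ c.symm ⁻¹' ball p r) :=
    c.continuousOn_symm.isOpen_inter_preimage c.open_target isOpen_ball
  set U := c.target ∩ c.symm ⁻¹' ball p r with hUdef
  have hz₀U : z₀ ∈ U := ⟨c.map_source hpc, by
    simp only [mem_preimage, hz₀def, c.left_inv hpc]; exact mem_ball_self hr⟩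
  have hinv : ∀ {r' : ℝ} (θ : ℝ) {x : M}, x ∈ ball p r' → ρ θ x ∈ ball p r' := by
    intro r' θ x hx
    rw [mem_ball] at hx ⊢
    calc dist (ρ θ x) p = dist (ρ θ x) (ρ θ p) := by rw [hp θ]
      _ = dist x p := hρ.dist_eq θ x p
      _ < r' := hx
  set f : ℝ → E → E := fun θ z => HF ρ c c (θ, z) with hf
  have hΩ : ∀ (θ : ℝ), ∀ z ∈ U, (θ, z) ∈ HΩ ρ c c := fun θ z hz =>
    ⟨hz.1, (hball _ (hinv θ hz.2)).1⟩
  have hfU : ∀ (θ : ℝ), ∀ z ∈ U, f θ z ∈ U ∧ c.symm (f θ z) = ρ θ (c.symm z) := by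
    intro θ z hz
    have h1 : ρ θ (c.symm z) ∈ ball p r := hinv θ hz.2
    have h2 : c.symm (f θ z) = ρ θ (c.symm z) := c.left_inv (hball _ h1).1
    refine ⟨⟨c.map_source (hball _ h1).1, ?_⟩, h2⟩
    simp only [mem_preimage, h2]
    exact h1
  have hfn : ∀ (θ : ℝ), ∀ z ∈ U, ‖f θ z - z₀‖ ≤ 1 := fun θ z hz =>
    (hball _ (hinv θ hz.2)).2.le
  have hfz₀ : ∀ θ, f θ z₀ = z₀ := by
    intro θ
    simp only [hf, HF, hz₀def]
    rw [c.left_inv hpc, hp θ]
  have hfadd : ∀ (θ s : ℝ), ∀ z ∈ U, f θ (f s z) = f (θ + s) z := by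
    intro θ s z hz
    change c (ρ θ (c.symm (f s z))) = c (ρ (θ + s) (c.symm z))
    rw [(hfU s z hz).2, hρ.add]
  have hfc : ∀ z ∈ U, Continuous fun θ => f θ z := by
    intro z hz
    have h1 : Continuous fun θ : ℝ => (θ, z) := by fun_prop
    exact (contDiffOn_HF hρ hc hc).continuousOn.comp_continuous h1 (fun θ => hΩ θ z hz)
  have hfdc : ∀ z ∈ U, ∀ v : E, Continuous fun θ => fderiv ℂ (f θ) z v := by
    intro z hz v
    have h1 : Continuous fun θ : ℝ => (θ, z) := by fun_prop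
    have h2 := (contDiffOn_fderiv_HF hρ hc hc).continuousOn.comp_continuous h1
      (fun θ => hΩ θ z hz)
    have h3 : Continuous fun θ : ℝ => fderiv ℝ (HF ρ c c) (θ, z) (0, v) :=
      h2.clm_apply continuous_const
    refine h3.congr (fun θ => ?_)
    exact (fderiv_complex_HF hρ hc hc (hΩ θ z hz) v).symm
  have hfd : ∀ θ, DifferentiableOn ℂ (f θ) U := fun θ z hz =>
    (HΩ_slice_holo hρ hc hc (hΩ θ z hz)).differentiableWithinAt
  obtain ⟨ψ, hψdiff, hψ0, hψ', hψeq⟩ := exists_linearization hUo hz₀U hfn hfz₀ hfadd hfc hfdc hfd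
    φ m hwc
  obtain ⟨Ψ, hΨ1, hΨ2, hΨ3, hΨ4⟩ := exists_inverse_chart hUo hψdiff hz₀U hψ'
  -- a smaller invariant ball
  obtain ⟨r₂, hr₂, hball₂⟩ : ∃ r₂ > 0, ∀ x ∈ ball p r₂, x ∈ ball p r ∧ c x ∈ Ψ.source := by
    have h1 : ∀ᶠ x in 𝓝 p, x ∈ ball p r := ball_mem_nhds p hr
    have h2 : ∀ᶠ x in 𝓝 p, c x ∈ Ψ.source :=
      (c.continuousAt hpc).eventually (Ψ.open_source.mem_nhds hΨ1)
    obtain ⟨r, hr, h3⟩ := Metric.eventually_nhds_iff_ball.1 (h1.and h2)
    exact ⟨r, hr, h3⟩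
  have hsrcc : ∀ x ∈ ball p r₂, x ∈ c.source := fun x hx => (hball _ (hball₂ x hx).1).1
  have hcU : ∀ x ∈ ball p r₂, c x ∈ U := fun x hx => hΨ2 (hball₂ x hx).2
  set e₁ : OpenPartialHomeomorph M E := (c.restrOpen (ball p r₂) isOpen_ball).trans Ψ with he₁
  have he₁a : ∀ x, e₁ x = ψ (c x) := fun x => hΨ3 (c x)
  have he₁s : e₁.source = ball p r₂ := by
    ext x
    simp only [he₁, OpenPartialHomeomorph.trans_source, OpenPartialHomeomorph.restrOpen_source,
      OpenPartialHomeomorph.coe_restrOpen, mem_inter_iff, mem_preimage]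
    constructor
    · rintro ⟨⟨-, h⟩, -⟩
      exact h
    · intro h
      exact ⟨⟨hsrcc x h, h⟩, (hball₂ x h).2⟩
  have hp₁ : p ∈ e₁.source := he₁s ▸ mem_ball_self hr₂
  have he₁p : e₁ p = 0 := (he₁a p).trans hψ0
  have h0t : (0:E) ∈ e₁.target := he₁p ▸ e₁.map_source hp₁
  obtain ⟨δ, hδ, hδt⟩ : ∃ δ > 0, ∀ z : E, ‖φ z‖ < δ → z ∈ e₁.target := by
    have h1 : φ.symm ⁻¹' e₁.target ∈ 𝓝 (0 : ι → ℂ) := by
      apply φ.symm.continuous.continuousAt.preimage_mem_nhds
      rw [map_zero]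
      exact e₁.open_target.mem_nhds h0t
    obtain ⟨δ, hδ, h2⟩ := Metric.nhds_basis_ball.mem_iff.1 h1
    refine ⟨δ, hδ, fun z hz => ?_⟩
    have h3 := h2 (show φ z ∈ ball 0 δ by simpa using hz)
    simpa using h3
  have hDo : IsOpen {z : E | ‖φ z‖ < δ} := isOpen_lt φ.continuous.norm continuous_const
  set e₀ : OpenPartialHomeomorph M E := (e₁.symm.restrOpen {z : E | ‖φ z‖ < δ} hDo).symm with he₀
  have he₀a : ∀ x, e₀ x = ψ (c x) := he₁a
  have he₀t : e₀.target = {z | ‖φ z‖ < δ} := by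
    ext z
    simp only [he₀, OpenPartialHomeomorph.symm_target, OpenPartialHomeomorph.restrOpen_source,
      OpenPartialHomeomorph.symm_source, mem_inter_iff, mem_setOf_eq]
    exact ⟨fun h => h.2, fun h => ⟨hδt z h, h⟩⟩
  have he₀s : ∀ x, x ∈ e₀.source ↔ x ∈ ball p r₂ ∧ ‖φ (ψ (c x))‖ < δ := by
    intro x
    constructor
    · intro h
      have h1 := e₀.map_source h
      rw [he₀t, mem_setOf_eq, he₀a] at h1
      have h2 : x ∈ e₁.source := by
        have h3 := e₀.left_inv h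
        rw [← h3]
        exact e₁.map_target (hδt _ (by rw [he₀a]; exact h1))
      exact ⟨he₁s ▸ h2, h1⟩
    · rintro ⟨h1, h2⟩
      have h3 : x ∈ e₁.source := he₁s ▸ h1
      have h4 : e₁ x ∈ e₀.target := by
        rw [he₀t, mem_setOf_eq, he₁a]; exact h2
      have h5 := e₀.map_target h4
      have h6 : e₀.symm (e₁ x) = x := e₁.left_inv h3
      rwa [h6] at h5
  refine ⟨e₀, ?_, δ, hδ, ?_, ?_, he₀t, ?_⟩
  · -- the chart is holomorphic
    refine OpenPartialHomeomorph.mem_maximalAtlas_of_contMDiffOn e₀ ?_ ?_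
    · intro x hx
      have hx1 := ((he₀s x).1 hx).1
      have h1 : ContMDiffAt 𝓘(ℂ, E) 𝓘(ℂ, E) 1 c x :=
        (contMDiffOn_of_mem_maximalAtlas hc).contMDiffAt (c.open_source.mem_nhds (hsrcc x hx1))
      have h2 : ContDiffAt ℂ ∞ ψ (c x) :=
        (contDiffOn_of_differentiableOn_complex hUo hψdiff).contDiffAt
          (hUo.mem_nhds (hcU x hx1))
      have h3 := ((h2.of_le (by simp : (1:WithTop ℕ∞) ≤ ∞)).contMDiffAt).comp x h1
      have h4 : (e₀ : M → E) = ψ ∘ c := funext he₀a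
      rw [h4]
      exact h3.contMDiffWithinAt
    · intro z hz
      have hz1 : ‖φ z‖ < δ := by rw [he₀t] at hz; exact hz
      have hz2 : z ∈ e₁.target := hδt z hz1
      have hz3 : z ∈ Ψ.target := by
        rw [he₁, OpenPartialHomeomorph.trans_target] at hz2
        exact hz2.1
      have hz4 : Ψ.symm z ∈ c.target := by
        rw [he₁, OpenPartialHomeomorph.trans_target] at hz2
        have h5 : Ψ.symm z ∈ (c.restrOpen (ball p r₂) isOpen_ball).target := hz2.2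
        have h6 := (c.restrOpen (ball p r₂) isOpen_ball).map_target h5
        rw [OpenPartialHomeomorph.restrOpen_source] at h6
        have h7 := (c.restrOpen (ball p r₂) isOpen_ball).right_inv h5
        rw [← h7]
        exact c.map_source h6.1
      have h1 : ContMDiffAt 𝓘(ℂ, E) 𝓘(ℂ, E) 1 c.symm (Ψ.symm z) :=
        (contMDiffOn_symm_of_mem_maximalAtlas hc).contMDiffAt (c.open_target.mem_nhds hz4)
      have h2 : ContMDiffAt 𝓘(ℂ, E) 𝓘(ℂ, E) 1 Ψ.symm z :=
        ((hΨ4 z hz3).of_le (by simp)).contMDiffAt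
      have h3 := h1.comp z h2
      exact h3.contMDiffWithinAt
  · rw [he₀s]
    refine ⟨mem_ball_self hr₂, ?_⟩
    change ‖φ (ψ z₀)‖ < δ
    rw [hψ0, map_zero, norm_zero]
    exact hδ
  · rw [he₀a]; exact hψ0
  · intro θ x hx
    obtain ⟨hx1, hx2⟩ := (he₀s x).1 hx
    have h1 : f θ (c x) = c (ρ θ x) := by
      change c (ρ θ (c.symm (c x))) = _
      rw [c.left_inv (hsrcc x hx1)]
    have h2 : ψ (c (ρ θ x)) = LE φ m (θ * I) (ψ (c x)) := by
      rw [← h1]
      exact hψeq θ (c x) (hcU x hx1)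
    refine ⟨(he₀s _).2 ⟨hinv θ hx1, ?_⟩, ?_⟩
    · rw [h2, norm_LE_I]
      exact hx2
    · rw [he₀a, he₀a, h2]

end Vale.Agent.P253.Mfd
end
end
end

section

section

open scoped Manifold ContDiff Topology Bundle
open Set Metric Complex Filter Bundle IsManifold Manifold

set_option maxSynthPendingDepth 3
set_option linter.unusedSectionVars false

noncomputable section

namespace Vale.Agent.P253.Mfd

variable {E : Type*} [NormedAddCommGroup E] [NormedSpace ℂ E] [FiniteDimensional ℂ E]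
  {M : Type*} [MetricSpace M] [ChartedSpace E M]
  [IsManifold 𝓘(ℂ, E) 1 M] [IsManifold 𝓘(ℝ, E) ∞ M]
  [RiemannianBundle (fun x : M => TangentSpace 𝓘(ℝ, E) x)]
  [IsContMDiffRiemannianBundle 𝓘(ℝ, E) ∞ E (fun x : M => TangentSpace 𝓘(ℝ, E) x)]
  [IsRiemannianManifold 𝓘(ℝ, E) M]
  {ρ : ℝ → M → M} {ι : Type*} [Fintype ι] {φ : E ≃L[ℂ] (ι → ℂ)} {m : ι → ℝ}

/-- the vector field in a linearizing chart -/
theorem vF_linear (hρ : IsHolIsomFlow E ρ)
    {e₀ : OpenPartialHomeomorph M E}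
    (hequiv : ∀ θ : ℝ, ∀ x ∈ e₀.source, ρ θ x ∈ e₀.source ∧ e₀ (ρ θ x) = LE φ m (θ * I) (e₀ x))
    {z : E} (hz : z ∈ e₀.target) : vF ρ e₀ z = AE φ m z := by
  have h1 : (fun t : ℝ => e₀ (ρ t (e₀.symm z))) = fun t : ℝ => LE φ m (t * I) z := by
    funext t
    rw [(hequiv t _ (e₀.map_target hz)).2, e₀.right_inv hz]
  have h2 : HasDerivAt (fun t : ℝ => LE φ m (t * I) z) (I • AE φ m z) 0 := by
    have h3 : HasDerivAt (fun t : ℝ => (t:ℂ) * I) I 0 := by
      simpa using (hasDerivAt_id (0:ℝ)).ofReal_comp.mul_const I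
    have h4 : HasDerivAt (fun ζ : ℂ => LE φ m ζ z) (AE φ m (LE φ m (((0:ℝ):ℂ) * I) z))
        (((0:ℝ):ℂ) * I) := hasDerivAt_LE _ z
    have h5 : HasDerivAt (fun t : ℝ => LE φ m (t * I) z)
        (I • AE φ m (LE φ m (((0:ℝ):ℂ) * I) z)) 0 :=
      HasDerivAt.scomp (g₁ := fun ζ : ℂ => LE φ m ζ z) (0:ℝ) h4 h3
    rw [ofReal_zero, zero_mul, LE_zero] at h5
    exact h5
  rw [vF, xF, h1, h2.deriv, smul_smul, I_mul_I, neg_one_smul, neg_neg]

/-- the flow in a linearizing chart -/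
theorem flow_linear (hρ : IsHolIsomFlow E ρ) (hm : ∀ j, 0 < m j) {Φ : ℝ → M → M}
    (hΦ0 : ∀ x, Φ 0 x = x)
    (hΦ : ∀ x, IsMIntegralCurve (I := 𝓘(ℝ, E)) (fun t => Φ t x) (W ρ))
    {e₀ : OpenPartialHomeomorph M E} (he₀ : e₀ ∈ maximalAtlas 𝓘(ℂ, E) 1 M) {δ : ℝ}
    (htgt : e₀.target = {z | ‖φ z‖ < δ})
    (hequiv : ∀ θ : ℝ, ∀ x ∈ e₀.source, ρ θ x ∈ e₀.source ∧ e₀ (ρ θ x) = LE φ m (θ * I) (e₀ x))
    (t : ℝ) (ht : t ≤ 0) (x : M) (hx : x ∈ e₀.source) :
    Φ t x ∈ e₀.source ∧ e₀ (Φ t x) = LE φ m t (e₀ x) := by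
  set z := e₀ x with hz
  have hzt : z ∈ e₀.target := e₀.map_source hx
  have hzn : ‖φ z‖ < δ := by rw [htgt] at hzt; exact hzt
  have hneg : ∀ s : ℝ, s ≤ 0 → LE φ m s z ∈ e₀.target := by
    intro s hs
    rw [htgt]
    exact (norm_LE_nonpos' hm hs z).trans_lt hzn
  -- a little forward time
  have hc : Continuous (fun s : ℝ => LE φ m (s : ℂ) z) :=
    continuous_LE.comp (continuous_ofReal.prodMk continuous_const)
  obtain ⟨ε, hε, hεb⟩ : ∃ ε > 0, ∀ s : ℝ, |s| < ε → LE φ m s z ∈ e₀.target := by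
    have h1 : ∀ᶠ s : ℝ in 𝓝 0, LE φ m s z ∈ e₀.target := by
      apply hc.continuousAt.eventually
      apply e₀.open_target.mem_nhds
      simpa [LE_zero] using hzt
    obtain ⟨ε, hε, h2⟩ := Metric.eventually_nhds_iff.1 h1
    exact ⟨ε, hε, fun s hs => h2 (by simpa [Real.dist_eq] using hs)⟩
  have hall : ∀ s : ℝ, s < ε → LE φ m s z ∈ e₀.target := by
    intro s hs
    by_cases hs0 : s ≤ 0
    · exact hneg s hs0
    · push Not at hs0
      exact hεb s (by rwa [abs_of_pos hs0])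
  have hcurve : IsMIntegralCurveOn (I := 𝓘(ℝ, E)) (fun s : ℝ => e₀.symm (LE φ m s z)) (W ρ)
      (Ioo (t - 1) ε) := by
    intro s hs
    have h1 : HasDerivAt (fun s : ℝ => LE φ m (s:ℂ) z) (vF ρ e₀ (LE φ m (s:ℂ) z)) s := by
      rw [vF_linear hρ hequiv (hall s hs.2)]
      have h2 : HasDerivAt (fun s : ℝ => (s:ℂ)) 1 s := (hasDerivAt_id s).ofReal_comp
      have h3 := (hasDerivAt_LE (φ := φ) (m := m) (s:ℂ) z).scomp s h2
      rw [one_smul] at h3
      exact h3
    exact (IntegralCurve.of_chart hρ he₀ h1 (hall s hs.2)).hasMFDerivWithinAt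
  have heq := isMIntegralCurveOn_Ioo_eqOn_of_contMDiff_boundaryless (t₀ := 0)
    (show (0:ℝ) ∈ Ioo (t - 1) ε from ⟨by linarith only [ht], hε⟩) (contMDiff_W hρ)
    ((hΦ x).isMIntegralCurveOn (Ioo (t - 1) ε)) hcurve
    (by simp [hΦ0, LE_zero, hz, e₀.left_inv hx])
  have h1 : Φ t x = e₀.symm (LE φ m t z) := heq ⟨by linarith only [], by linarith⟩
  rw [h1]
  exact ⟨e₀.map_target (hneg t ht), e₀.right_inv (hneg t ht)⟩

/-- biholomorphism from a global chart -/
def chartDiffeo (e : OpenPartialHomeomorph M E) (he : e ∈ maximalAtlas 𝓘(ℂ, E) 1 M)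
    (hs : e.source = univ) (ht : e.target = univ) : M ≃ₘ^1⟮𝓘(ℂ, E), 𝓘(ℂ, E)⟯ E where
  toFun := e
  invFun := e.symm
  left_inv x := e.left_inv (hs ▸ mem_univ x)
  right_inv z := e.right_inv (ht ▸ mem_univ z)
  contMDiff_toFun := by
    have h := contMDiffOn_of_mem_maximalAtlas he
    rw [hs, contMDiffOn_univ] at h
    exact h
  contMDiff_invFun := by
    have h := contMDiffOn_symm_of_mem_maximalAtlas he
    rw [ht, contMDiffOn_univ] at h
    exact h

theorem main (hK : IsKahler E M) [CompleteSpace M] [NoncompactSpace M] [ConnectedSpace M]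
    (hnn : ∀ x : M, NonnegBisectionalAt E x) (hρ : IsHolIsomFlow E ρ) {p : M}
    (hpos : PosBisectionalAt E p) (hp : IsPosFixedPoint E ρ p) :
    Nonempty (M ≃ₘ^1⟮𝓘(ℂ, E), 𝓘(ℂ, E)⟯ E) := by
  obtain ⟨hfix, b, m, hm, hw⟩ := hp
  set φ : E ≃L[ℂ] (Fin (Module.finrank ℂ E) → ℂ) := b.equivFun.toContinuousLinearEquiv with hφ
  have hweights : ∀ (t : ℝ) (v : E),
      (mfderiv 𝓘(ℂ, E) 𝓘(ℂ, E) (ρ t) p : E → E) v = LE φ m (t * I) v := by
    intro t
    let T₀ : E →L[ℂ] E := mfderiv 𝓘(ℂ, E) 𝓘(ℂ, E) (ρ t) p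
    let T : E →ₗ[ℂ] E := T₀.toLinearMap
    let L : E →ₗ[ℂ] E :=
      { toFun := LE φ m (t * I)
        map_add' := fun v w => by
          apply ext_coord (φ := φ); intro j
          simp only [LE_coord, map_add, Pi.add_apply]; ring
        map_smul' := fun c v => by
          apply ext_coord (φ := φ); intro j
          simp only [LE_coord, map_smul, Pi.smul_apply, smul_eq_mul, RingHom.id_apply]; ring }
    have hTL : T = L := by
      apply b.ext
      intro j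
      apply ext_coord (φ := φ)
      intro k
      have h1 : T (b j) = exp (t * m j * I) • b j := hw t j
      have h2 : φ (L (b j)) k = Complex.exp (t * I * m k) * φ (b j) k := LE_coord _ _ _
      rw [h1, h2, map_smul, Pi.smul_apply, smul_eq_mul]
      have h3 : φ (b j) k = if j = k then 1 else 0 := by
        simp [hφ]
      rw [h3]
      by_cases hjk : j = k
      · subst hjk
        rw [if_pos rfl]
        congr 2
        ring
      · rw [if_neg hjk]; simp
    intro v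
    exact congrArg (fun S : E →ₗ[ℂ] E => S v) hTL
  obtain ⟨e₀, he₀, δ, hδ, hps, hep, htgt, hequiv⟩ :=
    exists_linearizing_chart hρ hfix φ m hweights
  obtain ⟨Φ, hΦ0, hΦadd, hΦ, hcomm⟩ := exists_flow hK hnn hρ
  obtain ⟨e, he, het, hpe, hep', heq⟩ := exists_global_chart hm he₀ hδ hps hep htgt hΦ0 hΦadd
    (flow_holo hρ hΦ0 hΦadd hΦ) (flow_linear hρ hm hΦ0 hΦ he₀ htgt hequiv) hequiv hcomm
  have hsrc := source_eq_univ hK hnn hpos hρ hfix he het hpe hep' hm heq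
  exact ⟨chartDiffeo e he hsrc het⟩

end Vale.Agent.P253.Mfd
end
end
end
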